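import Vale.Agent.P361.LRO.Defs

/-!
P361, low-temperature order, block LOC (4), part (b): expansion of the law of a product of
independent random transpositions over the gates touching a window `B`.
-/

namespace Vale.Agent.P361.LRO.Loc

open Finset

variable {X : Type} [DecidableEq X]

/-- Expectation under `law l σ`, recursive form. -/
noncomputable def EL (σ : Equiv.Perm X) : List (X × X × ℝ) → (Equiv.Perm X → ℝ) → ℝ
  | [], f => f σ
  | g :: l, f => (1 - g.2.2) * EL σ l f +
      g.2.2 * EL σ l (fun π => f (Equiv.swap g.1 g.2.1 * π))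

theorem sum_law [Fintype X] (σ : Equiv.Perm X) (l : List (X × X × ℝ)) (f : Equiv.Perm X → ℝ) :
    ∑ π, law l σ π * f π = EL σ l f := by
  induction l generalizing f with
  | nil => simp [law, EL, Pi.single_apply]
  | cons g l ih =>
    have h1 : ∑ π, law l σ (Equiv.swap g.1 g.2.1 * π) * f π =
        ∑ π, law l σ π * f (Equiv.swap g.1 g.2.1 * π) := by
      rw [← Equiv.sum_comp (Equiv.mulLeft (Equiv.swap g.1 g.2.1))]
      refine Finset.sum_congr rfl fun π _ => ?_
      simp [← mul_assoc]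
    simp only [law, EL]
    rw [← ih, ← ih, ← h1]
    simp only [add_mul, Finset.sum_add_distrib, Finset.mul_sum, mul_assoc]

/-- All gate probabilities are in `[0, 1]`. -/
def Pr (l : List (X × X × ℝ)) : Prop := ∀ g ∈ l, 0 ≤ g.2.2 ∧ g.2.2 ≤ 1

omit [DecidableEq X] in
theorem Pr.head {g : X × X × ℝ} {l : List (X × X × ℝ)} (h : Pr (g :: l)) :
    0 ≤ g.2.2 ∧ g.2.2 ≤ 1 := h g (by simp)

omit [DecidableEq X] in
theorem Pr.tail {g : X × X × ℝ} {l : List (X × X × ℝ)} (h : Pr (g :: l)) : Pr l :=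
  fun g' hg' => h g' (by simp [hg'])

theorem EL_mono (σ : Equiv.Perm X) {l : List (X × X × ℝ)} (hl : Pr l) {f f' : Equiv.Perm X → ℝ}
    (h : ∀ π, f π ≤ f' π) : EL σ l f ≤ EL σ l f' := by
  induction l generalizing f f' with
  | nil => exact h σ
  | cons g l ih =>
    have hp := hl.head
    simp only [EL]
    exact add_le_add (mul_le_mul_of_nonneg_left (ih hl.tail h) (by linarith [hp.2]))
      (mul_le_mul_of_nonneg_left (ih hl.tail fun π => h _) hp.1)

theorem EL_const_mul (σ : Equiv.Perm X) (l : List (X × X × ℝ)) (c : ℝ) (f : Equiv.Perm X → ℝ) :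
    EL σ l (fun π => c * f π) = c * EL σ l f := by
  induction l generalizing f with
  | nil => rfl
  | cons g l ih =>
    simp only [EL]
    rw [ih, ih (fun π => f (Equiv.swap g.1 g.2.1 * π))]
    ring

theorem EL_nonneg (σ : Equiv.Perm X) {l : List (X × X × ℝ)} (hl : Pr l) {f : Equiv.Perm X → ℝ}
    (h : ∀ π, 0 ≤ f π) : 0 ≤ EL σ l f := by
  induction l generalizing f with
  | nil => exact h σ
  | cons g l ih =>
    have hp := hl.head
    simp only [EL]
    exact add_nonneg (mul_nonneg (by linarith [hp.2]) (ih hl.tail h))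
      (mul_nonneg hp.1 (ih hl.tail fun π => h _))

/-- The gate touches the window. -/
def Bad (B : Finset X) (g : X × X × ℝ) : Prop := g.1 ∈ B ∨ g.2.1 ∈ B

instance (B : Finset X) : DecidablePred (Bad B) := fun g => by unfold Bad; infer_instance

/-- All gates touching the window are closed. -/
noncomputable def E0 (σ : Equiv.Perm X) (B : Finset X) :
    List (X × X × ℝ) → (Equiv.Perm X → ℝ) → ℝ
  | [], f => f σ
  | g :: l, f => (1 - g.2.2) * E0 σ B l f +
      if Bad B g then 0 else g.2.2 * E0 σ B l (fun π => f (Equiv.swap g.1 g.2.1 * π))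

/-- Exactly one gate touching the window is open, and it is good. -/
noncomputable def E1 (σ : Equiv.Perm X) (B : Finset X) (good : X × X × ℝ → Prop)
    [DecidablePred good] : List (X × X × ℝ) → (Equiv.Perm X → ℝ) → ℝ
  | [], _ => 0
  | g :: l, f => (1 - g.2.2) * E1 σ B good l f +
      if Bad B g then
        (if good g then g.2.2 * E0 σ B l (fun π => f (Equiv.swap g.1 g.2.1 * π)) else 0)
      else g.2.2 * E1 σ B good l (fun π => f (Equiv.swap g.1 g.2.1 * π))

/-- `π` follows `σ` in the window. -/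
def Agr (σ : Equiv.Perm X) (B : Finset X) (π : Equiv.Perm X) : Prop := ∀ z, σ z ∈ B → π z = σ z

theorem Agr.swap {σ : Equiv.Perm X} {B : Finset X} {π : Equiv.Perm X} (h : Agr σ B π)
    {g : X × X × ℝ} (hg : ¬ Bad B g) : Agr σ B (Equiv.swap g.1 g.2.1 * π) := by
  intro z hz
  unfold Bad at hg
  push Not at hg
  rw [Equiv.Perm.mul_apply, h z hz]
  apply Equiv.swap_apply_of_ne_of_ne
  · intro h1; exact hg.1 (h1 ▸ hz)
  · intro h1; exact hg.2 (h1 ▸ hz)

theorem E0_mono_on (σ : Equiv.Perm X) (B : Finset X) {l : List (X × X × ℝ)} (hl : Pr l)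
    {f f' : Equiv.Perm X → ℝ} (h : ∀ π, Agr σ B π → f π ≤ f' π) : E0 σ B l f ≤ E0 σ B l f' := by
  induction l generalizing f f' with
  | nil => exact h σ fun z _ => rfl
  | cons g l ih =>
    have hp := hl.head
    simp only [E0]
    refine add_le_add (mul_le_mul_of_nonneg_left (ih hl.tail h) (by linarith [hp.2])) ?_
    split_ifs with hb
    · exact le_rfl
    · exact mul_le_mul_of_nonneg_left (ih hl.tail fun π hπ => h _ (hπ.swap hb)) hp.1

theorem E0_const_mul (σ : Equiv.Perm X) (B : Finset X) (l : List (X × X × ℝ)) (c : ℝ)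
    (f : Equiv.Perm X → ℝ) : E0 σ B l (fun π => c * f π) = c * E0 σ B l f := by
  induction l generalizing f with
  | nil => rfl
  | cons g l ih =>
    simp only [E0]
    rw [ih, ih (fun π => f (Equiv.swap g.1 g.2.1 * π))]
    split_ifs <;> ring

theorem E0_nonneg (σ : Equiv.Perm X) (B : Finset X) {l : List (X × X × ℝ)} (hl : Pr l)
    {f : Equiv.Perm X → ℝ} (h : ∀ π, 0 ≤ f π) : 0 ≤ E0 σ B l f := by
  have h1 := E0_mono_on σ B hl (f := fun _ => 0 * 0) (f' := f) (fun π _ => by simpa using h π)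
  rw [E0_const_mul σ B l 0 (fun _ => 0)] at h1
  simpa using h1

theorem E0_le_EL (σ : Equiv.Perm X) (B : Finset X) {l : List (X × X × ℝ)} (hl : Pr l)
    {f : Equiv.Perm X → ℝ} (h : ∀ π, 0 ≤ f π) : E0 σ B l f ≤ EL σ l f := by
  induction l generalizing f with
  | nil => exact le_rfl
  | cons g l ih =>
    have hp := hl.head
    simp only [E0, EL]
    refine add_le_add (mul_le_mul_of_nonneg_left (ih hl.tail h) (by linarith [hp.2])) ?_
    split_ifs with hb
    · exact mul_nonneg hp.1 (EL_nonneg σ hl.tail fun π => h _)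
    · exact mul_le_mul_of_nonneg_left (ih hl.tail fun π => h _) hp.1

theorem E1_le_EL (σ : Equiv.Perm X) (B : Finset X) (good : X × X × ℝ → Prop)
    [DecidablePred good] {l : List (X × X × ℝ)} (hl : Pr l)
    {f : Equiv.Perm X → ℝ} (h : ∀ π, 0 ≤ f π) : E1 σ B good l f ≤ EL σ l f := by
  induction l generalizing f with
  | nil => exact h σ
  | cons g l ih =>
    have hp := hl.head
    simp only [E1, EL]
    refine add_le_add (mul_le_mul_of_nonneg_left (ih hl.tail h) (by linarith [hp.2])) ?_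
    split_ifs with hb hg
    · exact mul_le_mul_of_nonneg_left (E0_le_EL σ B hl.tail fun π => h _) hp.1
    · exact mul_nonneg hp.1 (EL_nonneg σ hl.tail fun π => h _)
    · exact mul_le_mul_of_nonneg_left (ih hl.tail fun π => h _) hp.1

/-- Doubling class: one transposition changes `F` by at most a factor `2`. -/
def Dbl (F : Equiv.Perm X → ℝ) : Prop :=
  (∀ π, 0 ≤ F π) ∧ ∀ a b π, F (Equiv.swap a b * π) ≤ 2 * F π

theorem Dbl.swap {F : Equiv.Perm X → ℝ} (h : Dbl F) (c d : X) :
    Dbl (fun π => F (Equiv.swap c d * π)) := by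
  refine ⟨fun π => h.1 _, fun a b π => ?_⟩
  have h1 : Equiv.swap c d * (Equiv.swap a b * π) =
      Equiv.swap (Equiv.swap c d a) (Equiv.swap c d b) * (Equiv.swap c d * π) := by
    rw [Equiv.swap_apply_apply, ← mul_assoc, ← mul_assoc]
    simp [mul_assoc]
  show F (Equiv.swap c d * (Equiv.swap a b * π)) ≤ 2 * F (Equiv.swap c d * π)
  rw [h1]
  exact h.2 _ _ _

/-- `∏ (1 - p) / (1 + p)` over the gates touching the window. -/
noncomputable def DD (B : Finset X) (l : List (X × X × ℝ)) : ℝ :=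
  (l.map fun g => if Bad B g then (1 - g.2.2) / (1 + g.2.2) else 1).prod

theorem DD_cons (B : Finset X) (g : X × X × ℝ) (l : List (X × X × ℝ)) :
    DD B (g :: l) = (if Bad B g then (1 - g.2.2) / (1 + g.2.2) else 1) * DD B l := by
  simp [DD]

theorem DD_nonneg (B : Finset X) {l : List (X × X × ℝ)} (hl : Pr l) : 0 ≤ DD B l := by
  induction l with
  | nil => simp [DD]
  | cons g l ih =>
    have hp := hl.head
    rw [DD_cons]
    refine mul_nonneg ?_ (ih hl.tail)
    split_ifs
    · exact div_nonneg (by linarith [hp.2]) (by linarith [hp.1])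
    · exact zero_le_one

theorem DD_mul_EL_le (σ : Equiv.Perm X) (B : Finset X) {l : List (X × X × ℝ)} (hl : Pr l)
    {F : Equiv.Perm X → ℝ} (hF : Dbl F) : DD B l * EL σ l F ≤ E0 σ B l F := by
  induction l generalizing F with
  | nil => simp [DD, EL, E0]
  | cons g l ih =>
    have hp := hl.head
    have hD := DD_nonneg B hl.tail
    have h1 := ih hl.tail hF
    rw [DD_cons]
    simp only [EL, E0]
    split_ifs with hb
    · have h2 : EL σ l (fun π => F (Equiv.swap g.1 g.2.1 * π)) ≤ 2 * EL σ l F := by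
        rw [← EL_const_mul]
        exact EL_mono σ hl.tail fun π => hF.2 _ _ _
      have h3 : (1 - g.2.2) * EL σ l F +
          g.2.2 * EL σ l (fun π => F (Equiv.swap g.1 g.2.1 * π)) ≤ (1 + g.2.2) * EL σ l F := by
        nlinarith [mul_le_mul_of_nonneg_left h2 hp.1]
      have h4 : (0 : ℝ) < 1 + g.2.2 := by linarith [hp.1]
      calc (1 - g.2.2) / (1 + g.2.2) * DD B l * ((1 - g.2.2) * EL σ l F +
            g.2.2 * EL σ l (fun π => F (Equiv.swap g.1 g.2.1 * π)))
          ≤ (1 - g.2.2) / (1 + g.2.2) * DD B l * ((1 + g.2.2) * EL σ l F) :=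
            mul_le_mul_of_nonneg_left h3
              (mul_nonneg (div_nonneg (by linarith [hp.2]) h4.le) hD)
        _ = (1 - g.2.2) * (DD B l * EL σ l F) := by field_simp
        _ ≤ (1 - g.2.2) * E0 σ B l F := mul_le_mul_of_nonneg_left h1 (by linarith [hp.2])
        _ = (1 - g.2.2) * E0 σ B l F + 0 := by ring
    · have h2 := ih hl.tail (hF.swap g.1 g.2.1)
      have h5 := mul_le_mul_of_nonneg_left h1 (by linarith [hp.2] : 0 ≤ 1 - g.2.2)
      have h6 := mul_le_mul_of_nonneg_left h2 hp.1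
      linarith [h5, h6, mul_add (DD B l) ((1 - g.2.2) * EL σ l F)
        (g.2.2 * EL σ l (fun π => F (Equiv.swap g.1 g.2.1 * π)))]

/-- **(b1)** -/
theorem EL_ge_of_agr (σ : Equiv.Perm X) (B : Finset X) {l : List (X × X × ℝ)} (hl : Pr l)
    {f F : Equiv.Perm X → ℝ} (hf : ∀ π, 0 ≤ f π) (hF : Dbl F) {c : ℝ} (hc : 0 ≤ c)
    (h : ∀ π, Agr σ B π → c * F π ≤ f π) : c * DD B l * EL σ l F ≤ EL σ l f := by
  calc c * DD B l * EL σ l F = c * (DD B l * EL σ l F) := by ring
    _ ≤ c * E0 σ B l F := mul_le_mul_of_nonneg_left (DD_mul_EL_le σ B hl hF) hc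
    _ = E0 σ B l (fun π => c * F π) := (E0_const_mul σ B l c F).symm
    _ ≤ E0 σ B l f := E0_mono_on σ B hl h
    _ ≤ EL σ l f := E0_le_EL σ B hl hf

/-- Sum of the probabilities of the good gates. -/
noncomputable def GG (B : Finset X) (good : X × X × ℝ → Prop) [DecidablePred good]
    (l : List (X × X × ℝ)) : ℝ :=
  (l.map fun g => if Bad B g ∧ good g then g.2.2 else 0).sum

theorem GG_cons (B : Finset X) (good : X × X × ℝ → Prop) [DecidablePred good]
    (g : X × X × ℝ) (l : List (X × X × ℝ)) :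
    GG B good (g :: l) = (if Bad B g ∧ good g then g.2.2 else 0) + GG B good l := by
  simp [GG]

theorem GG_nonneg (B : Finset X) (good : X × X × ℝ → Prop) [DecidablePred good]
    {l : List (X × X × ℝ)} (hl : Pr l) : 0 ≤ GG B good l := by
  induction l with
  | nil => simp [GG]
  | cons g l ih =>
    have hp := hl.head
    rw [GG_cons]
    refine add_nonneg ?_ (ih hl.tail)
    split_ifs
    · exact hp.1
    · exact le_rfl

theorem swap_comm_of {B : Finset X} {g h : X × X × ℝ} (hg : g.1 ∈ B ∧ g.2.1 ∈ B)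
    (hh : ¬ Bad B h) (π : Equiv.Perm X) :
    Equiv.swap h.1 h.2.1 * (Equiv.swap g.1 g.2.1 * π) =
      Equiv.swap g.1 g.2.1 * (Equiv.swap h.1 h.2.1 * π) := by
  unfold Bad at hh
  push Not at hh
  have h1 : g.1 ≠ h.1 := by rintro h1; exact hh.1 (h1 ▸ hg.1)
  have h2 : g.1 ≠ h.2.1 := by rintro h1; exact hh.2 (h1 ▸ hg.1)
  have h3 : g.2.1 ≠ h.1 := by rintro h1; exact hh.1 (h1 ▸ hg.2)
  have h4 : g.2.1 ≠ h.2.1 := by rintro h1; exact hh.2 (h1 ▸ hg.2)
  have h5 : Equiv.swap h.1 h.2.1 * Equiv.swap g.1 g.2.1 =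
      Equiv.swap (Equiv.swap h.1 h.2.1 g.1) (Equiv.swap h.1 h.2.1 g.2.1) *
        Equiv.swap h.1 h.2.1 := by
    rw [Equiv.swap_apply_apply]
    simp [mul_assoc]
  rw [← mul_assoc, ← mul_assoc, h5, Equiv.swap_apply_of_ne_of_ne h1 h2,
    Equiv.swap_apply_of_ne_of_ne h3 h4]

theorem E1_ge (σ : Equiv.Perm X) (B : Finset X) (good : X × X × ℝ → Prop)
    [DecidablePred good] (hgood : ∀ g, good g → g.1 ∈ B ∧ g.2.1 ∈ B)
    {l : List (X × X × ℝ)} (hl : Pr l)
    {f F : Equiv.Perm X → ℝ} (hF : ∀ π, 0 ≤ F π) {c : ℝ} (hc : 0 ≤ c)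
    (h : ∀ g ∈ l, good g → ∀ π, Agr σ B π → c * F π ≤ f (Equiv.swap g.1 g.2.1 * π)) :
    c * GG B good l * E0 σ B l F ≤ E1 σ B good l f := by
  induction l generalizing f F with
  | nil => simp [GG, E1]
  | cons g l ih =>
    have hp := hl.head
    have hG := GG_nonneg B good hl.tail
    have h0 := E0_nonneg σ B hl.tail hF
    have h1 := ih hl.tail hF fun g' hg' => h g' (by simp [hg'])
    have hp1 : 0 ≤ 1 - g.2.2 := by linarith [hp.2]
    rw [GG_cons]
    simp only [E1, E0]
    by_cases hb : Bad B g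
    · by_cases hgd : good g
      · simp only [hb, hgd, and_self, if_true, add_zero]
        have h2 : c * E0 σ B l F ≤ E0 σ B l (fun π => f (Equiv.swap g.1 g.2.1 * π)) := by
          rw [← E0_const_mul]
          exact E0_mono_on σ B hl.tail (h g (by simp) hgd)
        have h3 := mul_le_mul_of_nonneg_left h1 hp1
        have h4 := mul_le_mul_of_nonneg_left h2 hp.1
        have h5 : 0 ≤ c * E0 σ B l F := mul_nonneg hc h0
        nlinarith [mul_nonneg (mul_nonneg hp.1 hp.1) h5]
      · simp only [hb, hgd, and_false, if_true, if_false, add_zero, zero_add]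
        have h3 := mul_le_mul_of_nonneg_left h1 hp1
        linarith
    · simp only [hb, false_and, if_false, zero_add]
      have h2 := ih (f := fun π => f (Equiv.swap g.1 g.2.1 * π))
        (F := fun π => F (Equiv.swap g.1 g.2.1 * π)) hl.tail (fun π => hF _)
        (fun g' hg' hgd π hπ => by
          rw [swap_comm_of (hgood g' hgd) hb]
          exact h g' (by simp [hg']) hgd _ (hπ.swap hb))
      have h3 := mul_le_mul_of_nonneg_left h1 hp1
      have h4 := mul_le_mul_of_nonneg_left h2 hp.1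
      linarith [mul_add (c * GG B good l) ((1 - g.2.2) * E0 σ B l F)
        (g.2.2 * E0 σ B l (fun π => F (Equiv.swap g.1 g.2.1 * π)))]

/-- **(b2)** -/
theorem EL_ge_of_swap (σ : Equiv.Perm X) (B : Finset X) (good : X × X × ℝ → Prop)
    [DecidablePred good] (hgood : ∀ g, good g → g.1 ∈ B ∧ g.2.1 ∈ B)
    {l : List (X × X × ℝ)} (hl : Pr l)
    {f F : Equiv.Perm X → ℝ} (hf : ∀ π, 0 ≤ f π) (hF : Dbl F) {c : ℝ} (hc : 0 ≤ c)
    (h : ∀ g ∈ l, good g → ∀ π, Agr σ B π → c * F π ≤ f (Equiv.swap g.1 g.2.1 * π)) :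
    c * GG B good l * DD B l * EL σ l F ≤ EL σ l f := by
  calc c * GG B good l * DD B l * EL σ l F = c * GG B good l * (DD B l * EL σ l F) := by ring
    _ ≤ c * GG B good l * E0 σ B l F :=
        mul_le_mul_of_nonneg_left (DD_mul_EL_le σ B hl hF) (mul_nonneg hc (GG_nonneg B good hl))
    _ ≤ E1 σ B good l f := E1_ge σ B good hgood hl hF.1 hc h
    _ ≤ EL σ l f := E1_le_EL σ B good hl hf

end Vale.Agent.P361.LRO.Loc
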