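import Vale.Agent.P361.LRO.Loc.Iface
import Vale.Agent.P361.LRO.Loc.Law

/-!
P361, low-temperature order, block LOC (4): the charge law is an electrical network.
-/

namespace Vale.Agent.P361.LRO.Loc

open Finset Vale.Agent.P361.LRO

noncomputable section

variable {X : Type} [Fintype X] [DecidableEq X]

omit [Fintype X] [DecidableEq X] in
theorem Pr_of_law {l : List (X × X × ℝ)} (hl : ∀ g ∈ l, 0 ≤ g.2.2 ∧ g.2.2 ≤ 1 / 2) : Pr l :=
  fun g hg => ⟨(hl g hg).1, by linarith [(hl g hg).2]⟩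

theorem law_nonneg_of_Pr {l : List (X × X × ℝ)} (hl : Pr l) (σ π : Equiv.Perm X) : 0 ≤ law l σ π := by
  induction l generalizing π with
  | nil =>
    simp only [law, Pi.single_apply]
    split_ifs <;> norm_num
  | cons g l ih =>
    have hp := hl.head
    simp only [law]
    exact add_nonneg (mul_nonneg (by linarith [hp.2]) (ih hl.tail _))
      (mul_nonneg hp.1 (ih hl.tail _))

theorem law_sum_one (l : List (X × X × ℝ)) (σ : Equiv.Perm X) : ∑ π, law l σ π = 1 := by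
  have h := sum_law σ l (fun _ => 1)
  simp only [mul_one] at h
  rw [h]
  induction l with
  | nil => rfl
  | cons g l ih =>
    simp only [EL]
    rw [ih (by rw [← sum_law]; simp)]
    ring

theorem isLaw_nonneg {μ : Equiv.Perm X → ℝ} (h : IsLaw μ) (π : Equiv.Perm X) : 0 ≤ μ π := by
  obtain ⟨l, σ, hl, rfl⟩ := h
  exact law_nonneg_of_Pr (Pr_of_law hl) σ π

theorem isLaw_sum_one {μ : Equiv.Perm X → ℝ} (h : IsLaw μ) : ∑ π, μ π = 1 := by
  obtain ⟨l, σ, hl, rfl⟩ := h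
  exact law_sum_one l σ

theorem ZZ_eq (hF : FourierStmt) (μ : Equiv.Perm X → ℝ) (θ : X → ℝ) :
    ZZ μ θ = ∑ π, μ π * Zp π θ := by
  unfold ZZ
  refine Finset.sum_congr rfl fun π _ => ?_
  rw [← (hF X π θ).1, Finset.mul_sum]

theorem ZZ_pos (hF : FourierStmt) (hR : RingStmt) {μ : Equiv.Perm X → ℝ} (hμ : IsLaw μ)
    {θ : X → ℝ} (hθ : ∀ x, 0 ≤ θ x ∧ θ x ≤ 1) : 0 < ZZ μ θ := by
  rw [ZZ_eq hF]
  have h1 : ∃ π ∈ (Finset.univ : Finset (Equiv.Perm X)), μ π ≠ 0 := by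
    apply Finset.exists_ne_zero_of_sum_ne_zero
    rw [isLaw_sum_one hμ]
    norm_num
  obtain ⟨π, _, hπ⟩ := h1
  exact Finset.sum_pos' (fun π _ => mul_nonneg (isLaw_nonneg hμ π) ((hR X π θ hθ).1).le)
    ⟨π, Finset.mem_univ π,
      mul_pos (lt_of_le_of_ne (isLaw_nonneg hμ π) (Ne.symm hπ)) (hR X π θ hθ).1⟩

theorem cc_eq_Zf (hF : FourierStmt) (μ : Equiv.Perm X → ℝ) (θ : X → ℝ) {u v : X} (huv : u ≠ v) :
    cc μ θ u v = (∑ π, μ π * (θ u * θ v * Zf π θ u v)) / ZZ μ θ := by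
  unfold cc EE
  rw [← neg_div]
  congr 1
  rw [← Finset.sum_neg_distrib]
  refine Finset.sum_congr rfl fun π _ => ?_
  rw [← (hF X π θ).2.1 u v huv, mul_neg, Finset.mul_sum]
  congr 1
  refine Finset.sum_congr rfl fun s _ => ?_
  ring

omit [DecidableEq X] in
theorem jj_sum (π : Equiv.Perm X) (s : X → Fin 2) : ∑ x, jj π s x = 0 := by
  unfold jj
  rw [Finset.sum_sub_distrib, sub_eq_zero]
  exact (Equiv.sum_comp π fun x => ((s x : ℕ) : ℝ)).symm

theorem sq_eq_pairs (a j : X → ℝ) (hj : ∑ x, j x = 0) :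
    (∑ x, a x * j x) ^ 2 =
      -((1 / 2) * ∑ u, ∑ v ∈ Finset.univ.erase u, (j u * j v) * (a u - a v) ^ 2) := by
  have h1 : ∀ u, ∑ v ∈ Finset.univ.erase u, (j u * j v) * (a u - a v) ^ 2 =
      ∑ v, (j u * j v) * (a u - a v) ^ 2 := by
    intro u
    rw [← Finset.add_sum_erase Finset.univ _ (Finset.mem_univ u)]
    simp
  simp_rw [h1]
  have h2 : ∀ u v, (j u * j v) * (a u - a v) ^ 2 =
      (a u ^ 2 * j u) * j v - 2 * ((a u * j u) * (a v * j v)) + j u * (a v ^ 2 * j v) := by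
    intro u v; ring
  simp_rw [h2, Finset.sum_add_distrib, Finset.sum_sub_distrib, ← Finset.mul_sum, hj,
    ← Finset.sum_mul, hj]
  ring

theorem EE_add (μ : Equiv.Perm X → ℝ) (θ : X → ℝ) (f g : Equiv.Perm X → (X → Fin 2) → ℝ) :
    EE μ θ (fun π s => f π s + g π s) = EE μ θ f + EE μ θ g := by
  unfold EE
  rw [← add_div]
  congr 1
  simp only [mul_add, Finset.sum_add_distrib]

theorem EE_mul (μ : Equiv.Perm X → ℝ) (θ : X → ℝ) (c : ℝ)
    (f : Equiv.Perm X → (X → Fin 2) → ℝ) :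
    EE μ θ (fun π s => c * f π s) = c * EE μ θ f := by
  unfold EE
  rw [← mul_div_assoc]
  congr 1
  simp only [Finset.mul_sum]
  refine Finset.sum_congr rfl fun π _ => Finset.sum_congr rfl fun s _ => ?_
  ring

theorem EE_zero (μ : Equiv.Perm X → ℝ) (θ : X → ℝ) :
    EE μ θ (fun _ _ => 0) = 0 := by
  simp [EE]

theorem EE_sum (μ : Equiv.Perm X → ℝ) (θ : X → ℝ) {ι : Type*} (t : Finset ι)
    (f : ι → Equiv.Perm X → (X → Fin 2) → ℝ) :
    EE μ θ (fun π s => ∑ i ∈ t, f i π s) = ∑ i ∈ t, EE μ θ (f i) := by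
  classical
  induction t using Finset.induction_on with
  | empty => simp [EE_zero]
  | insert i t hi ih =>
    simp only [Finset.sum_insert hi]
    rw [EE_add, ih]

theorem cc_symm (μ : Equiv.Perm X → ℝ) (θ : X → ℝ) (u v : X) : cc μ θ u v = cc μ θ v u := by
  unfold cc
  simp only [mul_comm (jj _ _ u)]

theorem cc_sum (μ : Equiv.Perm X → ℝ) (θ : X → ℝ) (u : X) :
    ∑ v ∈ univ.erase u, cc μ θ u v = vv μ θ u := by
  unfold cc vv
  rw [Finset.sum_neg_distrib, ← EE_sum]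
  have h : ∀ (π : Equiv.Perm X) (s : X → Fin 2),
      ∑ v ∈ univ.erase u, jj π s u * jj π s v = (-1) * jj π s u ^ 2 := by
    intro π s
    have h1 := jj_sum π s
    rw [← Finset.add_sum_erase Finset.univ _ (Finset.mem_univ u)] at h1
    rw [← Finset.mul_sum]
    have h2 : ∑ v ∈ univ.erase u, jj π s v = - jj π s u := by linarith
    rw [h2]
    ring
  simp_rw [h]
  rw [EE_mul]
  ring

theorem KK_eq (μ : Equiv.Perm X → ℝ) (θ : X → ℝ) (a : X → ℝ) :
    KK μ θ a = (1 / 2) * ∑ u, ∑ v ∈ univ.erase u, cc μ θ u v * (a u - a v) ^ 2 := by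
  unfold KK
  have h : ∀ (π : Equiv.Perm X) (s : X → Fin 2), (∑ x, a x * jj π s x) ^ 2 =
      (-(1 / 2)) * ∑ u, ∑ v ∈ univ.erase u, ((a u - a v) ^ 2) * (jj π s u * jj π s v) := by
    intro π s
    rw [sq_eq_pairs a _ (jj_sum π s)]
    rw [neg_mul]
    congr 2
    refine Finset.sum_congr rfl fun u _ => Finset.sum_congr rfl fun v _ => ?_
    ring
  simp_rw [h]
  rw [EE_mul, EE_sum]
  simp_rw [EE_sum, EE_mul]
  rw [neg_mul, ← mul_neg, ← Finset.sum_neg_distrib]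
  congr 1
  refine Finset.sum_congr rfl fun u _ => ?_
  rw [← Finset.sum_neg_distrib]
  refine Finset.sum_congr rfl fun v _ => ?_
  unfold cc
  ring

omit [Fintype X] [DecidableEq X] in
theorem jj_sq (π : Equiv.Perm X) (s : X → Fin 2) (u : X) :
    jj π s u ^ 2 = if s u = s (π u) then 0 else 1 := by
  unfold jj
  generalize s u = a
  generalize s (π u) = b
  fin_cases a <;> fin_cases b <;> simp

theorem node_le (π : Equiv.Perm X) {θ : X → ℝ} (hθ : ∀ x, 0 ≤ θ x ∧ θ x ≤ 1) (u : X) :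
    (∑ t : X → Fin 2, if (∀ x, t (π x) = t x) then
        ∏ x, (if x = u then sg (t x) else 1 + θ x * sg (t x)) else 0) ≤ Zp π θ := by
  unfold Zp
  refine Finset.sum_le_sum fun t _ => ?_
  by_cases hq : ∀ x, t (π x) = t x
  · rw [if_pos hq, if_pos hq]
    rw [← Finset.mul_prod_erase Finset.univ _ (Finset.mem_univ u),
      ← Finset.mul_prod_erase Finset.univ (fun x => 1 + θ x * sg (t x)) (Finset.mem_univ u)]
    rw [if_pos rfl]
    have h1 : ∏ x ∈ univ.erase u, (if x = u then sg (t x) else 1 + θ x * sg (t x)) =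
        ∏ x ∈ univ.erase u, (1 + θ x * sg (t x)) := by
      refine Finset.prod_congr rfl fun x hx => ?_
      rw [if_neg (Finset.ne_of_mem_erase hx)]
    rw [h1]
    have hsg : ∀ a : Fin 2, sg a = 1 ∨ sg a = -1 := by
      intro a
      fin_cases a <;> simp [sg]
    refine mul_le_mul_of_nonneg_right ?_ (Finset.prod_nonneg fun x _ => ?_)
    · have := hθ u
      rcases hsg (t u) with h | h <;> rw [h] <;> linarith [this.1, this.2]
    · have := hθ x
      rcases hsg (t x) with h | h <;> rw [h] <;> linarith [this.1, this.2]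
  · rw [if_neg hq, if_neg hq]

theorem vv_le (hF : FourierStmt) (hR : RingStmt) {μ : Equiv.Perm X → ℝ} (hμ : IsLaw μ)
    {θ : X → ℝ} (hθ : ∀ x, 0 ≤ θ x ∧ θ x ≤ 1) (u : X) : vv μ θ u ≤ θ u := by
  have hZ := ZZ_pos hF hR hμ hθ
  unfold vv EE
  rw [div_le_iff₀ hZ, ZZ_eq hF, Finset.mul_sum]
  refine Finset.sum_le_sum fun π _ => ?_
  have h1 : ∑ s, μ π * wt θ π s * jj π s u ^ 2 =
      μ π * ∑ s, (if s u = s (π u) then 0 else wt θ π s) := by
    rw [Finset.mul_sum]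
    refine Finset.sum_congr rfl fun s _ => ?_
    rw [jj_sq]
    split_ifs <;> ring
  rw [h1, (hF X π θ).2.2 u]
  have h2 := node_le π hθ u
  have h3 := mul_le_mul_of_nonneg_left h2 (mul_nonneg (isLaw_nonneg hμ π) (hθ u).1)
  calc μ π * (θ u * ∑ t : X → Fin 2, if (∀ x, t (π x) = t x) then
        ∏ x, (if x = u then sg (t x) else 1 + θ x * sg (t x)) else 0)
      = μ π * θ u * ∑ t : X → Fin 2, (if (∀ x, t (π x) = t x) then
        ∏ x, (if x = u then sg (t x) else 1 + θ x * sg (t x)) else 0) := by ring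
    _ ≤ μ π * θ u * Zp π θ := h3
    _ = θ u * (μ π * Zp π θ) := by ring

theorem netStmt (hF : FourierStmt) (hR : RingStmt) (hA : ArcStmt) : NetStmt := by
  intro X _ _ μ hμ θ hθ
  have hZ := ZZ_pos hF hR hμ hθ
  refine ⟨hZ, ?_, cc_symm μ θ, cc_sum μ θ, KK_eq μ θ, vv_le hF hR hμ hθ⟩
  intro u v huv
  rw [cc_eq_Zf hF μ θ huv]
  refine div_nonneg (Finset.sum_nonneg fun π _ => ?_) hZ.le
  exact mul_nonneg (isLaw_nonneg hμ π)
    (mul_nonneg (mul_nonneg (hθ u).1 (hθ v).1) (hA X π θ hθ u v huv).1)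

end

end Vale.Agent.P361.LRO.Loc
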