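import Vale.Agent.P361.LRO.Loc.Ext
import Vale.Agent.P361.LRO.Loc.Net

/-!
P361 LRO, block (4) LOC, done: `locSame`, `locNN`, `net`, `loc` (form of `Skel/Low.lean`) and
`locE` (extra gates between the layers `N` and `0`, any degree bound).
-/

namespace Vale.Agent.P361.LRO

open Finset

noncomputable section

theorem locSame (V : Type) [Fintype V] [DecidableEq V] (L : List (V × V)) (d : ℕ) :
    Loc.LocSame V L d := by
  intro β N hβ hβN hdeg θ hθ x k k' τ h0 h1 hkk hbd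
  have hN : (0 : ℝ) < N := lt_of_lt_of_le hβ hβN
  have hp1 : β / (2 * N) ≤ 1 := by
    rw [div_le_one (by positivity)]; linarith
  have := Loc.Ext.same L d N (β / (2 * N)) (by positivity) hp1 [] []
    (fun g hg => by simp at hg) (fun g hg => by simp at hg) hdeg θ hθ x k k' τ h0 h1 hkk hbd
  simpa only [phys, List.nil_append, List.append_nil] using this

theorem locNN (V : Type) [Fintype V] [DecidableEq V] (L : List (V × V)) (d : ℕ) :
    Loc.LocNN V L d := by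
  intro β N hβ hβN hdeg θ hθ x y k k' τ hxy hL h0 h1 hkk hbd
  have hN : (0 : ℝ) < N := lt_of_lt_of_le hβ hβN
  have hp1 : β / (2 * N) ≤ 1 := by
    rw [div_le_one (by positivity)]; linarith
  have := Loc.Ext.nn L d N (β / (2 * N)) (by positivity) hp1 [] []
    (fun g hg => by simp at hg) (fun g hg => by simp at hg) hdeg θ hθ x y k k' τ hxy hL h0 h1
    hkk hbd
  simpa only [phys, List.nil_append, List.append_nil] using this

/-- positivity of the conductances, network form of `K`, `v ≤ θ` -/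
theorem locNet : Loc.NetStmt := Loc.netStmt Loc.fourierStmt Loc.ringStmt Loc.arcStmt

/-- **Block (4)**, form of `Skel/Low.lean`. -/
theorem loc : ∃ c0 : ℝ, 0 < c0 ∧ ∀ {V : Type} [Fintype V] [DecidableEq V] (L : List (V × V)),
    (∀ x, deg L x ≤ 6) → ∀ (β : ℝ), 1 ≤ β → ∀ N : ℕ, 8 * β ≤ N → ∀ h T : V → ℝ,
    (∀ x, 0 ≤ h x ∧ h x ≤ 1) → (∀ x, 0 ≤ T x ∧ T x ≤ 1) →
    (∀ (k k' : Fin (N + 1)) (x : V), 0 < k → k < k' → ((k' : ℝ) - (k : ℝ)) * β / N ≤ 1 →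
      c0 * (β * h x / (2 * N)) ^ 2 ≤ cc (phys L β N) (th β N h T) (k, x) (k', x)) ∧
    (∀ (k k' : Fin (N + 1)) (x y : V), 0 < k → k < k' → 1 / 4 ≤ ((k' : ℝ) - (k : ℝ)) * β / N →
      ((k' : ℝ) - (k : ℝ)) * β / N ≤ 1 → ((x, y) ∈ L ∨ (y, x) ∈ L) → x ≠ y →
      c0 * (β * h x / (2 * N)) * (β * h y / (2 * N)) ≤
        cc (phys L β N) (th β N h T) (k, x) (k', y)) ∧
    (∀ (k : Fin (N + 1)) (x : V), 0 < k → (k : ℝ) * β / N ≤ 1 →
      c0 * T x * (β * h x / (2 * N)) ≤ cc (phys L β N) (th β N h T) (0, x) (k, x)) :=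
  loc_of (fun V _ _ L => locSame V L 6) (fun V _ _ L => locNN V L 6)

namespace Loc.Done

open Vale.Agent.P361.LRO.Loc.Final

variable {V : Type} [Fintype V] [DecidableEq V]

lemma sameE (D : ℕ) (L : List (V × V)) (hL : ∀ x, deg L x ≤ D) {β : ℝ} (h1 : 1 ≤ β) {N : ℕ}
    (hN : 8 * β ≤ N) {E₁ E₂ : List ((Fin (N + 1) × V) × (Fin (N + 1) × V) × ℝ)}
    (hE₁ : OutG N E₁) (hE₂ : OutG N E₂) {h T : V → ℝ}
    (hh : ∀ x, 0 ≤ h x ∧ h x ≤ 1) (hT : ∀ x, 0 ≤ T x ∧ T x ≤ 1)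
    (k k' : Fin (N + 1)) (x : V) (hk : k < k') (ht : ((k' : ℝ) - (k : ℝ)) * β / N ≤ 1) :
    Real.exp (-(4 * D + 2 : ℝ)) / 64 * (th β N h T (k, x) * th β N h T (k', x)) ≤
      cc (physE E₁ E₂ L β) (th β N h T) (k, x) (k', x) := by
  have hN0 : (0 : ℝ) < N := by linarith
  have hβ0 : (0 : ℝ) < β := by linarith
  set p : ℝ := β / (2 * N) with hp
  have hp0 : 0 ≤ p := by positivity
  have hp1 : p ≤ 1 / 16 := by
    rw [hp, div_le_div_iff₀ (by positivity) (by norm_num)]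
    linarith
  have hθ := th_mem h1 hN hh hT
  have key := Loc.Ext.same L D N p hp0 (by linarith) E₁ E₂ hE₁ hE₂
    (fun x => by rw [List.countP_eq_length_filter]; exact hL x) (th β N h T) hθ x k k' p hp0
    (by linarith) hk (fun i hi _ => th_le h1 hN hh hi x)
  rw [cc_comm']
  refine le_trans ?_ key
  rw [← pow_add]
  have hkk : (k : ℕ) ≤ (k' : ℕ) := le_of_lt hk
  set n : ℕ := (k' : ℕ) - (k : ℕ) with hn
  have hnr : (n : ℝ) = (k' : ℝ) - (k : ℝ) := by rw [hn]; push_cast [hkk]; ring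
  have hpn : 2 * p * n ≤ 1 := by
    rw [hnr, hp]
    refine le_trans (le_of_eq ?_) ht
    field_simp
  have hpow := pow_lower hp0 (by linarith) (D * n + n)
  have hD : (0 : ℝ) ≤ D := Nat.cast_nonneg D
  have hexp : Real.exp (-(4 * D + 2 : ℝ)) ≤ Real.exp (-(4 * p * ((D * n + n : ℕ) : ℝ))) := by
    apply Real.exp_le_exp.2
    push_cast
    have e1 := mul_le_mul_of_nonneg_left hpn (by linarith : (0 : ℝ) ≤ D + 1)
    nlinarith
  have hab : 0 ≤ th β N h T (k', x) * th β N h T (k, x) := mul_nonneg (hθ _).1 (hθ _).1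
  have e0 : Real.exp (-(4 * D + 2 : ℝ)) / 64 ≤ 1 / 4 * ((1 - p) / (1 + p)) ^ (D * n + n) := by
    have := Real.exp_pos (-(4 * D + 2 : ℝ))
    linarith [hexp.trans hpow]
  calc Real.exp (-(4 * D + 2 : ℝ)) / 64 * (th β N h T (k, x) * th β N h T (k', x))
      = (th β N h T (k', x) * th β N h T (k, x)) * (Real.exp (-(4 * D + 2 : ℝ)) / 64) := by ring
    _ ≤ _ := mul_le_mul_of_nonneg_left e0 hab

lemma nnE (D : ℕ) (L : List (V × V)) (hL : ∀ x, deg L x ≤ D) {β : ℝ} (h1 : 1 ≤ β) {N : ℕ}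
    (hN : 8 * β ≤ N) {E₁ E₂ : List ((Fin (N + 1) × V) × (Fin (N + 1) × V) × ℝ)}
    (hE₁ : OutG N E₁) (hE₂ : OutG N E₂) {h T : V → ℝ}
    (hh : ∀ x, 0 ≤ h x ∧ h x ≤ 1) (hT : ∀ x, 0 ≤ T x ∧ T x ≤ 1)
    (k k' : Fin (N + 1)) (x y : V) (hk : k < k') (ht : ((k' : ℝ) - (k : ℝ)) * β / N ≤ 1)
    (ht' : 1 / 4 ≤ ((k' : ℝ) - (k : ℝ)) * β / N) (hxy : (x, y) ∈ L ∨ (y, x) ∈ L) (hne : x ≠ y) :
    Real.exp (-(4 * D + 2 : ℝ)) / 64 * (th β N h T (k, x) * th β N h T (k', y)) ≤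
      cc (physE E₁ E₂ L β) (th β N h T) (k, x) (k', y) := by
  have hN0 : (0 : ℝ) < N := by linarith
  have hβ0 : (0 : ℝ) < β := by linarith
  set p : ℝ := β / (2 * N) with hp
  have hp0 : 0 ≤ p := by positivity
  have hp1 : p ≤ 1 / 16 := by
    rw [hp, div_le_div_iff₀ (by positivity) (by norm_num)]
    linarith
  have hθ := th_mem h1 hN hh hT
  have key := Loc.Ext.nn L D N p hp0 (by linarith) E₁ E₂ hE₁ hE₂
    (fun x => by rw [List.countP_eq_length_filter]; exact hL x) (th β N h T) hθ y x k k' p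
    hne.symm (hxy.symm) hp0 (by linarith) hk
    (fun i hi _ => ⟨th_le h1 hN hh hi y, th_le h1 hN hh hi x⟩)
  rw [cc_comm']
  refine le_trans ?_ key
  rw [← pow_add]
  have hkk : (k : ℕ) ≤ (k' : ℕ) := le_of_lt hk
  set n : ℕ := (k' : ℕ) - (k : ℕ) with hn
  have hnr : (n : ℝ) = (k' : ℝ) - (k : ℝ) := by rw [hn]; push_cast [hkk]; ring
  have e2 : 2 * p * n = ((k' : ℝ) - (k : ℝ)) * β / N := by
    rw [hnr, hp]
    field_simp
  have hpn : 2 * p * n ≤ 1 := by rw [e2]; exact ht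
  have hpn' : 1 / 4 ≤ 2 * p * n := by rw [e2]; exact ht'
  have hpow := pow_lower hp0 (by linarith) (2 * D * n + n)
  have hD : (0 : ℝ) ≤ D := Nat.cast_nonneg D
  have hexp : Real.exp (-(4 * D + 2 : ℝ)) ≤
      Real.exp (-(4 * p * ((2 * D * n + n : ℕ) : ℝ))) := by
    apply Real.exp_le_exp.2
    push_cast
    have e1 := mul_le_mul_of_nonneg_left hpn (by linarith : (0 : ℝ) ≤ 2 * D + 1)
    nlinarith
  have hab : 0 ≤ th β N h T (k', y) * th β N h T (k, x) := mul_nonneg (hθ _).1 (hθ _).1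
  have hE := Real.exp_pos (-(4 * D + 2 : ℝ))
  have e0 : Real.exp (-(4 * D + 2 : ℝ)) / 64 ≤
      1 / 8 * (p * (n : ℝ)) * ((1 - p) / (1 + p)) ^ (2 * D * n + n) := by
    have h3 : 1 / 64 ≤ 1 / 8 * (p * (n : ℝ)) := by linarith
    calc Real.exp (-(4 * D + 2 : ℝ)) / 64 = 1 / 64 * Real.exp (-(4 * D + 2 : ℝ)) := by ring
      _ ≤ 1 / 8 * (p * (n : ℝ)) * ((1 - p) / (1 + p)) ^ (2 * D * n + n) :=
        mul_le_mul h3 (hexp.trans hpow) hE.le (by linarith)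
  calc Real.exp (-(4 * D + 2 : ℝ)) / 64 * (th β N h T (k, x) * th β N h T (k', y))
      = (th β N h T (k', y) * th β N h T (k, x)) * (Real.exp (-(4 * D + 2 : ℝ)) / 64) := by ring
    _ ≤ _ := mul_le_mul_of_nonneg_left e0 hab

end Loc.Done

/-- **Block (4)** with extra gates between the layers `N` and `0` and any degree bound. -/
theorem locE (D : ℕ) : ∃ c0 : ℝ, 0 < c0 ∧ ∀ {V : Type} [Fintype V] [DecidableEq V]
    (L : List (V × V)), (∀ x, deg L x ≤ D) → ∀ (β : ℝ), 1 ≤ β → ∀ N : ℕ, 8 * β ≤ N →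
    ∀ E₁ E₂ : List ((Fin (N + 1) × V) × (Fin (N + 1) × V) × ℝ), OutG N E₁ → OutG N E₂ →
    ∀ h T : V → ℝ, (∀ x, 0 ≤ h x ∧ h x ≤ 1) → (∀ x, 0 ≤ T x ∧ T x ≤ 1) →
    (∀ (k k' : Fin (N + 1)) (x : V), 0 < k → k < k' → ((k' : ℝ) - (k : ℝ)) * β / N ≤ 1 →
      c0 * (β * h x / (2 * N)) ^ 2 ≤ cc (physE E₁ E₂ L β) (th β N h T) (k, x) (k', x)) ∧
    (∀ (k k' : Fin (N + 1)) (x y : V), 0 < k → k < k' → 1 / 4 ≤ ((k' : ℝ) - (k : ℝ)) * β / N →
      ((k' : ℝ) - (k : ℝ)) * β / N ≤ 1 → ((x, y) ∈ L ∨ (y, x) ∈ L) → x ≠ y →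
      c0 * (β * h x / (2 * N)) * (β * h y / (2 * N)) ≤
        cc (physE E₁ E₂ L β) (th β N h T) (k, x) (k', y)) ∧
    (∀ (k : Fin (N + 1)) (x : V), 0 < k → (k : ℝ) * β / N ≤ 1 →
      c0 * T x * (β * h x / (2 * N)) ≤ cc (physE E₁ E₂ L β) (th β N h T) (0, x) (k, x)) := by
  refine ⟨Real.exp (-(4 * D + 2 : ℝ)) / 64, by positivity, ?_⟩
  intro V _ _ L hL β h1 N hN E₁ E₂ hE₁ hE₂ h T hh hT
  refine ⟨?_, ?_, ?_⟩
  · intro k k' x hk hkk ht
    have := Loc.Done.sameE D L hL h1 hN hE₁ hE₂ hh hT k k' x hkk ht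
    rw [Loc.Final.th_eq hk, Loc.Final.th_eq hkk] at this
    refine le_trans (le_of_eq ?_) this
    ring
  · intro k k' x y hk hkk ht' ht hxy hne
    have := Loc.Done.nnE D L hL h1 hN hE₁ hE₂ hh hT k k' x y hkk ht ht' hxy hne
    rw [Loc.Final.th_eq hk, Loc.Final.th_eq hkk] at this
    refine le_trans (le_of_eq ?_) this
    ring
  · intro k x hk ht
    have := Loc.Done.sameE D L hL h1 hN hE₁ hE₂ hh hT 0 k x hk (by
      have e : (((0 : Fin (N + 1)) : ℕ) : ℝ) = 0 := by simp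
      rw [e, sub_zero]; exact ht)
    rw [Loc.Final.th_eq hk] at this
    refine le_trans (le_of_eq ?_) this
    simp only [th, if_true]
    ring

end

end Vale.Agent.P361.LRO
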