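import Vale.Agent.P361.LRO.Loc.Iface

/-!
P361 LRO: from `LocSame` / `LocNN` (block (4)) to the form used by the network blocks
(`Skel/Low.lean`, theorem `loc`).
-/

namespace Vale.Agent.P361.LRO.Loc

open Finset Vale.Agent.P361.LRO

noncomputable section

/-- `((1 - x) / (1 + x)) ^ m ≥ exp (-3 x m)` for `0 ≤ x ≤ 1/2`. -/
lemma ratio_pow (x : ℝ) (hx0 : 0 ≤ x) (hx : x ≤ 1 / 2) (m : ℕ) :
    Real.exp (-(3 * x * m)) ≤ ((1 - x) / (1 + x)) ^ m := by
  have h1 : Real.exp (-(3 * x)) ≤ (1 - x) / (1 + x) := by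
    rw [le_div_iff₀ (by linarith), Real.exp_neg, ← div_eq_inv_mul, div_le_iff₀ (Real.exp_pos _)]
    -- 1 + x ≤ (1 - x) exp (3x)
    have h2 : 1 + 3 * x + (3 * x) ^ 2 / 2 ≤ Real.exp (3 * x) :=
      Real.quadratic_le_exp_of_nonneg (by linarith)
    have h3 : (1 - x) * (1 + 3 * x + (3 * x) ^ 2 / 2) ≤ (1 - x) * Real.exp (3 * x) :=
      mul_le_mul_of_nonneg_left h2 (by linarith)
    refine le_trans ?_ h3
    nlinarith [sq_nonneg x, mul_nonneg hx0 hx0, mul_nonneg hx0 (mul_nonneg hx0 hx0)]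
  calc Real.exp (-(3 * x * m)) = Real.exp (-(3 * x)) ^ m := by
        rw [← Real.exp_nat_mul]; congr 1; ring
    _ ≤ _ := pow_le_pow_left₀ (Real.exp_pos _).le h1 m

lemma ccSym {X : Type} [Fintype X] [DecidableEq X] (μ : Equiv.Perm X → ℝ) (θ : X → ℝ) (u v : X) :
    cc μ θ u v = cc μ θ v u := by
  unfold cc
  have : (fun (π : Equiv.Perm X) s => jj π s u * jj π s v) = fun π s => jj π s v * jj π s u := by
    funext π s; ring
  rw [this]

lemma th_le {V : Type} {β : ℝ} {N : ℕ} {h T : V → ℝ} (hβ : 0 ≤ β)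
    (hh : ∀ x, 0 ≤ h x ∧ h x ≤ 1) (i : Fin (N + 1)) (hi : i ≠ 0) (x : V) :
    th β N h T (i, x) ≤ β / (2 * N) := by
  unfold th
  rw [if_neg hi]
  have h1 : β * h x ≤ β := by
    have := mul_le_mul_of_nonneg_left (hh x).2 hβ
    linarith
  exact div_le_div_of_nonneg_right h1 (by positivity)

lemma th_mem {V : Type} {β : ℝ} {N : ℕ} {h T : V → ℝ} (hβ : 0 ≤ β) (hN : β ≤ N)
    (hh : ∀ x, 0 ≤ h x ∧ h x ≤ 1) (hT : ∀ x, 0 ≤ T x ∧ T x ≤ 1) (z : Fin (N + 1) × V) :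
    0 ≤ th β N h T z ∧ th β N h T z ≤ 1 := by
  by_cases hz : z.1 = 0
  · unfold th; rw [if_pos hz]; exact hT _
  · constructor
    · unfold th; rw [if_neg hz]
      exact div_nonneg (mul_nonneg hβ (hh _).1) (by positivity)
    · have h1 : th β N h T (z.1, z.2) ≤ β / (2 * N) := th_le hβ hh z.1 hz z.2
      refine le_trans h1 ?_
      by_cases hN0 : (N : ℝ) = 0
      · rw [hN0]; simp
      · have hNp : (0:ℝ) < N := lt_of_le_of_ne (Nat.cast_nonneg N) (Ne.symm hN0)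
        rw [div_le_one (by positivity)]
        linarith

/-- the loss over `m` layers with `p m ≤ 1/2` -/
lemma loss (p : ℝ) (hp0 : 0 ≤ p) (hp : p ≤ 1 / 16) (m a : ℕ) (hm : p * m ≤ 1 / 2) :
    Real.exp (-(3 / 2 * (a + 1))) ≤
      ((1 - p) / (1 + p)) ^ (a * m) * ((1 - p) / (1 + p)) ^ m := by
  rw [← pow_add]
  refine le_trans ?_ (ratio_pow p hp0 (by linarith) (a * m + m))
  apply Real.exp_le_exp.2
  push_cast
  have ha : (0:ℝ) ≤ a := Nat.cast_nonneg a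
  nlinarith [mul_le_mul_of_nonneg_right hm (by linarith : (0:ℝ) ≤ a + 1)]

theorem loc_of
    (hS : ∀ (V : Type) [Fintype V] [DecidableEq V] (L : List (V × V)), LocSame V L 6)
    (hNN : ∀ (V : Type) [Fintype V] [DecidableEq V] (L : List (V × V)), LocNN V L 6) :
    ∃ c0 : ℝ, 0 < c0 ∧ ∀ {V : Type} [Fintype V] [DecidableEq V] (L : List (V × V)),
    (∀ x, (L.filter fun e => e.1 = x ∨ e.2 = x).length ≤ 6) →
    ∀ (β : ℝ), 1 ≤ β → ∀ N : ℕ, 8 * β ≤ N → ∀ h T : V → ℝ,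
    (∀ x, 0 ≤ h x ∧ h x ≤ 1) → (∀ x, 0 ≤ T x ∧ T x ≤ 1) →
    (∀ (k k' : Fin (N + 1)) (x : V), 0 < k → k < k' → ((k' : ℝ) - (k : ℝ)) * β / N ≤ 1 →
      c0 * (β * h x / (2 * N)) ^ 2 ≤ cc (phys L β N) (th β N h T) (k, x) (k', x)) ∧
    (∀ (k k' : Fin (N + 1)) (x y : V), 0 < k → k < k' → 1 / 4 ≤ ((k' : ℝ) - (k : ℝ)) * β / N →
      ((k' : ℝ) - (k : ℝ)) * β / N ≤ 1 → ((x, y) ∈ L ∨ (y, x) ∈ L) → x ≠ y →
      c0 * (β * h x / (2 * N)) * (β * h y / (2 * N)) ≤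
        cc (phys L β N) (th β N h T) (k, x) (k', y)) ∧
    (∀ (k : Fin (N + 1)) (x : V), 0 < k → (k : ℝ) * β / N ≤ 1 →
      c0 * T x * (β * h x / (2 * N)) ≤ cc (phys L β N) (th β N h T) (0, x) (k, x)) := by
  refine ⟨1 / 64 * Real.exp (-(39 / 2)), by positivity, ?_⟩
  intro V _ _ L hdeg β hβ N hN h T hh hT
  have hβ0 : (0:ℝ) < β := by linarith
  have hNp : (0:ℝ) < N := by linarith
  have hβN : β ≤ N := by linarith
  have hdeg' : ∀ x : V, (L.countP fun e => e.1 = x ∨ e.2 = x) ≤ 6 := by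
    intro x; rw [List.countP_eq_length_filter]; exact hdeg x
  set p : ℝ := β / (2 * N) with hp
  have hp0 : 0 < p := by positivity
  have hp16 : p ≤ 1 / 16 := by
    rw [hp, div_le_iff₀ (by positivity)]; linarith
  have hθ := fun z => th_mem (h := h) (T := T) hβ0.le hβN hh hT z
  have key : ∀ m : ℝ, m * β / N = 2 * (p * m) := by
    intro m; rw [hp]; field_simp
  have hthk : ∀ (k : Fin (N + 1)) (x : V), 0 < k → th β N h T (k, x) = β * h x / (2 * N) := by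
    intro k x hk; unfold th; rw [if_neg (ne_of_gt hk)]
  have hth0 : ∀ x : V, th β N h T (0, x) = T x := by
    intro x; unfold th; rw [if_pos rfl]
  have cast_sub : ∀ k k' : Fin (N + 1), k < k' →
      (((k' : ℕ) - (k : ℕ) : ℕ) : ℝ) = (k' : ℝ) - (k : ℝ) := by
    intro k k' hk
    rw [Nat.cast_sub (le_of_lt (show (k : ℕ) < (k' : ℕ) from hk))]
  -- same site, general
  have same : ∀ (k k' : Fin (N + 1)) (x : V), k < k' → ((k' : ℝ) - (k : ℝ)) * β / N ≤ 1 →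
      th β N h T (k', x) * th β N h T (k, x) * (1 / 64 * Real.exp (-(39 / 2))) ≤
        cc (phys L β N) (th β N h T) (k', x) (k, x) := by
    intro k k' x hk hd
    have h1 := hS V L β N hβ0 hβN hdeg' (th β N h T) hθ x k k' p hp0.le (by linarith) hk (by
      intro i hi _
      exact th_le hβ0.le hh i (ne_of_gt (lt_of_le_of_lt (Fin.zero_le _) hi)) x)
    refine le_trans ?_ h1
    refine mul_le_mul_of_nonneg_left ?_ (mul_nonneg (hθ _).1 (hθ _).1)
    have h2 := loss p hp0.le hp16 ((k' : ℕ) - (k : ℕ)) 6 (by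
      rw [cast_sub k k' hk]; rw [key] at hd; linarith)
    have h3 : Real.exp (-(39 / 2 : ℝ)) ≤ Real.exp (-(3 / 2 * ((6:ℕ) + 1))) := by
      apply Real.exp_le_exp.2; norm_num
    have h4 := Real.exp_pos (-(39 / 2 : ℝ))
    linarith
  refine ⟨?_, ?_, ?_⟩
  · intro k k' x hk hkk hd
    have h1 := same k k' x hkk hd
    rw [ccSym, hthk k x hk, hthk k' x (lt_trans hk hkk)] at h1
    calc _ = β * h x / (2 * N) * (β * h x / (2 * N)) * (1 / 64 * Real.exp (-(39 / 2))) := by ring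
      _ ≤ _ := h1
  · intro k k' x y hk hkk hd0 hd hL hxy
    have h1 := hNN V L β N hβ0 hβN hdeg' (th β N h T) hθ y x k k' p (Ne.symm hxy)
      (Or.symm hL) hp0.le (by linarith) hkk (by
      intro i hi _
      exact ⟨th_le hβ0.le hh i (ne_of_gt (lt_of_le_of_lt (Fin.zero_le _) hi)) y,
        th_le hβ0.le hh i (ne_of_gt (lt_of_le_of_lt (Fin.zero_le _) hi)) x⟩)
    rw [ccSym, hthk k x hk, hthk k' y (lt_trans hk hkk)] at h1
    refine le_trans ?_ h1
    have h2 := loss p hp0.le hp16 ((k' : ℕ) - (k : ℕ)) 12 (by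
      rw [cast_sub k k' hkk]; rw [key] at hd; linarith)
    have h3 : Real.exp (-(39 / 2 : ℝ)) ≤ Real.exp (-(3 / 2 * ((12:ℕ) + 1))) := by
      apply Real.exp_le_exp.2; norm_num
    have h5 : 1 / 8 ≤ p * (((k' : ℕ) - (k : ℕ) : ℕ) : ℝ) := by
      rw [cast_sub k k' hkk]; rw [key] at hd0; linarith
    have h4 := Real.exp_pos (-(39 / 2 : ℝ))
    have h6 : 1 / 64 * Real.exp (-(39 / 2)) ≤
        1 / 8 * (p * (((k' : ℕ) - (k : ℕ) : ℕ) : ℝ)) *
          (((1 - p) / (1 + p)) ^ (2 * 6 * ((k' : ℕ) - (k : ℕ))) *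
            ((1 - p) / (1 + p)) ^ ((k' : ℕ) - (k : ℕ))) := by
      calc 1 / 64 * Real.exp (-(39 / 2)) = (1 / 8 * (1 / 8)) * Real.exp (-(39 / 2)) := by ring
        _ ≤ _ := by
          refine mul_le_mul (by linarith) (h3.trans h2) h4.le (by positivity)
    have h7 : 0 ≤ β * h y / (2 * N) * (β * h x / (2 * N)) := by
      have := (hh x).1; have := (hh y).1; positivity
    have h8 := mul_le_mul_of_nonneg_left h6 h7
    calc _ = β * h y / (2 * N) * (β * h x / (2 * N)) * (1 / 64 * Real.exp (-(39 / 2))) := by ring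
      _ ≤ _ := h8
      _ = _ := by ring
  · intro k x hk hd
    have h1 := same 0 k x hk (by simpa using hd)
    rw [ccSym, hth0, hthk k x hk] at h1
    calc _ = β * h x / (2 * N) * T x * (1 / 64 * Real.exp (-(39 / 2))) := by ring
      _ ≤ _ := h1

end

end Vale.Agent.P361.LRO.Loc
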