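import Vale.Agent.P361.LRO.Loc.Geo

/-!
P361 LRO, block (4): the pointwise lower bounds on the conductances of the physical circuit.
-/

namespace Vale.Agent.P361.LRO.Loc.Geo

open Finset Vale.Agent.P361.LRO

noncomputable section

section Gen

variable {X : Type} [Fintype X] [DecidableEq X]

lemma arc_use (hA : ArcStmt) (π : Equiv.Perm X) (θ : X → ℝ) (hθ : ∀ x, 0 ≤ θ x ∧ θ x ≤ 1)
    (hZ : 0 ≤ Zp π θ) (path : ℕ → X) (m M : ℕ) (hmM : m ≤ M)
    (hstep : ∀ j, j ≤ m → π (path j) = path (j + 1))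
    (hinj : ∀ i, i ≤ m + 1 → ∀ j, j ≤ m + 1 → path i = path j → i = j)
    (τ : ℝ) (h0 : 0 ≤ τ) (h1 : τ < 1) (hbd : ∀ j, 1 ≤ j → j ≤ m → θ (path j) ≤ τ) :
    ((1 / 4) * ((1 - τ) / (1 + τ)) ^ M) * Zp π θ ≤ Zf π θ (path 0) (path (m + 1)) := by
  have hpow : ∀ i, i ≤ m + 1 → (π ^ i) (path 0) = path i := by
    intro i
    induction i with
    | zero => intro _; simp
    | succ i ih =>
      intro hi
      rw [pow_succ', Equiv.Perm.mul_apply, ih (by omega), hstep i (by omega)]
  have huv : path 0 ≠ path (m + 1) := fun h => by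
    have := hinj 0 (by omega) (m + 1) le_rfl h
    omega
  obtain ⟨_, hb⟩ := hA X π θ hθ (path 0) (path (m + 1)) huv
  have hb' := hb m (hpow _ le_rfl)
    (fun i h1i him => by
      rw [hpow i (by omega)]
      refine ⟨fun h => ?_, fun h => ?_⟩
      · have := hinj i (by omega) 0 (by omega) h; omega
      · have := hinj i (by omega) (m + 1) le_rfl h; omega)
    (fun i hi j hj h => by
      rw [hpow i hi, hpow j hj] at h
      exact hinj i hi j hj h)
  refine le_trans ?_ hb'
  refine mul_le_mul_of_nonneg_right ?_ hZ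
  have hτ' : 0 ≤ (1 - τ) / (1 + τ) := div_nonneg (by linarith) (by linarith)
  have hτ1 : (1 - τ) / (1 + τ) ≤ 1 := by
    rw [div_le_one (by linarith)]; linarith
  have hprod : ((1 - τ) / (1 + τ)) ^ M ≤
      ∏ i ∈ Finset.range m, (1 - θ ((π ^ (i + 1)) (path 0))) / (1 + θ ((π ^ (i + 1)) (path 0))) := by
    calc ((1 - τ) / (1 + τ)) ^ M ≤ ((1 - τ) / (1 + τ)) ^ m := pow_le_pow_of_le_one hτ' hτ1 hmM
      _ = ∏ i ∈ Finset.range m, ((1 - τ) / (1 + τ)) := by
        rw [Finset.prod_const, Finset.card_range]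
      _ ≤ _ := by
        refine Finset.prod_le_prod (fun i _ => hτ') fun i hi => ?_
        have hi' : i < m := Finset.mem_range.1 hi
        rw [hpow (i + 1) (by omega)]
        have hb2 := hbd (i + 1) (by omega) (by omega)
        have hn := (hθ (path (i + 1))).1
        rw [div_le_div_iff₀ (by linarith) (by linarith)]
        nlinarith
  have hu := hθ (path 0)
  have hv := hθ (path (m + 1))
  have hden : 0 < (1 + θ (path 0)) * (1 + θ (path (m + 1))) :=
    mul_pos (by linarith) (by linarith)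
  have hden4 : (1 + θ (path 0)) * (1 + θ (path (m + 1))) ≤ 4 := by nlinarith
  rw [le_div_iff₀ hden]
  have hM0 : 0 ≤ ((1 - τ) / (1 + τ)) ^ M := pow_nonneg hτ' _
  nlinarith [mul_le_mul_of_nonneg_left hden4 hM0]

lemma prod_ite_pow (l : List (X × X × ℝ)) (S : X × X × ℝ → Prop) [DecidablePred S] (p : ℝ)
    (hp : ∀ g ∈ l, g.2.2 = p) (f : ℝ → ℝ) :
    (l.map fun g => if S g then f g.2.2 else 1).prod = f p ^ (l.countP fun g => S g) := by
  induction l with
  | nil => simp
  | cons g l ih =>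
    rw [List.map_cons, List.prod_cons, ih (fun g hg => hp g (by simp [hg])), List.countP_cons]
    by_cases h : S g
    · simp [h, hp g (by simp), pow_succ, mul_comm]
    · simp [h]

end Gen

variable {V : Type} [Fintype V] [DecidableEq V]

/-- Gates in the layers `[lo, hi)` touching a site satisfying `Q`. -/
def tch (N : ℕ) (Q : V → Prop) (lo hi : ℕ)
    (g : (Fin (N + 1) × V) × (Fin (N + 1) × V) × ℝ) : Prop :=
  lo ≤ (g.1.1 : ℕ) ∧ (g.1.1 : ℕ) < hi ∧ (Q g.1.2 ∨ Q g.2.1.2)

instance (N : ℕ) (Q : V → Prop) [DecidablePred Q] (lo hi : ℕ) :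
    DecidablePred (tch (V := V) N Q lo hi) := fun g => by unfold tch; infer_instance

lemma mem_gates {L : List (V × V)} {N : ℕ} {p : ℝ}
    {g : (Fin (N + 1) × V) × (Fin (N + 1) × V) × ℝ} (hg : g ∈ gates L N p) :
    ∃ (k : Fin N) (e : V × V), e ∈ L ∧ g = ((k.castSucc, e.1), (k.castSucc, e.2), p) := by
  unfold gates at hg
  rw [List.mem_flatMap] at hg
  obtain ⟨k, _, hk⟩ := hg
  rw [List.mem_map] at hk
  obtain ⟨e, he, h⟩ := hk
  exact ⟨k, e, he, h.symm⟩

lemma countP_gates (L : List (V × V)) (N : ℕ) (p : ℝ) (Q : V → Prop) [DecidablePred Q]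
    (lo hi d : ℕ) (hd : (L.countP fun e => Q e.1 ∨ Q e.2) ≤ d) :
    ((gates L N p).countP fun g => tch N Q lo hi g) ≤ d * (hi - lo) := by
  unfold gates
  rw [List.countP_flatMap, ← Fin.sum_univ_def]
  have h1 : ∀ k : Fin N, (List.countP (fun g => decide (tch N Q lo hi g)) ∘ fun k : Fin N =>
      L.map fun e => (((k.castSucc, e.1), (k.castSucc, e.2), p) :
        (Fin (N + 1) × V) × (Fin (N + 1) × V) × ℝ)) k ≤
      if lo ≤ (k : ℕ) ∧ (k : ℕ) < hi then d else 0 := by
    intro k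
    simp only [Function.comp, List.countP_map]
    by_cases hk : lo ≤ (k : ℕ) ∧ (k : ℕ) < hi
    · rw [if_pos hk]
      refine le_trans (le_of_eq ?_) hd
      congr 1
      funext e
      simp [tch, hk]
    · rw [if_neg hk]
      apply le_of_eq
      rw [List.countP_eq_zero]
      intro e _
      intro h
      exact hk ⟨(of_decide_eq_true h).1, (of_decide_eq_true h).2.1⟩
  refine le_trans (Finset.sum_le_sum fun k _ => h1 k) ?_
  rw [Fin.sum_univ_eq_sum_range (fun k => if lo ≤ k ∧ k < hi then d else 0) N,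
    ← Finset.sum_filter, Finset.sum_const, smul_eq_mul, mul_comm]
  refine Nat.mul_le_mul_left _ ?_
  rw [← Nat.card_Ico]
  refine Finset.card_le_card fun k hk => ?_
  rw [Finset.mem_filter] at hk
  rw [Finset.mem_Ico]
  exact hk.2

/-- The layer `n`. -/
def fn (N n : ℕ) : Fin (N + 1) := Fin.ofNat (N + 1) n

lemma cast_val {N n : ℕ} (h : n ≤ N) : (fn N n : ℕ) = n := by
  unfold fn
  rw [Fin.val_ofNat, Nat.mod_eq_of_lt (by omega)]

lemma fn_val {N : ℕ} (k : Fin (N + 1)) : fn N k = k := by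
  apply Fin.ext
  exact cast_val (by have := k.2; omega)

lemma base_apply (N n : ℕ) (hn : n + 1 ≤ N) (x : V) :
    base (V := V) N (fn N (n + 1), x) = (fn N n, x) := by
  have h : fn N (n + 1) - 1 = fn N n := by
    have h1 : fn N (n + 1) = fn N n + 1 := by
      apply Fin.ext
      rw [cast_val hn, Fin.val_add_one_of_lt, cast_val (by omega)]
      rw [Fin.lt_def, cast_val (by omega), Fin.val_last]
      omega
    rw [h1, add_sub_cancel_right]
  simp [base, h]

lemma mem_closeG {X : Type} {S : X × X × ℝ → Prop} [DecidablePred S] {l : List (X × X × ℝ)}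
    {g : X × X × ℝ} (hg : g ∈ closeG S l) (h0 : g.2.2 ≠ 0) : g ∈ l ∧ ¬ S g := by
  unfold closeG at hg
  rw [List.mem_map] at hg
  obtain ⟨g0, hg0, h⟩ := hg
  by_cases hS : S g0
  · rw [if_pos hS] at h
    subst h
    exact absurd rfl h0
  · rw [if_neg hS] at h
    subst h
    exact ⟨hg0, hS⟩

lemma closeG_ok {X : Type} {S : X × X × ℝ → Prop} [DecidablePred S] {l : List (X × X × ℝ)}
    (hl : OKg l) : ∀ g ∈ closeG S l, 0 ≤ g.2.2 ∧ g.2.2 ≤ 1 := by
  intro g hg
  unfold closeG at hg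
  rw [List.mem_map] at hg
  obtain ⟨g0, hg0, h⟩ := hg
  have := hl g0 hg0
  by_cases hS : S g0
  · rw [if_pos hS] at h
    subst h
    simp
  · rw [if_neg hS] at h
    subst h
    exact ⟨this.1, by linarith [this.2]⟩

lemma gates_ok {L : List (V × V)} {N : ℕ} {p : ℝ} (h0 : 0 ≤ p) (h1 : p ≤ 1 / 2) :
    OKg (gates L N p) := by
  intro g hg
  obtain ⟨k, e, _, rfl⟩ := mem_gates hg
  exact ⟨h0, h1⟩

lemma gates_p {L : List (V × V)} {N : ℕ} {p : ℝ} : ∀ g ∈ gates L N p, g.2.2 = p := by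
  intro g hg
  obtain ⟨k, e, _, rfl⟩ := mem_gates hg
  rfl

lemma close_step {L : List (V × V)} {N : ℕ} {p : ℝ} (Q : V → Prop) [DecidablePred Q]
    (lo hi : ℕ) (hhi : hi ≤ N) (π : Equiv.Perm (Fin (N + 1) × V))
    (h : law (closeG (tch N Q lo hi) (gates L N p)) (base N) π ≠ 0)
    (n : ℕ) (hn1 : lo ≤ n) (hn2 : n < hi) (x : V) (hx : Q x) :
    π (fn N (n + 1), x) = (fn N n, x) := by
  refine supp_straight _ _ π _ _ (base_apply N n (by omega) x) (fun g hg hp => ?_) h
  obtain ⟨hg1, hg2⟩ := mem_closeG hg hp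
  obtain ⟨k, e, _, rfl⟩ := mem_gates hg1
  have hv := cast_val (N := N) (n := n) (by omega)
  refine ⟨fun heq => hg2 ?_, fun heq => hg2 ?_⟩
  · have e1 := congrArg Prod.fst heq
    have e2 := congrArg Prod.snd heq
    simp only at e1 e2
    have e3 : (k.castSucc : ℕ) = n := by rw [← e1, hv]
    refine ⟨?_, ?_, Or.inl ?_⟩
    · simp only; omega
    · simp only; omega
    · simp only; rw [← e2]; exact hx
  · have e1 := congrArg Prod.fst heq
    have e2 := congrArg Prod.snd heq
    simp only at e1 e2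
    have e3 : (k.castSucc : ℕ) = n := by rw [← e1, hv]
    refine ⟨?_, ?_, Or.inr ?_⟩
    · simp only; omega
    · simp only; omega
    · simp only; rw [← e2]; exact hx

/-- Final algebra. -/
lemma final_alg {A B A' B' c P1 P2 a b q : ℝ} (ha : 0 ≤ a) (hb : 0 ≤ b) (hB : 0 < B)
    (hc : 0 ≤ c) (hP1 : 0 ≤ P1) (hP2 : 0 < P2)
    (h1 : P1 * A' ≤ A) (h2 : B ≤ P2 * B') (h3 : c * B' ≤ A') (hq : q ≤ P1 / P2) :
    a * b * (c * q) ≤ a * b * A / B := by
  rw [mul_div_assoc]
  refine mul_le_mul_of_nonneg_left ?_ (mul_nonneg ha hb)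
  rw [le_div_iff₀ hB]
  have h4 : c * q * B ≤ c * (P1 / P2) * B :=
    mul_le_mul_of_nonneg_right (mul_le_mul_of_nonneg_left hq hc) hB.le
  have h5 : c * (P1 / P2) * B ≤ c * (P1 / P2) * (P2 * B') :=
    mul_le_mul_of_nonneg_left h2 (mul_nonneg hc (div_nonneg hP1 hP2.le))
  have h6 : c * (P1 / P2) * (P2 * B') = P1 * (c * B') := by
    field_simp
  have h7 : P1 * (c * B') ≤ P1 * A' := mul_le_mul_of_nonneg_left h3 hP1
  linarith

theorem locSame (hF : FourierStmt) (hR : RingStmt) (hA : ArcStmt) (hC : CloseStmt)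
    (L : List (V × V)) (d : ℕ) : LocSame V L d := by
  intro β N hβ hβN hdeg θ hθ x k k' τ h0 h1 hkk hbd
  have hN : (0 : ℝ) < N := lt_of_lt_of_le hβ hβN
  set p : ℝ := β / (2 * N) with hp
  have hp0 : 0 ≤ p := by positivity
  have hp1 : p ≤ 1 / 2 := by
    rw [hp, div_le_div_iff₀ (by positivity) (by norm_num)]
    linarith
  have hok := gates_ok (L := L) (N := N) hp0 hp1
  set lo : ℕ := (k : ℕ) with hlo
  set hi : ℕ := (k' : ℕ) with hhi
  have hlt : lo < hi := hkk
  have hhiN : hi ≤ N := by have := k'.2; omega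
  set Q : V → Prop := fun y => y = x with hQ
  set S := tch N Q lo hi with hS
  have hne : (k', x) ≠ (k, x) := fun h => by
    have := congrArg Prod.fst h
    simp only at this
    exact absurd this (ne_of_gt hkk)
  unfold phys
  rw [cc_eq hF _ _ θ _ _ hne]
  have hokc := closeG_ok (S := S) hok
  have hok1 : ∀ g ∈ gates L N p, 0 ≤ g.2.2 ∧ g.2.2 ≤ 1 := fun g hg =>
    ⟨(hok g hg).1, by linarith [(hok g hg).2]⟩
  obtain ⟨hC1, hC2⟩ := hC _ (gates L N p) (base N) S hok
  have hZf0 : ∀ π, 0 ≤ Zf π θ (k', x) (k, x) := fun π => (hA _ π θ hθ _ _ hne).1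
  have hA1 := hC1 (fun π => Zf π θ (k', x) (k, x)) hZf0
  have hA2 := hC2 θ hθ
  rw [prod_ite_pow (gates L N p) S p gates_p (fun t => 1 - t)] at hA1
  rw [prod_ite_pow (gates L N p) S p gates_p (fun t => 1 + t)] at hA2
  set n := (gates L N p).countP fun g => S g with hn
  have hnle : n ≤ d * (hi - lo) := countP_gates L N p Q lo hi d (hdeg x)
  have hτ' : 0 ≤ (1 - τ) / (1 + τ) := div_nonneg (by linarith) (by linarith)
  have h3 : ((1 / 4) * ((1 - τ) / (1 + τ)) ^ (hi - lo)) *
      (ev (closeG S (gates L N p)) (base N) fun π => Zp π θ) ≤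
      ev (closeG S (gates L N p)) (base N) fun π => Zf π θ (k', x) (k, x) := by
    rw [← ev_smul]
    refine ev_mono_supp hokc _ _ _ fun π hπ => ?_
    have hstep := close_step (L := L) (p := p) Q lo hi hhiN π hπ
    have := arc_use hA π θ hθ ((hR _ π θ hθ).1).le
      (fun j => (fn N (hi - j), x)) (hi - lo - 1) (hi - lo) (by omega)
      (fun j hj => by
        have hs := hstep (hi - (j + 1)) (by omega) (by omega) x rfl
        have e : hi - (j + 1) + 1 = hi - j := by omega
        rw [e] at hs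
        exact hs)
      (fun i hi' j hj' h => by
        have e1 := congrArg Prod.fst h
        simp only at e1
        have e2 := congrArg Fin.val e1
        rw [cast_val (by omega), cast_val (by omega)] at e2
        omega)
      τ h0 h1
      (fun j hj1 hj2 => by
        refine hbd _ ?_ ?_
        · rw [Fin.lt_def, cast_val (by omega)]; omega
        · rw [Fin.lt_def, cast_val (by omega)]; omega)
    have e0 : (fn N (hi - 0), x) = (k', x) := by
      rw [Nat.sub_zero, hhi, fn_val]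
    have e1 : (fn N (hi - (hi - lo - 1 + 1)), x) = (k, x) := by
      have : hi - (hi - lo - 1 + 1) = lo := by omega
      rw [this, hlo, fn_val]
    rw [e0, e1] at this
    exact this
  have hZpos := ev_pos hR hok1 (base (V := V) N) θ hθ
  have hq : ((1 - p) / (1 + p)) ^ (d * (hi - lo)) ≤ (1 - p) ^ n / (1 + p) ^ n := by
    rw [← div_pow]
    have hpp : 0 ≤ (1 - p) / (1 + p) := div_nonneg (by linarith) (by linarith)
    have hpp1 : (1 - p) / (1 + p) ≤ 1 := by
      rw [div_le_one (by linarith)]; linarith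
    exact pow_le_pow_of_le_one hpp hpp1 hnle
  have := final_alg (a := θ (k', x)) (b := θ (k, x)) (hθ _).1 (hθ _).1 hZpos
    (by positivity) (pow_nonneg (by linarith) n) (pow_pos (by linarith) n) hA1 hA2 h3 hq
  refine le_trans (le_of_eq ?_) this
  ring

end

end Vale.Agent.P361.LRO.Loc.Geo
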