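import Vale.Agent.P361.LRO.Loc.Bridge

/-! P361 LRO LOC, leaf D: the arc bound. -/

namespace Vale.Agent.P361.LRO.Loc

open Finset Vale.Agent.P361.LRO

theorem arcStmt : ArcStmt := by
  intro X _ _ π θ hθ u v huv
  have h0 : ∀ v, 0 ≤ θ v := fun v => (hθ v).1
  have h1 : ∀ v, θ v ≤ 1 := fun v => (hθ v).2
  refine ⟨?_, ?_⟩
  · rw [Zf_eq]; exact Loop.Zf_nonneg π θ h0 h1 u v
  · intro m hm hne hinj
    rw [Zf_eq, Zp_eq]
    have hu : ∀ i, 1 ≤ i → i ≤ m + 1 → (π ^ i) u ≠ u := by
      intro i hi him h
      have := hinj i him 0 (Nat.zero_le _) (by simpa using h)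
      omega
    have key := Loop.Zf_ge π θ h0 h1 u (m := m + 1) (by omega) hu
    rw [hm] at key
    have hprod : ∏ x ∈ Loop.arc π u (m + 1) \ {v}, ((1 - θ x) / (1 + θ x)) =
        ∏ i ∈ Finset.range m, (1 - θ ((π ^ (i + 1)) u)) / (1 + θ ((π ^ (i + 1)) u)) := by
      have himg : Loop.arc π u (m + 1) \ {v} =
          (Finset.range m).image (fun i => (π ^ (i + 1)) u) := by
        ext x
        rw [Finset.mem_sdiff, Loop.mem_arc, Finset.mem_image, Finset.mem_singleton]
        constructor
        · rintro ⟨⟨i, hi1, him, hix⟩, hxv⟩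
          have : i ≠ m + 1 := by
            rintro rfl
            exact hxv (hix.symm.trans hm)
          refine ⟨i - 1, Finset.mem_range.2 (by omega), ?_⟩
          rw [show i - 1 + 1 = i by omega]
          exact hix
        · rintro ⟨i, hi, hix⟩
          rw [Finset.mem_range] at hi
          refine ⟨⟨i + 1, by omega, by omega, hix⟩, ?_⟩
          intro hxv
          have := (hne (i + 1) (by omega) (by omega)).2
          exact this (hix.trans hxv)
      rw [himg, Finset.prod_image]
      intro i hi j hj hij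
      rw [Finset.coe_range, Set.mem_Iio] at hi hj
      have := hinj (i + 1) (by omega) (j + 1) (by omega) hij
      omega
    rw [hprod] at key
    have hpos : 0 < (1 + θ u) * (1 + θ v) := by
      have := h0 u; have := h0 v; positivity
    rw [div_mul_eq_mul_div, div_le_iff₀ hpos]
    linarith

end Vale.Agent.P361.LRO.Loc
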