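import Vale.Agent.P361.LRO.Loc.Iface

/-!
P361, low-temperature order, block LOC (4), part A: Fourier transform on the cycles.
-/

namespace Vale.Agent.P361.LRO.Loc

open Finset Vale.Agent.P361.LRO

noncomputable section

variable {X : Type} [Fintype X] [DecidableEq X]

/-- Characters of `Fin 2`. -/
def ch (t a : Fin 2) : ℝ := if t = 1 ∧ a = 1 then -1 else 1

theorem sum_ch (t t' : Fin 2) : ∑ a : Fin 2, ch t a * ch t' a = if t = t' then 2 else 0 := by
  fin_cases t <;> fin_cases t' <;> simp [ch, Fin.sum_univ_two] <;> norm_num

theorem fourier_gen (π : Equiv.Perm X) (c : X → Fin 2 → ℝ) (e : X → Fin 2 → Fin 2) :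
    ∑ s : X → Fin 2, ∏ x, (1 / 2 * ∑ t, c x t * (ch t (s x) * ch (e x t) (s (π x)))) =
      ∑ t : X → Fin 2, if (∀ x, t (π x) = e x (t x)) then ∏ x, c x (t x) else 0 := by
  have h1 : ∀ s : X → Fin 2,
      ∏ x, (1 / 2 * ∑ t, c x t * (ch t (s x) * ch (e x t) (s (π x)))) =
        ∑ t : X → Fin 2, (∏ x, c x (t x)) * ∏ x, (1 / 2 * (ch (t x) (s x) *
          ch (e (π.symm x) (t (π.symm x))) (s x))) := by
    intro s
    simp_rw [Finset.mul_sum]
    rw [Finset.prod_univ_sum, Fintype.piFinset_univ]
    refine Finset.sum_congr rfl fun t _ => ?_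
    have h2 : ∏ x, ch (e (π.symm x) (t (π.symm x))) (s x) = ∏ x, ch (e x (t x)) (s (π x)) := by
      rw [← Equiv.prod_comp π]
      simp
    simp only [Finset.prod_mul_distrib]
    rw [h2]
    ring
  rw [Finset.sum_congr rfl fun s _ => h1 s, Finset.sum_comm]
  refine Finset.sum_congr rfl fun t _ => ?_
  rw [← Finset.mul_sum]
  have h3 : ∑ s : X → Fin 2, ∏ x, (1 / 2 * (ch (t x) (s x) *
      ch (e (π.symm x) (t (π.symm x))) (s x))) =
      ∏ x, (1 / 2 * ∑ a : Fin 2, (ch (t x) a * ch (e (π.symm x) (t (π.symm x))) a)) := by
    simp_rw [Finset.mul_sum]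
    rw [Finset.prod_univ_sum, Fintype.piFinset_univ]
  rw [h3]
  simp_rw [sum_ch]
  by_cases h : ∀ x, t (π x) = e x (t x)
  · rw [if_pos h]
    have h4 : ∀ x, t x = e (π.symm x) (t (π.symm x)) := fun x => by
      rw [← h]; simp
    rw [Finset.prod_eq_one (s := Finset.univ)
      (f := fun x => 1 / 2 * if t x = e (π.symm x) (t (π.symm x)) then (2 : ℝ) else 0)]
    · ring
    · intro x _
      rw [if_pos (h4 x)]
      norm_num
  · rw [if_neg h]
    push Not at h
    obtain ⟨x, hx⟩ := h
    have hz : ∏ x, (1 / 2 * if t x = e (π.symm x) (t (π.symm x)) then (2 : ℝ) else 0) = 0 := by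
      refine Finset.prod_eq_zero (Finset.mem_univ (π x)) ?_
      have : ¬ (t (π x) = e (π.symm (π x)) (t (π.symm (π x)))) := by simpa using hx
      rw [if_neg this]
      ring
    rw [hz, mul_zero]

theorem fourierStmt : FourierStmt := by
  intro X _ _ π θ
  refine ⟨?_, ?_, ?_⟩
  · have h := fourier_gen π (fun x t => 1 + θ x * sg t) (fun _ t => t)
    unfold Zp
    rw [← h]
    refine Finset.sum_congr rfl fun s _ => ?_
    unfold wt
    refine Finset.prod_congr rfl fun x _ => ?_
    generalize s x = a
    generalize s (π x) = b
    fin_cases a <;> fin_cases b <;> simp [ch, sg, Fin.sum_univ_two] <;> ring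
  · intro u v huv
    have h := fourier_gen π
      (fun x t => if x = u ∨ x = v then θ x * sg t else 1 + θ x * sg t)
      (fun x t => if x = u ∨ x = v then 1 - t else t)
    have h1 : ∀ s : X → Fin 2, wt θ π s * (jj π s u * jj π s v) =
        ∏ x, (1 / 2 * ∑ t, (if x = u ∨ x = v then θ x * sg t else 1 + θ x * sg t) *
          (ch t (s x) * ch (if x = u ∨ x = v then 1 - t else t) (s (π x)))) := by
      intro s
      have h2 : jj π s u * jj π s v =
          ∏ x, if x = u ∨ x = v then jj π s x else 1 := by
        rw [Finset.prod_ite, Finset.prod_const_one, mul_one]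
        have : Finset.univ.filter (fun x => x = u ∨ x = v) = {u, v} := by
          ext x; simp
        rw [this, Finset.prod_pair huv]
      rw [h2]
      unfold wt
      rw [← Finset.prod_mul_distrib]
      refine Finset.prod_congr rfl fun x _ => ?_
      unfold jj
      generalize s x = a
      generalize s (π x) = b
      by_cases hx : x = u ∨ x = v
      · simp only [hx, if_true]
        fin_cases a <;> fin_cases b <;> simp [ch, sg, Fin.sum_univ_two] <;> ring
      · simp only [hx, if_false]
        fin_cases a <;> fin_cases b <;> simp [ch, sg, Fin.sum_univ_two] <;> ring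
    rw [Finset.sum_congr rfl fun s _ => h1 s, h]
    unfold Zf
    rw [Finset.mul_sum, ← Finset.sum_neg_distrib]
    refine Finset.sum_congr rfl fun t _ => ?_
    have hc : (∀ x, t (π x) = if x = u ∨ x = v then 1 - t x else t x) ↔
        (∀ x, (t (π x) = t x ↔ (x ≠ u ∧ x ≠ v))) := by
      refine forall_congr' fun x => ?_
      by_cases hx : x = u ∨ x = v
      · have hx' : ¬ (x ≠ u ∧ x ≠ v) := by tauto
        simp only [hx, if_true, hx', iff_false]
        generalize t x = a
        generalize t (π x) = b
        fin_cases a <;> fin_cases b <;> simp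
      · have hx' : (x ≠ u ∧ x ≠ v) := by tauto
        simp [hx']
    by_cases hq : ∀ x, (t (π x) = t x ↔ (x ≠ u ∧ x ≠ v))
    · rw [if_pos (hc.2 hq), if_pos hq]
      -- the spins at `u` and `v` are opposite
      have hne : t u ≠ t v := by
        intro huv'
        have hA : ∀ x, t x ≠ t u → t (π x) ≠ t u := by
          intro x hx
          have : x ≠ u ∧ x ≠ v := ⟨by rintro rfl; exact hx rfl, by rintro rfl; exact hx huv'.symm⟩
          rw [(hq x).2 this]
          exact hx
        have hmap : (Finset.univ.filter fun x => t x ≠ t u).map π.toEmbedding =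
            Finset.univ.filter fun x => t x ≠ t u := by
          apply Finset.eq_of_subset_of_card_le
          · intro y hy
            simp only [Finset.mem_map, Finset.mem_filter, Finset.mem_univ, true_and] at hy ⊢
            obtain ⟨x, hx, rfl⟩ := hy
            exact hA x hx
          · simp
        have h5 : t (π u) ≠ t u := by
          intro h6
          exact ((hq u).1 h6).1 rfl
        have h6 : π u ∈ Finset.univ.filter fun x => t x ≠ t u := by simpa using h5
        rw [← hmap] at h6
        simp at h6
      have hs : sg (t u) * sg (t v) = -1 := by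
        revert hne
        generalize t u = a
        generalize t v = b
        fin_cases a <;> fin_cases b <;> simp [sg]
      have h7 : ∀ x, (if x = u ∨ x = v then θ x * sg (t x) else 1 + θ x * sg (t x)) =
          (if x = u ∨ x = v then θ x * sg (t x) else 1) *
            (if x = u ∨ x = v then 1 else 1 + θ x * sg (t x)) := by
        intro x
        split_ifs <;> ring
      rw [Finset.prod_congr rfl fun x _ => h7 x, Finset.prod_mul_distrib]
      have h8 : ∏ x, (if x = u ∨ x = v then θ x * sg (t x) else 1) =
          (θ u * sg (t u)) * (θ v * sg (t v)) := by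
        rw [Finset.prod_ite, Finset.prod_const_one, mul_one]
        have : Finset.univ.filter (fun x => x = u ∨ x = v) = {u, v} := by
          ext x; simp
        rw [this, Finset.prod_pair huv]
      rw [h8]
      have h9 : θ u * sg (t u) * (θ v * sg (t v)) = θ u * θ v * (sg (t u) * sg (t v)) := by ring
      rw [h9, hs]
      ring
    · rw [if_neg (fun h10 => hq (hc.1 h10)), if_neg hq]
      ring
  · intro u
    have h := fourier_gen π (fun x t => if x = u then θ x * sg t else 1 + θ x * sg t)
      (fun _ t => t)
    have h1 : ∀ s : X → Fin 2, (if s u = s (π u) then 0 else wt θ π s) =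
        ∏ x, (1 / 2 * ∑ t, (if x = u then θ x * sg t else 1 + θ x * sg t) *
          (ch t (s x) * ch t (s (π x)))) := by
      intro s
      have h2 : (if s u = s (π u) then 0 else wt θ π s) =
          ∏ x, if x = u then (if s x = s (π x) then 0 else θ x) else
            (if s x = s (π x) then 1 else θ x) := by
        split_ifs with h0
        · rw [Finset.prod_eq_zero (Finset.mem_univ u)]
          simp [h0]
        · unfold wt
          refine Finset.prod_congr rfl fun x _ => ?_
          by_cases hx : x = u
          · subst hx
            simp [h0]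
          · simp [hx]
      rw [h2]
      refine Finset.prod_congr rfl fun x _ => ?_
      generalize s x = a
      generalize s (π x) = b
      by_cases hx : x = u
      · simp only [hx, if_true]
        fin_cases a <;> fin_cases b <;> simp [ch, sg, Fin.sum_univ_two] <;> ring
      · simp only [hx, if_false]
        fin_cases a <;> fin_cases b <;> simp [ch, sg, Fin.sum_univ_two] <;> ring
    rw [Finset.sum_congr rfl fun s _ => h1 s, h, Finset.mul_sum]
    refine Finset.sum_congr rfl fun t _ => ?_
    by_cases hq : ∀ x, t (π x) = t x
    · rw [if_pos hq, if_pos hq]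
      have h7 : ∀ x, (if x = u then θ x * sg (t x) else 1 + θ x * sg (t x)) =
          (if x = u then θ x else 1) * (if x = u then sg (t x) else 1 + θ x * sg (t x)) := by
        intro x
        split_ifs <;> ring
      rw [Finset.prod_congr rfl fun x _ => h7 x, Finset.prod_mul_distrib]
      simp
    · rw [if_neg hq, if_neg hq]
      ring

end

end Vale.Agent.P361.LRO.Loc
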