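import Vale.Agent.P361.LRO.Loc.Bridge

/-! P361 LRO LOC, leaf B: Griffiths on the cycles. -/

namespace Vale.Agent.P361.LRO.Loc

open Finset Vale.Agent.P361.LRO

theorem ringStmt : RingStmt := by
  intro X _ _ π θ hθ
  refine ⟨?_, ?_⟩
  · rw [Zp_eq]; exact Loop.Zp_pos π θ (fun v => (hθ v).1) (fun v => (hθ v).2)
  · intro a b
    rw [Zp_eq, Zp_eq]
    have h : Equiv.swap a b * π = π * Equiv.swap (π.symm a) (π.symm b) := by
      ext x
      simp only [Equiv.Perm.mul_apply]
      rw [Equiv.swap_apply_def, Equiv.swap_apply_def]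
      simp only [Equiv.eq_symm_apply]
      split_ifs <;> simp
    rw [h]
    exact Loop.Zp_mul_swap_le π θ (fun v => (hθ v).1) (fun v => (hθ v).2) _ _

end Vale.Agent.P361.LRO.Loc
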