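import Mathlib

/-!
# Gates on spin-1/2 configurations: entrywise positivity in two bases

Configurations `V → Bool`.  `sw x y` = swap, `sx x` = Pauli 1, `sz x` = Pauli 3, all as real
matrices in the `S^3` basis.  `had` = unnormalised Hadamard transform, exchanging `sx` and `sz`.
-/

open Matrix Finset

namespace Vale.Agent.P361.LRO.Loc.Tr

set_option linter.unusedSectionVars false
set_option linter.unusedSimpArgs false

variable {V : Type*} [Fintype V] [DecidableEq V]

/-- real matrices on spin configurations -/
abbrev Op (V : Type*) := Matrix (V → Bool) (V → Bool) ℝ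

/-- flip the spin at `x` -/
def flip (x : V) (s : V → Bool) : V → Bool := Function.update s x (!s x)

/-- exchange the spins at `x` and `y` -/
def swp (x y : V) (s : V → Bool) : V → Bool := s ∘ Equiv.swap x y

def sw (x y : V) : Op V := fun s t => if s = swp x y t then 1 else 0
def sx (x : V) : Op V := fun s t => if s = flip x t then 1 else 0
def sg (b : Bool) : ℝ := if b then -1 else 1
def sz (x : V) : Op V := Matrix.diagonal fun s => sg (s x)

lemma flip_flip (x : V) (s : V → Bool) : flip x (flip x s) = s := by
  funext y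
  by_cases h : y = x
  · subst h; simp [flip]
  · simp [flip, h]

lemma swp_swp (x y : V) (s : V → Bool) : swp x y (swp x y s) = s := by
  funext z; simp [swp]

lemma swp_flip (x y : V) (s : V → Bool) : swp x y (flip x s) = flip y (swp x y s) := by
  funext z
  simp only [swp, flip, Function.comp]
  by_cases h : z = y
  · subst h; simp
  · by_cases h2 : z = x
    · subst h2
      simp [Function.update_of_ne h, Function.update_apply]
      intro h3; exact absurd h3.symm h
    · rw [Equiv.swap_apply_of_ne_of_ne h2 h]
      simp [Function.update_of_ne h, Function.update_of_ne h2, swp,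
        Equiv.swap_apply_of_ne_of_ne h2 h]

lemma mul_sw_apply (A : Op V) (x y : V) (s t : V → Bool) :
    (A * sw x y) s t = A s (swp x y t) := by
  simp [Matrix.mul_apply, sw]

lemma mul_sx_apply (A : Op V) (x : V) (s t : V → Bool) :
    (A * sx x) s t = A s (flip x t) := by
  simp [Matrix.mul_apply, sx]

lemma sw_mul_apply (A : Op V) (x y : V) (s t : V → Bool) :
    (sw x y * A) s t = A (swp x y s) t := by
  rw [Matrix.mul_apply]
  rw [Finset.sum_eq_single (swp x y s)]
  · simp [sw, swp_swp]
  · intro b _ hb
    simp only [sw]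
    rw [if_neg, zero_mul]
    intro h; apply hb; rw [h, swp_swp]
  · intro h; exact absurd (Finset.mem_univ _) h

lemma sx_mul_apply (A : Op V) (x : V) (s t : V → Bool) :
    (sx x * A) s t = A (flip x s) t := by
  rw [Matrix.mul_apply]
  rw [Finset.sum_eq_single (flip x s)]
  · simp [sx, flip_flip]
  · intro b _ hb
    simp only [sx]
    rw [if_neg, zero_mul]
    intro h; apply hb; rw [h, flip_flip]
  · intro h; exact absurd (Finset.mem_univ _) h

lemma sx_sq (x : V) : sx x * sx x = (1 : Op V) := by
  ext s t
  rw [sx_mul_apply]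
  simp only [sx, Matrix.one_apply]
  have : flip x s = flip x t ↔ s = t := by
    constructor
    · intro h; have := congrArg (flip x) h; rwa [flip_flip, flip_flip] at this
    · rintro rfl; rfl
  simp [this]

lemma sx_mul_sw (x y : V) : sx x * sw x y = sw x y * sx y := by
  ext s t
  rw [sx_mul_apply, mul_sx_apply]
  simp only [sw]
  have : flip x s = swp x y t ↔ s = swp x y (flip y t) := by
    have h1 : swp x y (flip y t) = flip x (swp x y t) := by
      have := swp_flip y x t
      rw [show swp y x = (swp x y : (V → Bool) → (V → Bool)) from by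
        funext s z; simp [swp, Equiv.swap_comm]] at this
      exact this
    rw [h1]
    constructor
    · intro h; rw [← h, flip_flip]
    · rintro rfl; rw [flip_flip]
  simp [this]

/-! ### entrywise order -/

def NN (A : Op V) : Prop := ∀ s t, 0 ≤ A s t
def Le (A B : Op V) : Prop := ∀ s t, A s t ≤ B s t

lemma NN.mul {A B : Op V} (hA : NN A) (hB : NN B) : NN (A * B) := fun s t => by
  rw [Matrix.mul_apply]
  exact Finset.sum_nonneg fun r _ => mul_nonneg (hA s r) (hB r t)

lemma NN.add {A B : Op V} (hA : NN A) (hB : NN B) : NN (A + B) := fun s t => by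
  rw [Matrix.add_apply]; exact add_nonneg (hA s t) (hB s t)

lemma NN.smul {A : Op V} {c : ℝ} (hc : 0 ≤ c) (hA : NN A) : NN (c • A) := fun s t => by
  rw [Matrix.smul_apply, smul_eq_mul]; exact mul_nonneg hc (hA s t)

lemma NN.one : NN (1 : Op V) := fun s t => by
  rw [Matrix.one_apply]; split_ifs <;> norm_num

lemma NN.sw (x y : V) : NN (sw x y : Op V) := fun s t => by
  unfold Tr.sw; split_ifs <;> norm_num

lemma NN.sx (x : V) : NN (sx x : Op V) := fun s t => by
  unfold Tr.sx; split_ifs <;> norm_num

lemma NN.tr {A : Op V} (hA : NN A) : 0 ≤ A.trace := Finset.sum_nonneg fun s _ => hA s s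

lemma Le.tr {A B : Op V} (h : Le A B) : A.trace ≤ B.trace := Finset.sum_le_sum fun s _ => h s s

lemma Le.mul_left {A B : Op V} (h : Le A B) {C : Op V} (hC : NN C) : Le (C * A) (C * B) :=
  fun s t => by
    rw [Matrix.mul_apply, Matrix.mul_apply]
    exact Finset.sum_le_sum fun r _ => mul_le_mul_of_nonneg_left (h r t) (hC s r)

lemma Le.mul_right {A B : Op V} (h : Le A B) {C : Op V} (hC : NN C) : Le (A * C) (B * C) :=
  fun s t => by
    rw [Matrix.mul_apply, Matrix.mul_apply]
    exact Finset.sum_le_sum fun r _ => mul_le_mul_of_nonneg_right (h s r) (hC r t)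

/-! ### Hadamard transform -/

def had : Op V := fun s t => ∏ x, sg (s x && t x)

lemma sg_and_not (a b : Bool) : sg (!a && b) = sg (a && b) * sg b := by
  cases a <;> cases b <;> simp [sg]

lemma had_flip (x : V) (s t : V → Bool) : (had (flip x s) t : ℝ) = had s t * sg (t x) := by
  unfold had
  rw [← Finset.mul_prod_erase Finset.univ _ (Finset.mem_univ x),
    ← Finset.mul_prod_erase Finset.univ (fun y => sg (s y && t y)) (Finset.mem_univ x)]
  have h1 : ∏ y ∈ Finset.univ.erase x, sg (flip x s y && t y)
      = ∏ y ∈ Finset.univ.erase x, sg (s y && t y) := by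
    refine Finset.prod_congr rfl fun y hy => ?_
    have : y ≠ x := Finset.ne_of_mem_erase hy
    simp [flip, this]
  rw [h1]
  have h2 : flip x s x = !s x := by simp [flip]
  rw [h2, sg_and_not]; ring

lemma had_comm (s t : V → Bool) : (had s t : ℝ) = had t s := by
  unfold had
  exact Finset.prod_congr rfl fun x _ => by rw [Bool.and_comm]

lemma had_swp (x y : V) (s t : V → Bool) : (had s (swp x y t) : ℝ) = had (swp x y s) t := by
  unfold had
  rw [← Equiv.prod_comp (Equiv.swap x y)]
  refine Finset.prod_congr rfl fun z _ => ?_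
  simp [swp]

/-- `A` and `B` are the same operator in the two bases -/
def R (A B : Op V) : Prop := had * A = B * had

lemma R.mul {A B C D : Op V} (h : R A B) (h' : R C D) : R (A * C) (B * D) := by
  unfold R at *
  rw [← Matrix.mul_assoc, h, Matrix.mul_assoc, h', Matrix.mul_assoc]

lemma R.add {A B C D : Op V} (h : R A B) (h' : R C D) : R (A + C) (B + D) := by
  unfold R at *
  rw [Matrix.mul_add, Matrix.add_mul, h, h']

lemma R.smul {A B : Op V} (c : ℝ) (h : R A B) : R (c • A) (c • B) := by
  unfold R at *
  rw [Matrix.mul_smul, Matrix.smul_mul, h]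

lemma R.one : R (1 : Op V) 1 := by unfold R; simp

lemma R.sz (x : V) : R (Tr.sz x : Op V) (Tr.sx x) := by
  unfold R; ext s t
  rw [sx_mul_apply, Tr.sz, Matrix.mul_diagonal, had_flip]

lemma R.sx (x : V) : R (Tr.sx x : Op V) (Tr.sz x) := by
  unfold R; ext s t
  rw [mul_sx_apply, Tr.sz, Matrix.diagonal_mul, had_comm, had_flip, had_comm]; ring

lemma R.sw (x y : V) : R (Tr.sw x y : Op V) (Tr.sw x y) := by
  unfold R; ext s t
  rw [mul_sw_apply, sw_mul_apply, had_swp]

lemma had_sq : (had * had : Op V) = ((2:ℝ) ^ Fintype.card V) • (1 : Op V) := by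
  ext s t
  rw [Matrix.mul_apply, Matrix.smul_apply, Matrix.one_apply, smul_eq_mul]
  have h1 : ∀ r : V → Bool, (had s r * had r t : ℝ) = ∏ x, (sg (s x && r x) * sg (r x && t x)) := by
    intro r; unfold had; rw [Finset.prod_mul_distrib]
  simp_rw [h1]
  rw [← Fintype.prod_sum (fun (x : V) (b : Bool) => sg (s x && b) * sg (b && t x))]
  by_cases h : s = t
  · subst h
    simp only [if_true, mul_one]
    rw [Finset.prod_congr rfl (fun x _ => show ∑ b : Bool, sg (s x && b) * sg (b && s x) = (2:ℝ) by
      cases s x <;> simp [sg] <;> norm_num)]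
    simp
  · rw [if_neg h, mul_zero]
    obtain ⟨x, hx⟩ : ∃ x, s x ≠ t x := by
      by_contra hc; push Not at hc; exact h (funext hc)
    refine Finset.prod_eq_zero (Finset.mem_univ x) ?_
    revert hx
    cases s x <;> cases t x <;> simp [sg]

lemma R.tr {A B : Op V} (h : R A B) : A.trace = B.trace := by
  have h1 : (had * A * had).trace = (B * had * had).trace := by rw [h]
  rw [Matrix.mul_assoc B, had_sq, Matrix.trace_mul_comm, ← Matrix.mul_assoc, had_sq] at h1
  simp only [Matrix.smul_mul, Matrix.one_mul, Matrix.mul_smul, Matrix.mul_one,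
    Matrix.trace_smul, smul_eq_mul] at h1
  have h2 : (0:ℝ) < 2 ^ Fintype.card V := by positivity
  exact mul_left_cancel₀ h2.ne' h1

/-! ### gates and words -/

inductive Gate (V : Type*) where
  | sw (x y : V) (p : ℝ)
  | sl (x : V) (θ : ℝ)

def Gate.mat : Gate V → Op V
  | .sw x y p => (1 - p) • (1 : Op V) + p • Tr.sw x y
  | .sl x θ => 1 + θ • sz x

/-- the same gate in the other basis -/
def Gate.mat' : Gate V → Op V
  | .sw x y p => (1 - p) • (1 : Op V) + p • Tr.sw x y
  | .sl x θ => 1 + θ • sx x

def Gate.ok : Gate V → Prop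
  | .sw _ _ p => 0 ≤ p ∧ p ≤ 1
  | .sl _ θ => 0 ≤ θ ∧ θ ≤ 1

def Gate.low : Gate V → ℝ
  | .sw _ _ p => 1 - p
  | .sl _ θ => 1 - θ

def Gate.up : Gate V → ℝ
  | .sw _ _ p => 1 + p
  | .sl _ θ => 1 + θ

def wm (w : List (Gate V)) : Op V := (w.map Gate.mat).prod
def wm' (w : List (Gate V)) : Op V := (w.map Gate.mat').prod
def Ok (w : List (Gate V)) : Prop := ∀ g ∈ w, g.ok

lemma Gate.R (g : Gate V) : Tr.R g.mat g.mat' := by
  cases g with
  | sw x y p => exact (Tr.R.one.smul _).add ((Tr.R.sw x y).smul _)
  | sl x θ => exact Tr.R.one.add ((Tr.R.sz x).smul _)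

lemma Gate.nn {g : Gate V} (hg : g.ok) : NN g.mat := by
  cases g with
  | sw x y p =>
    exact (NN.one.smul (by have := hg.2; linarith)).add ((NN.sw x y).smul hg.1)
  | sl x θ =>
    intro s t
    simp only [Gate.mat, Matrix.add_apply, Matrix.one_apply, Matrix.smul_apply, sz,
      Matrix.diagonal_apply, smul_eq_mul]
    obtain ⟨h0, h1⟩ := hg
    split_ifs
    · cases s x <;> simp [sg] <;> linarith
    · simp

lemma Gate.nn' {g : Gate V} (hg : g.ok) : NN g.mat' := by
  cases g with
  | sw x y p =>
    exact (NN.one.smul (by have := hg.2; linarith)).add ((NN.sw x y).smul hg.1)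
  | sl x θ => exact NN.one.add ((NN.sx x).smul hg.1)

lemma wm_nn {w : List (Gate V)} (h : Ok w) : NN (wm w) := by
  induction w with
  | nil => exact NN.one
  | cons g r ih =>
    unfold wm; rw [List.map_cons, List.prod_cons]
    exact (Gate.nn (h g (by simp))).mul (ih fun g' hg' => h g' (by simp [hg']))

lemma wm'_nn {w : List (Gate V)} (h : Ok w) : NN (wm' w) := by
  induction w with
  | nil => exact NN.one
  | cons g r ih =>
    unfold wm'; rw [List.map_cons, List.prod_cons]
    exact (Gate.nn' (h g (by simp))).mul (ih fun g' hg' => h g' (by simp [hg']))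

lemma wm_R (w : List (Gate V)) : R (wm w) (wm' w) := by
  induction w with
  | nil => exact R.one
  | cons g r ih =>
    unfold wm wm'; rw [List.map_cons, List.prod_cons, List.map_cons, List.prod_cons]
    exact (Gate.R g).mul ih

lemma wm_cons (g : Gate V) (w : List (Gate V)) : wm (g :: w) = g.mat * wm w := by
  simp [wm]

lemma wm_append (w w' : List (Gate V)) : wm (w ++ w') = wm w * wm w' := by
  simp [wm]

/-! ### two-point facts for arbitrary words -/

lemma gks (w1 w2 : List (Gate V)) (h1 : Ok w1) (h2 : Ok w2) (x y : V) :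
    0 ≤ (wm w1 * (sz x * sz y) * wm w2).trace := by
  rw [((wm_R w1).mul ((R.sz x).mul (R.sz y)) |>.mul (wm_R w2)).tr]
  exact (((wm'_nn h1).mul ((NN.sx x).mul (NN.sx y))).mul (wm'_nn h2)).tr

lemma szsz_le (x y : V) : Le (sz x * sz y : Op V) 1 := by
  intro s t
  rw [sz, sz, Matrix.diagonal_mul_diagonal, Matrix.diagonal_apply, Matrix.one_apply]
  split_ifs
  · cases s x <;> cases s y <;> simp [sg]
  · exact le_refl _

lemma sxsx_tr (w1 w2 : List (Gate V)) (h1 : Ok w1) (h2 : Ok w2) (x y : V) :
    (wm w1 * (sx x * sx y) * wm w2).trace ≤ (wm w1 * wm w2).trace := by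
  rw [((wm_R w1).mul ((R.sx x).mul (R.sx y)) |>.mul (wm_R w2)).tr,
    ((wm_R w1).mul (wm_R w2)).tr]
  have := (((szsz_le x y).mul_left (wm'_nn h1)).mul_right (wm'_nn h2)).tr
  simpa using this

lemma sw_le (x y : V) : Le (sw x y : Op V) (1 + sx x * sx y) := by
  intro s t
  rw [Matrix.add_apply, Matrix.one_apply, mul_sx_apply]
  simp only [sw, sx]
  by_cases hs : s = swp x y t
  · rw [if_pos hs]
    by_cases hxy : t x = t y
    · have : swp x y t = t := by
        funext z; simp only [swp, Function.comp]
        by_cases hz : z = x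
        · subst hz; simp [hxy]
        · by_cases hz' : z = y
          · subst hz'; simp [hxy]
          · rw [Equiv.swap_apply_of_ne_of_ne hz hz']
      rw [hs, this]; simp only [if_true]
      split_ifs <;> norm_num
    · have hne : x ≠ y := fun h => hxy (by rw [h])
      have : swp x y t = flip x (flip y t) := by
        funext z; simp only [swp, Function.comp]
        by_cases hz : z = x
        · subst hz
          simp [flip, Function.update_of_ne hne]
          revert hxy; cases t z <;> cases t y <;> simp
        · by_cases hz' : z = y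
          · subst hz'
            simp [flip, Function.update_of_ne hz]
            revert hxy; cases t z <;> cases t x <;> simp
          · rw [Equiv.swap_apply_of_ne_of_ne hz hz']
            simp [flip, Function.update_of_ne hz, Function.update_of_ne hz']
      rw [hs, this]; simp only [if_true]
      split_ifs <;> norm_num
  · rw [if_neg hs]
    split_ifs <;> norm_num

lemma two_sw_ge (x y : V) : Le (1 + sz x * sz y : Op V) ((2:ℝ) • sw x y) := by
  intro s t
  rw [Matrix.add_apply, sz, sz, Matrix.diagonal_mul_diagonal, Matrix.diagonal_apply,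
    Matrix.one_apply, Matrix.smul_apply, smul_eq_mul]
  by_cases hst : s = t
  · subst hst
    simp only [if_true, sw]
    by_cases hxy : s x = s y
    · have : swp x y s = s := by
        funext z; simp only [swp, Function.comp]
        by_cases hz : z = x
        · subst hz; simp [hxy]
        · by_cases hz' : z = y
          · subst hz'; simp [hxy]
          · rw [Equiv.swap_apply_of_ne_of_ne hz hz']
      rw [this, hxy]; simp only [if_true]
      cases s y <;> simp [sg] <;> norm_num
    · split_ifs <;> revert hxy <;> cases s x <;> cases s y <;> simp [sg]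
  · rw [if_neg hst, if_neg hst]
    have := NN.sw x y s t
    linarith

lemma tr_sw_ge (w1 w2 : List (Gate V)) (h1 : Ok w1) (h2 : Ok w2) (x y : V) :
    (1/2) * (wm w1 * wm w2).trace ≤ (wm w1 * sw x y * wm w2).trace := by
  have h := (((two_sw_ge x y).mul_left (wm_nn h1)).mul_right (wm_nn h2)).tr
  have h3 := gks w1 w2 h1 h2 x y
  rw [Matrix.mul_add, Matrix.add_mul, Matrix.trace_add, Matrix.mul_one, Matrix.mul_smul,
    Matrix.smul_mul, Matrix.trace_smul, smul_eq_mul] at h
  linarith

lemma tr_sw_le (w1 w2 : List (Gate V)) (h1 : Ok w1) (h2 : Ok w2) (x y : V) :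
    (wm w1 * sw x y * wm w2).trace ≤ 2 * (wm w1 * wm w2).trace := by
  have h := (((sw_le x y).mul_left (wm_nn h1)).mul_right (wm_nn h2)).tr
  have h3 := sxsx_tr w1 w2 h1 h2 x y
  rw [Matrix.mul_add, Matrix.add_mul, Matrix.trace_add, Matrix.mul_one] at h
  linarith

lemma tr_gate_le (w1 w2 : List (Gate V)) (h1 : Ok w1) (h2 : Ok w2) (g : Gate V) (hg : g.ok) :
    (wm w1 * g.mat * wm w2).trace ≤ g.up * (wm w1 * wm w2).trace := by
  cases g with
  | sw x y p =>
    have := tr_sw_le w1 w2 h1 h2 x y
    simp only [Gate.mat, Gate.up]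
    rw [Matrix.mul_add, Matrix.add_mul, Matrix.trace_add, Matrix.mul_smul, Matrix.smul_mul,
      Matrix.mul_one, Matrix.trace_smul, Matrix.mul_smul, Matrix.smul_mul, Matrix.trace_smul,
      smul_eq_mul, smul_eq_mul]
    have h3 := mul_le_mul_of_nonneg_left this hg.1
    nlinarith
  | sl x θ =>
    have hle : Le (1 + θ • sz x : Op V) ((1 + θ) • (1 : Op V)) := by
      intro s t
      rw [Matrix.add_apply, Matrix.one_apply, Matrix.smul_apply, Matrix.smul_apply, sz,
        Matrix.diagonal_apply, Matrix.one_apply, smul_eq_mul, smul_eq_mul]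
      have h0 := hg.1
      split_ifs
      · cases s x <;> simp [sg] <;> linarith
      · simp
    have := ((hle.mul_left (wm_nn h1)).mul_right (wm_nn h2)).tr
    rw [Matrix.mul_smul, Matrix.smul_mul, Matrix.mul_one, Matrix.trace_smul, smul_eq_mul] at this
    exact this

lemma gate_ge (g : Gate V) (hg : g.ok) : Le (g.low • (1 : Op V)) g.mat := by
  intro s t
  cases g with
  | sw x y p =>
    simp only [Gate.mat, Gate.low, Matrix.add_apply, Matrix.smul_apply, smul_eq_mul]
    have := mul_nonneg hg.1 (NN.sw x y s t)
    linarith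
  | sl x θ =>
    simp only [Gate.mat, Gate.low, Matrix.add_apply, Matrix.smul_apply, smul_eq_mul, sz,
      Matrix.diagonal_apply, Matrix.one_apply]
    have h0 := hg.1
    split_ifs
    · cases s x <;> simp [sg] <;> linarith
    · simp

lemma wm_up_ge {w : List (Gate V)} (h : Ok w) :
    1 ≤ wm w (fun _ => false) (fun _ => false) := by
  induction w with
  | nil => simp [wm]
  | cons g r ih =>
    have hr : Ok r := fun g' hg' => h g' (by simp [hg'])
    have hg := h g (by simp)
    rw [wm_cons, Matrix.mul_apply]
    have h1 : (1:ℝ) ≤ g.mat (fun _ => false) (fun _ => false) := by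
      cases g with
      | sw x y p =>
        have : (fun _ => false : V → Bool) = swp x y (fun _ => false) := by
          funext z; simp [swp]
        simp [Gate.mat, sw, ← this]
      | sl x θ => simp [Gate.mat, sz, sg]; exact hg.1
    refine le_trans ?_ (Finset.single_le_sum (f := fun j => g.mat (fun _ => false) j *
      wm r j (fun _ => false)) (fun j _ => mul_nonneg (Gate.nn hg _ _) (wm_nn hr _ _))
      (Finset.mem_univ (fun _ => false)))
    have := ih hr
    nlinarith

lemma tr_pos {w : List (Gate V)} (h : Ok w) : 1 ≤ (wm w).trace := by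
  refine (wm_up_ge h).trans ?_
  exact Finset.single_le_sum (f := fun s => wm w s s) (fun s _ => wm_nn h s s)
    (Finset.mem_univ (fun _ => false))

end Vale.Agent.P361.LRO.Loc.Tr
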