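import Vale.Agent.P361.LRO.Loc.Alg

/-!
# (4) LOC: lower bounds for single conductances

For words `w1 w2 w3` of gates and sites `x`, `y`:
* `same_site`: `Tr (w1 σ¹ₓ w2 σ¹ₓ w3) ≥ cost x x w2 * Tr (w1 w2 w3)`;
* `neighbour`: `Tr (w1 σ¹ₓ w2 σ¹_y w3) ≥ (1/2) (∑ p over gates of w2 on {x,y}) * cost x y w2 * Tr (w1 w2 w3)`,
where `cost x y w2 = ∏ low/up` over the gates of `w2` touching `x` or `y`.
-/

open Matrix Finset

namespace Vale.Agent.P361.LRO.Loc.Tr

set_option linter.unusedSectionVars false

variable {V : Type*} [Fintype V] [DecidableEq V]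

def Gate.touch (x y : V) : Gate V → Prop
  | .sw a b _ => a = x ∨ a = y ∨ b = x ∨ b = y
  | .sl a _ => a = x ∨ a = y

instance (x y : V) (g : Gate V) : Decidable (g.touch x y) := by
  cases g <;> unfold Gate.touch <;> infer_instance

/-- factor lost at one gate -/
noncomputable def Gate.fac (x y : V) (g : Gate V) : ℝ := if g.touch x y then g.low / g.up else 1

/-- total loss -/
noncomputable def cost (x y : V) (w : List (Gate V)) : ℝ := (w.map (Gate.fac x y)).prod

/-- ring probability of a gate on the edge `{x,y}` -/
def Gate.pe (x y : V) : Gate V → ℝ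
  | .sw a b p => if (a = x ∧ b = y) ∨ (a = y ∧ b = x) then p else 0
  | .sl _ _ => 0

def psum (x y : V) (w : List (Gate V)) : ℝ := (w.map (Gate.pe x y)).sum

lemma up_pos {g : Gate V} (hg : g.ok) : 1 ≤ g.up := by
  cases g with
  | sw x y p => simp only [Gate.up]; have := hg.1; linarith
  | sl x θ => simp only [Gate.up]; have := hg.1; linarith

lemma low_nonneg {g : Gate V} (hg : g.ok) : 0 ≤ g.low := by
  cases g with
  | sw x y p => simp only [Gate.low]; have := hg.2; linarith
  | sl x θ => simp only [Gate.low]; have := hg.2; linarith

lemma low_le_up {g : Gate V} (hg : g.ok) : g.low ≤ g.up := by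
  cases g with
  | sw x y p => simp only [Gate.low, Gate.up]; have := hg.1; linarith
  | sl x θ => simp only [Gate.low, Gate.up]; have := hg.1; linarith

lemma fac_nonneg (x y : V) {g : Gate V} (hg : g.ok) : 0 ≤ g.fac x y := by
  unfold Gate.fac; split_ifs
  · exact div_nonneg (low_nonneg hg) (by have := up_pos hg; linarith)
  · norm_num

lemma fac_le_one (x y : V) {g : Gate V} (hg : g.ok) : g.fac x y ≤ 1 := by
  unfold Gate.fac; split_ifs
  · have := up_pos hg
    rw [div_le_one (by linarith)]; exact low_le_up hg
  · norm_num

lemma touch_right (x y : V) (g : Gate V) (h : g.touch y y) : g.touch x y := by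
  cases g <;> unfold Gate.touch at * <;> tauto

lemma fac_mono (x y : V) {g : Gate V} (hg : g.ok) : g.fac x y ≤ g.fac y y := by
  by_cases h : g.touch y y
  · have := touch_right x y g h
    unfold Gate.fac; rw [if_pos h, if_pos this]
  · refine (fac_le_one x y hg).trans ?_
    unfold Gate.fac; rw [if_neg h]

lemma cost_cons (x y : V) (g : Gate V) (w : List (Gate V)) :
    cost x y (g :: w) = g.fac x y * cost x y w := by simp [cost]

lemma cost_nonneg (x y : V) {w : List (Gate V)} (h : Ok w) : 0 ≤ cost x y w := by
  induction w with
  | nil => simp [cost]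
  | cons g r ih =>
    rw [cost_cons]
    exact mul_nonneg (fac_nonneg x y (h g (by simp))) (ih fun g' hg' => h g' (by simp [hg']))

lemma cost_mono (x y : V) {w : List (Gate V)} (h : Ok w) : cost x y w ≤ cost y y w := by
  induction w with
  | nil => simp [cost]
  | cons g r ih =>
    have hr : Ok r := fun g' hg' => h g' (by simp [hg'])
    rw [cost_cons, cost_cons]
    exact mul_le_mul (fac_mono x y (h g (by simp))) (ih hr) (cost_nonneg x y hr)
      (fac_nonneg y y (h g (by simp)))

lemma pe_nonneg (x y : V) {g : Gate V} (hg : g.ok) : 0 ≤ g.pe x y := by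
  cases g with
  | sw a b p => simp only [Gate.pe]; split_ifs; exacts [hg.1, le_refl _]
  | sl a θ => simp [Gate.pe]

lemma psum_cons (x y : V) (g : Gate V) (w : List (Gate V)) :
    psum x y (g :: w) = g.pe x y + psum x y w := by simp [psum]

lemma psum_nonneg (x y : V) {w : List (Gate V)} (h : Ok w) : 0 ≤ psum x y w := by
  induction w with
  | nil => simp [psum]
  | cons g r ih =>
    rw [psum_cons]
    exact add_nonneg (pe_nonneg x y (h g (by simp))) (ih fun g' hg' => h g' (by simp [hg']))

/-! ### commutation -/

lemma sx_comm_sw (x a b : V) (ha : a ≠ x) (hb : b ≠ x) :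
    (sx x * sw a b : Op V) = sw a b * sx x := by
  ext s t
  rw [sx_mul_apply, mul_sx_apply]
  simp only [sw]
  have key : ∀ r : V → Bool, flip x (swp a b r) = swp a b (flip x r) := by
    intro r; funext z
    simp only [swp, flip, Function.comp]
    by_cases hz : z = x
    · subst hz
      rw [Equiv.swap_apply_of_ne_of_ne (Ne.symm ha) (Ne.symm hb)]; simp
    · rw [Function.update_of_ne hz]
      have : Equiv.swap a b z ≠ x := by
        intro h
        by_cases h1 : z = a
        · subst h1; rw [Equiv.swap_apply_left] at h; exact hb h
        · by_cases h2 : z = b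
          · subst h2; rw [Equiv.swap_apply_right] at h; exact ha h
          · rw [Equiv.swap_apply_of_ne_of_ne h1 h2] at h; exact hz h
      rw [Function.update_of_ne this]; rfl
  have : flip x s = swp a b t ↔ s = swp a b (flip x t) := by
    rw [← key]
    constructor
    · intro h; rw [← h, flip_flip]
    · rintro rfl; rw [flip_flip]
  simp [this]

lemma sx_comm_sz (x a : V) (ha : a ≠ x) : (sx x * sz a : Op V) = sz a * sx x := by
  ext s t
  rw [sx_mul_apply, mul_sx_apply, sz, Matrix.diagonal_apply, Matrix.diagonal_apply]
  have h1 : flip x s = t ↔ s = flip x t := by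
    constructor
    · rintro rfl; rw [flip_flip]
    · rintro rfl; rw [flip_flip]
  have h2 : flip x s a = s a := by simp [flip, ha]
  simp only [h1, h2]

lemma sx_comm_gate (x : V) (g : Gate V) (h : ¬ g.touch x x) :
    (sx x * g.mat : Op V) = g.mat * sx x := by
  cases g with
  | sw a b p =>
    unfold Gate.touch at h; push Not at h
    simp only [Gate.mat]
    rw [Matrix.mul_add, Matrix.add_mul, Matrix.mul_smul, Matrix.mul_smul, Matrix.smul_mul,
      Matrix.smul_mul, sx_comm_sw x a b h.1 h.2.2.1, Matrix.mul_one, Matrix.one_mul]
  | sl a θ =>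
    unfold Gate.touch at h; push Not at h
    simp only [Gate.mat]
    rw [Matrix.mul_add, Matrix.add_mul, Matrix.mul_smul, Matrix.smul_mul,
      sx_comm_sz x a h.1, Matrix.mul_one, Matrix.one_mul]

/-! ### the two bounds -/

lemma tr_nn (w1 w2 w3 : List (Gate V)) (h1 : Ok w1) (h2 : Ok w2) (h3 : Ok w3) (x y : V) :
    0 ≤ (wm w1 * sx x * wm w2 * sx y * wm w3).trace :=
  (((((wm_nn h1).mul (NN.sx x)).mul (wm_nn h2)).mul (NN.sx y)).mul (wm_nn h3)).tr

lemma word_nn (w1 w2 w3 : List (Gate V)) (h1 : Ok w1) (h2 : Ok w2) (h3 : Ok w3) :
    0 ≤ (wm w1 * wm w2 * wm w3).trace :=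
  (((wm_nn h1).mul (wm_nn h2)).mul (wm_nn h3)).tr

theorem same_site (x : V) (w2 : List (Gate V)) : ∀ (w1 w3 : List (Gate V)),
    Ok w1 → Ok w2 → Ok w3 →
    cost x x w2 * (wm w1 * wm w2 * wm w3).trace
      ≤ (wm w1 * sx x * wm w2 * sx x * wm w3).trace := by
  induction w2 with
  | nil =>
    intro w1 w3 _ _ _
    have : wm w1 * sx x * wm ([] : List (Gate V)) * sx x * wm w3 = wm w1 * wm [] * wm w3 := by
      simp only [wm, List.map_nil, List.prod_nil, Matrix.mul_one]
      rw [Matrix.mul_assoc (List.prod _) (sx x) (sx x), sx_sq, Matrix.mul_one]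
    rw [this]; simp [cost]
  | cons g r ih =>
    intro w1 w3 h1 h2 h3
    have hg : g.ok := h2 g (by simp)
    have hr : Ok r := fun g' hg' => h2 g' (by simp [hg'])
    by_cases ht : g.touch x x
    · -- keep only the identity part of the gate
      have hup := up_pos hg
      have hA : (wm w1 * sx x * (g.low • (1 : Op V)) * (wm r * sx x * wm w3)).trace
          ≤ (wm w1 * sx x * g.mat * (wm r * sx x * wm w3)).trace :=
        (((gate_ge g hg).mul_left ((wm_nn h1).mul (NN.sx x))).mul_right
          (((wm_nn hr).mul (NN.sx x)).mul (wm_nn h3))).tr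
      have hA' : (wm w1 * sx x * (g.low • (1 : Op V)) * (wm r * sx x * wm w3)).trace
          = g.low * (wm w1 * sx x * wm r * sx x * wm w3).trace := by
        rw [Matrix.mul_smul, Matrix.smul_mul, Matrix.mul_one, Matrix.trace_smul, smul_eq_mul]
        simp only [Matrix.mul_assoc]
      have hB := ih w1 w3 h1 hr h3
      have hC := tr_gate_le w1 (r ++ w3) h1 (by
        intro g' hg'; rcases List.mem_append.1 hg' with h | h
        exacts [hr _ h, h3 _ h]) g hg
      rw [wm_append] at hC
      rw [wm_cons, cost_cons]
      have hfac : g.fac x x = g.low / g.up := by unfold Gate.fac; rw [if_pos ht]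
      rw [hfac]
      have e1 : (wm w1 * (g.mat * wm r) * wm w3).trace = (wm w1 * g.mat * (wm r * wm w3)).trace := by
        simp only [Matrix.mul_assoc]
      have e2 : (wm w1 * sx x * (g.mat * wm r) * sx x * wm w3).trace
          = (wm w1 * sx x * g.mat * (wm r * sx x * wm w3)).trace := by
        simp only [Matrix.mul_assoc]
      rw [e1, e2]
      have e3 : (wm w1 * wm r * wm w3).trace = (wm w1 * (wm r * wm w3)).trace := by
        simp only [Matrix.mul_assoc]
      rw [e3] at hB
      have hc := cost_nonneg x x hr
      have hl := low_nonneg hg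
      calc g.low / g.up * cost x x r * (wm w1 * g.mat * (wm r * wm w3)).trace
          ≤ g.low / g.up * cost x x r * (g.up * (wm w1 * (wm r * wm w3)).trace) :=
            mul_le_mul_of_nonneg_left hC (mul_nonneg (div_nonneg hl (by linarith)) hc)
        _ = g.low * (cost x x r * (wm w1 * (wm r * wm w3)).trace) := by
            field_simp
        _ ≤ g.low * (wm w1 * sx x * wm r * sx x * wm w3).trace :=
            mul_le_mul_of_nonneg_left hB hl
        _ ≤ _ := by rw [← hA']; exact hA
    · -- the gate commutes with `sx x`
      have hB := ih (w1 ++ [g]) w3 (by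
        intro g' hg'; rcases List.mem_append.1 hg' with h | h
        · exact h1 _ h
        · rw [List.mem_singleton] at h; rw [h]; exact hg) hr h3
      rw [cost_cons]
      have hfac : g.fac x x = 1 := by unfold Gate.fac; rw [if_neg ht]
      rw [hfac, one_mul, wm_cons]
      rw [wm_append] at hB
      have e0 : wm [g] = g.mat := by simp [wm]
      rw [e0] at hB
      have e1 : (wm w1 * (g.mat * wm r) * wm w3) = wm w1 * g.mat * wm r * wm w3 := by
        simp only [Matrix.mul_assoc]
      have e2 : (wm w1 * sx x * (g.mat * wm r) * sx x * wm w3)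
          = wm w1 * g.mat * sx x * wm r * sx x * wm w3 := by
        have := sx_comm_gate x g ht
        simp only [Matrix.mul_assoc]
        rw [← Matrix.mul_assoc (sx x) g.mat, this]
        simp only [Matrix.mul_assoc]
      rw [e1, e2]; exact hB

theorem neighbour (x y : V) (w2 : List (Gate V)) : ∀ (w1 w3 : List (Gate V)),
    Ok w1 → Ok w2 → Ok w3 →
    (1/2) * psum x y w2 * cost x y w2 * (wm w1 * wm w2 * wm w3).trace
      ≤ (wm w1 * sx x * wm w2 * sx y * wm w3).trace := by
  induction w2 with
  | nil =>
    intro w1 w3 h1 h2 h3
    have : psum x y ([] : List (Gate V)) = 0 := by simp [psum]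
    rw [this, mul_zero, zero_mul, zero_mul]
    exact tr_nn w1 [] w3 h1 h2 h3 x y
  | cons g r ih =>
    intro w1 w3 h1 h2 h3
    have hg : g.ok := h2 g (by simp)
    have hr : Ok r := fun g' hg' => h2 g' (by simp [hg'])
    have hrw : Ok (r ++ w3) := by
      intro g' hg'; rcases List.mem_append.1 hg' with h | h
      exacts [hr _ h, h3 _ h]
    by_cases ht : g.touch x y
    · have hup := up_pos hg
      have hC := tr_gate_le w1 (r ++ w3) h1 hrw g hg
      rw [wm_append] at hC
      have hB := ih w1 w3 h1 hr h3
      have e3 : (wm w1 * wm r * wm w3).trace = (wm w1 * (wm r * wm w3)).trace := by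
        simp only [Matrix.mul_assoc]
      rw [e3] at hB
      have hc := cost_nonneg x y hr
      have hl := low_nonneg hg
      have hps := psum_nonneg x y hr
      have hT0 : 0 ≤ (wm w1 * (wm r * wm w3)).trace := by
        rw [← e3]; exact word_nn w1 r w3 h1 hr h3
      set T0 := (wm w1 * (wm r * wm w3)).trace with hT0def
      set T := (wm w1 * g.mat * (wm r * wm w3)).trace with hTdef
      have e1 : (wm w1 * wm (g :: r) * wm w3).trace = T := by
        rw [hTdef, wm_cons]; simp only [Matrix.mul_assoc]
      rw [e1, cost_cons, psum_cons]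
      have hfac : g.fac x y = g.low / g.up := by unfold Gate.fac; rw [if_pos ht]
      rw [hfac]
      -- main inequality: full ≥ low * (rest) + pe * (one ring)
      have main : g.low * (wm w1 * sx x * wm r * sx y * wm w3).trace
          + g.pe x y * ((1/2) * (cost x y r * T0))
          ≤ (wm w1 * sx x * wm (g :: r) * sx y * wm w3).trace := by
        cases g with
        | sl a θ =>
          have hA : (wm w1 * sx x * ((Gate.sl a θ).low • (1 : Op V)) * (wm r * sx y * wm w3)).trace
              ≤ (wm w1 * sx x * (Gate.sl a θ).mat * (wm r * sx y * wm w3)).trace :=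
            (((gate_ge (Gate.sl a θ) hg).mul_left ((wm_nn h1).mul (NN.sx x))).mul_right
              (((wm_nn hr).mul (NN.sx y)).mul (wm_nn h3))).tr
          rw [Matrix.mul_smul, Matrix.smul_mul, Matrix.mul_one, Matrix.trace_smul,
            smul_eq_mul] at hA
          rw [wm_cons]
          simp only [Gate.pe, zero_mul, add_zero]
          simp only [Matrix.mul_assoc] at hA ⊢
          exact hA
        | sw a b p =>
          rw [wm_cons]
          simp only [Gate.mat, Gate.low]
          have hexp : (wm w1 * sx x * (((1 - p) • (1 : Op V) + p • sw a b) * wm r) * sx y * wm w3).trace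
              = (1 - p) * (wm w1 * sx x * wm r * sx y * wm w3).trace
                + p * (wm w1 * sx x * sw a b * (wm r * sx y * wm w3)).trace := by
            simp only [Matrix.mul_add, Matrix.add_mul, Matrix.mul_smul, Matrix.smul_mul,
              Matrix.one_mul, Matrix.trace_add, Matrix.trace_smul, smul_eq_mul, Matrix.mul_assoc]
          rw [hexp]
          have hring : 0 ≤ (wm w1 * sx x * sw a b * (wm r * sx y * wm w3)).trace :=
            ((((wm_nn h1).mul (NN.sx x)).mul (NN.sw a b)).mul
              (((wm_nn hr).mul (NN.sx y)).mul (wm_nn h3))).tr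
          have hp0 := hg.1
          by_cases he : (a = x ∧ b = y) ∨ (a = y ∧ b = x)
          · simp only [Gate.pe, if_pos he]
            have hsw : (sw a b : Op V) = sw x y := by
              rcases he with ⟨rfl, rfl⟩ | ⟨rfl, rfl⟩
              · rfl
              · have hs : (swp a b : (V → Bool) → (V → Bool)) = swp b a := by
                  funext u z; simp only [swp, Function.comp, Equiv.swap_comm a b]
                ext s t; unfold sw; rw [hs]
            have hss := same_site y r (w1 ++ [Gate.sw x y 1]) w3 (by
              intro g' hg'; rcases List.mem_append.1 hg' with h | h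
              · exact h1 _ h
              · rw [List.mem_singleton] at h; rw [h]; exact ⟨by norm_num, by norm_num⟩) hr h3
            have e0 : wm (w1 ++ [Gate.sw x y 1]) = wm w1 * sw x y := by
              rw [wm_append]; simp [wm, Gate.mat]
            rw [e0] at hss
            have hlow := tr_sw_ge w1 (r ++ w3) h1 hrw x y
            rw [wm_append] at hlow
            have hcm := cost_mono x y hr
            have e5 : (wm w1 * sw x y * wm r * wm w3).trace
                = (wm w1 * sw x y * (wm r * wm w3)).trace := by simp only [Matrix.mul_assoc]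
            rw [e5] at hss
            have e6 : (wm w1 * sx x * sw a b * (wm r * sx y * wm w3)).trace
                = (wm w1 * sw x y * sx y * wm r * sx y * wm w3).trace := by
              rw [hsw, Matrix.mul_assoc (wm w1) (sx x) (sw x y), sx_mul_sw]
              simp only [Matrix.mul_assoc]
            rw [e6]
            have hchain : (1/2) * (cost x y r * T0)
                ≤ (wm w1 * sw x y * sx y * wm r * sx y * wm w3).trace := by
              refine le_trans ?_ hss
              calc (1/2) * (cost x y r * T0) ≤ (1/2) * (cost y y r * T0) := by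
                    have := mul_le_mul_of_nonneg_right hcm hT0
                    linarith
                _ = cost y y r * ((1/2) * T0) := by ring
                _ ≤ _ := mul_le_mul_of_nonneg_left hlow (cost_nonneg y y hr)
            have := mul_le_mul_of_nonneg_left hchain hp0
            linarith
          · simp only [Gate.pe, if_neg he]
            have := mul_nonneg hp0 hring
            linarith
      refine le_trans ?_ main
      have hpe := pe_nonneg x y hg
      have h4 : g.low * ((1/2) * psum x y r * cost x y r * T0)
          ≤ g.low * (wm w1 * sx x * wm r * sx y * wm w3).trace :=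
        mul_le_mul_of_nonneg_left hB hl
      have hlow1 : g.low ≤ 1 := by
        cases g with
        | sw a b p => simp only [Gate.low]; have := hg.1; linarith
        | sl a θ => simp only [Gate.low]; have := hg.1; linarith
      have h5 : (1/2) * (g.pe x y + psum x y r) * (g.low / g.up * cost x y r) * T
          ≤ (1/2) * (g.pe x y + psum x y r) * (g.low / g.up * cost x y r) * (g.up * T0) := by
        refine mul_le_mul_of_nonneg_left hC ?_
        have : 0 ≤ g.low / g.up := div_nonneg hl (by linarith)
        positivity
      refine h5.trans ?_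
      have h6 : (1/2) * (g.pe x y + psum x y r) * (g.low / g.up * cost x y r) * (g.up * T0)
          = g.low * ((1/2) * psum x y r * cost x y r * T0)
            + g.low * (g.pe x y * ((1/2) * (cost x y r * T0))) := by
        field_simp
        ring
      rw [h6]
      have h7 : g.low * (g.pe x y * ((1/2) * (cost x y r * T0)))
          ≤ 1 * (g.pe x y * ((1/2) * (cost x y r * T0))) := by
        refine mul_le_mul_of_nonneg_right hlow1 ?_
        positivity
      linarith
    · have htx : ¬ g.touch x x := by
        intro h; apply ht
        cases g <;> unfold Gate.touch at * <;> tauto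
      have hB := ih (w1 ++ [g]) w3 (by
        intro g' hg'; rcases List.mem_append.1 hg' with h | h
        · exact h1 _ h
        · rw [List.mem_singleton] at h; rw [h]; exact hg) hr h3
      rw [cost_cons, psum_cons]
      have hfac : g.fac x y = 1 := by unfold Gate.fac; rw [if_neg ht]
      have hpe0 : g.pe x y = 0 := by
        cases g with
        | sl a θ => rfl
        | sw a b p =>
          simp only [Gate.pe]
          rw [if_neg]
          intro h; apply ht; unfold Gate.touch; tauto
      rw [hfac, one_mul, hpe0, zero_add, wm_cons]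
      rw [wm_append] at hB
      have e0 : wm [g] = g.mat := by simp [wm]
      rw [e0] at hB
      have e1 : (wm w1 * (g.mat * wm r) * wm w3) = wm w1 * g.mat * wm r * wm w3 := by
        simp only [Matrix.mul_assoc]
      have e2 : (wm w1 * sx x * (g.mat * wm r) * sx y * wm w3)
          = wm w1 * g.mat * sx x * wm r * sx y * wm w3 := by
        have := sx_comm_gate x g htx
        simp only [Matrix.mul_assoc]
        rw [← Matrix.mul_assoc (sx x) g.mat, this]
        simp only [Matrix.mul_assoc]
      rw [e1, e2]; exact hB

end Vale.Agent.P361.LRO.Loc.Tr
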