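import Vale.Agent.P361.LRO.Loc.Iface
import Vale.Agent.P361.LRO.Loop.Conj

/-! P361 LRO LOC: bridge between `Loop` (spins in `ℤˣ`) and the interface `Loc` (spins in `Fin 2`). -/

namespace Vale.Agent.P361.LRO.Loc

open Finset Vale.Agent.P361.LRO

variable {X : Type} [Fintype X] [DecidableEq X]

lemma sg_eq (a : Fin 2) : sg a = Loop.sg (Loop.sgn2 a) := by
  fin_cases a <;> simp [sg, Loop.sg, Loop.sgn2]

lemma arrow_apply (s : X → Fin 2) (x : X) :
    (Equiv.arrowCongr (Equiv.refl X) Loop.sgn2) s x = Loop.sgn2 (s x) := by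
  simp [Equiv.arrowCongr]

lemma Zp_eq (π : Equiv.Perm X) (θ : X → ℝ) : Zp π θ = Loop.Zp π θ := by
  unfold Zp Loop.Zp Loop.inv
  rw [Finset.sum_filter, ← Equiv.sum_comp (Equiv.arrowCongr (Equiv.refl X) Loop.sgn2)]
  refine Finset.sum_congr rfl fun t _ => ?_
  simp only [arrow_apply, Loop.sgn2.injective.eq_iff, sg_eq]

lemma sgn2_neg_iff (a b : Fin 2) : (¬ a = b) ↔ Loop.sgn2 a = - Loop.sgn2 b := by
  revert a b; decide

lemma Zf_eq (π : Equiv.Perm X) (θ : X → ℝ) (u v : X) : Zf π θ u v = Loop.Zf π θ u v := by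
  unfold Zf Loop.Zf Loop.finv
  rw [Finset.sum_filter, ← Equiv.sum_comp (Equiv.arrowCongr (Equiv.refl X) Loop.sgn2)]
  refine Finset.sum_congr rfl fun t _ => ?_
  have hiff : (∀ x, (t (π x) = t x ↔ (x ≠ u ∧ x ≠ v))) ↔
      (∀ x, (Equiv.arrowCongr (Equiv.refl X) Loop.sgn2) t (π x) =
        if x = u ∨ x = v then - (Equiv.arrowCongr (Equiv.refl X) Loop.sgn2) t x
        else (Equiv.arrowCongr (Equiv.refl X) Loop.sgn2) t x) := by
    refine forall_congr' fun x => ?_
    rw [arrow_apply, arrow_apply]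
    by_cases hx : x = u ∨ x = v
    · rw [if_pos hx, ← sgn2_neg_iff]
      constructor
      · intro h h'
        have := h.1 h'
        tauto
      · intro h
        constructor
        · intro h'; exact absurd h' h
        · intro h'; tauto
    · rw [if_neg hx, Loop.sgn2.injective.eq_iff]
      constructor
      · intro h; exact h.2 (by tauto)
      · intro h; exact ⟨fun _ => by tauto, fun _ => h⟩
  by_cases h : ∀ x, (t (π x) = t x ↔ (x ≠ u ∧ x ≠ v))
  · rw [if_pos h, if_pos (hiff.1 h)]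
    rw [← Finset.prod_sdiff (Finset.subset_univ ({u, v} : Finset X))]
    have h1 : ∏ x ∈ ({u, v} : Finset X), (if x = u ∨ x = v then (1:ℝ) else 1 + θ x * sg (t x)) = 1 := by
      refine Finset.prod_eq_one fun x hx => ?_
      rw [if_pos]; simpa using hx
    rw [h1, mul_one]
    refine Finset.prod_congr rfl fun x hx => ?_
    rw [if_neg (by simpa using hx), arrow_apply, sg_eq]
  · rw [if_neg h, if_neg (fun h' => h (hiff.2 h'))]

end Vale.Agent.P361.LRO.Loc
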