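import Vale.Agent.P361.LRO.Loc.Iface

set_option linter.unusedSectionVars false

/-!
P361 LRO, block (4) LOC, leaf C: closing gates, exactly one open gate.
-/

namespace Vale.Agent.P361.LRO.Loc

open Finset Vale.Agent.P361.LRO

noncomputable section

variable {X : Type} [Fintype X] [DecidableEq X]

theorem law_nonneg {l : List (X × X × ℝ)} (σ : Equiv.Perm X)
    (h : ∀ g ∈ l, 0 ≤ g.2.2 ∧ g.2.2 ≤ 1) : ∀ π, 0 ≤ law l σ π := by
  induction l with
  | nil =>
    intro π
    simp only [law, Pi.single_apply]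
    split_ifs <;> norm_num
  | cons g l ih =>
    intro π
    have hg := h g (by simp)
    have ih' := ih fun g hg => h g (by simp [hg])
    simp only [law]
    exact add_nonneg (mul_nonneg (by linarith [hg.2]) (ih' _)) (mul_nonneg hg.1 (ih' _))

/-- composition with a swap on the left -/
def sw (a b : X) (F : Equiv.Perm X → ℝ) : Equiv.Perm X → ℝ := fun π => F (Equiv.swap a b * π)

theorem ev_cons (g : X × X × ℝ) (l : List (X × X × ℝ)) (σ : Equiv.Perm X)
    (F : Equiv.Perm X → ℝ) :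
    ev (g :: l) σ F = (1 - g.2.2) * ev l σ F + g.2.2 * ev l σ (sw g.1 g.2.1 F) := by
  have h1 : ∑ π, law l σ (Equiv.swap g.1 g.2.1 * π) * F π
      = ∑ π, law l σ π * F (Equiv.swap g.1 g.2.1 * π) := by
    refine Fintype.sum_equiv (Equiv.mulLeft (Equiv.swap g.1 g.2.1)) _ _ fun π => ?_
    simp
  unfold ev sw
  rw [← h1, Finset.mul_sum, Finset.mul_sum, ← Finset.sum_add_distrib]
  refine Finset.sum_congr rfl fun π _ => ?_
  simp only [law]
  ring

theorem ev_nonneg {l : List (X × X × ℝ)} (σ : Equiv.Perm X)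
    (h : ∀ g ∈ l, 0 ≤ g.2.2 ∧ g.2.2 ≤ 1) {F : Equiv.Perm X → ℝ} (hF : ∀ π, 0 ≤ F π) :
    0 ≤ ev l σ F :=
  Finset.sum_nonneg fun π _ => mul_nonneg (law_nonneg σ h π) (hF π)

theorem ev_mono {l : List (X × X × ℝ)} (σ : Equiv.Perm X)
    (h : ∀ g ∈ l, 0 ≤ g.2.2 ∧ g.2.2 ≤ 1) {F G : Equiv.Perm X → ℝ} (hFG : ∀ π, F π ≤ G π) :
    ev l σ F ≤ ev l σ G :=
  Finset.sum_le_sum fun π _ => mul_le_mul_of_nonneg_left (hFG π) (law_nonneg σ h π)

theorem ev_smul (l : List (X × X × ℝ)) (σ : Equiv.Perm X) (c : ℝ) (F : Equiv.Perm X → ℝ) :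
    ev l σ (fun π => c * F π) = c * ev l σ F := by
  unfold ev
  rw [Finset.mul_sum]
  exact Finset.sum_congr rfl fun π _ => by ring

/-- one more transposition costs at most a factor `2` -/
def Two (F : Equiv.Perm X → ℝ) : Prop := ∀ a b π, F (Equiv.swap a b * π) ≤ 2 * F π

theorem Two.nonneg {F : Equiv.Perm X → ℝ} (h : Two F) (a b : X) (π : Equiv.Perm X) : 0 ≤ F π := by
  have h1 := h a b (Equiv.swap a b * π)
  have h2 := h a b π
  rw [← mul_assoc, Equiv.swap_mul_self, one_mul] at h1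
  linarith

theorem Two.sw {F : Equiv.Perm X → ℝ} (h : Two F) (a b : X) : Two (sw a b F) := by
  intro c d π
  unfold Loc.sw
  have e : Equiv.swap a b * (Equiv.swap c d * π)
      = Equiv.swap (Equiv.swap a b c) (Equiv.swap a b d) * (Equiv.swap a b * π) := by
    rw [← mul_assoc, ← mul_assoc, Equiv.swap_apply_apply]
    simp [mul_assoc]
  rw [e]
  exact h _ _ _

theorem two_Zp (hR : RingStmt) {θ : X → ℝ} (hθ : ∀ x, 0 ≤ θ x ∧ θ x ≤ 1) :
    Two (fun π : Equiv.Perm X => Zp π θ) := fun a b π => (hR X π θ hθ).2 a b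

theorem closeG_cons (S : X × X × ℝ → Prop) [DecidablePred S] (g : X × X × ℝ)
    (l : List (X × X × ℝ)) :
    closeG S (g :: l) = (if S g then (g.1, g.2.1, 0) else g) :: closeG S l := by
  simp [closeG]

theorem closeG_ok {S : X × X × ℝ → Prop} [DecidablePred S] {l : List (X × X × ℝ)}
    (h : ∀ g ∈ l, 0 ≤ g.2.2 ∧ g.2.2 ≤ 1) : ∀ g ∈ closeG S l, 0 ≤ g.2.2 ∧ g.2.2 ≤ 1 := by
  intro g hg
  unfold closeG at hg
  obtain ⟨g', hg', rfl⟩ := List.mem_map.1 hg
  split_ifs
  · exact ⟨le_rfl, zero_le_one⟩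
  · exact h g' hg'

theorem OKg.one {l : List (X × X × ℝ)} (h : OKg l) : ∀ g ∈ l, 0 ≤ g.2.2 ∧ g.2.2 ≤ 1 :=
  fun g hg => ⟨(h g hg).1, by linarith [(h g hg).2]⟩

theorem prodm_nonneg {S : X × X × ℝ → Prop} [DecidablePred S] {l : List (X × X × ℝ)}
    (h : ∀ g ∈ l, 0 ≤ g.2.2 ∧ g.2.2 ≤ 1) :
    0 ≤ (l.map fun g => if S g then 1 - g.2.2 else (1 : ℝ)).prod := by
  induction l with
  | nil => simp
  | cons g l ih =>
    rw [List.map_cons, List.prod_cons]
    refine mul_nonneg ?_ (ih fun g hg => h g (by simp [hg]))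
    have := h g (by simp)
    split_ifs <;> linarith [this.2]

theorem prodp_nonneg {S : X × X × ℝ → Prop} [DecidablePred S] {l : List (X × X × ℝ)}
    (h : ∀ g ∈ l, 0 ≤ g.2.2 ∧ g.2.2 ≤ 1) :
    0 ≤ (l.map fun g => if S g then 1 + g.2.2 else (1 : ℝ)).prod := by
  induction l with
  | nil => simp
  | cons g l ih =>
    rw [List.map_cons, List.prod_cons]
    refine mul_nonneg ?_ (ih fun g hg => h g (by simp [hg]))
    have := h g (by simp)
    split_ifs <;> linarith [this.1]

theorem close_low (S : X × X × ℝ → Prop) [DecidablePred S] {l : List (X × X × ℝ)}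
    (σ : Equiv.Perm X) (h : ∀ g ∈ l, 0 ≤ g.2.2 ∧ g.2.2 ≤ 1) :
    ∀ F : Equiv.Perm X → ℝ, (∀ π, 0 ≤ F π) →
      (l.map fun g => if S g then 1 - g.2.2 else 1).prod * ev (closeG S l) σ F ≤ ev l σ F := by
  induction l with
  | nil => intro F _; simp [closeG]
  | cons g l ih =>
    intro F hF
    have hg := h g (by simp)
    have hl : ∀ g ∈ l, 0 ≤ g.2.2 ∧ g.2.2 ≤ 1 := fun g hg => h g (by simp [hg])
    have ih1 := ih hl F hF
    have hF2 : ∀ π, 0 ≤ sw g.1 g.2.1 F π := fun π => hF _
    have ih2 := ih hl _ hF2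
    rw [List.map_cons, List.prod_cons, closeG_cons, ev_cons, ev_cons]
    have e0 := ev_nonneg σ hl hF2
    by_cases hS : S g
    · simp only [hS, if_true, sub_zero, one_mul, zero_mul, add_zero]
      have := mul_le_mul_of_nonneg_left ih1 (by linarith [hg.2] : 0 ≤ 1 - g.2.2)
      nlinarith [mul_nonneg hg.1 e0]
    · simp only [hS, if_false, one_mul]
      have h1 := mul_le_mul_of_nonneg_left ih1 (by linarith [hg.2] : 0 ≤ 1 - g.2.2)
      have h2 := mul_le_mul_of_nonneg_left ih2 hg.1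
      linarith

theorem close_up (S : X × X × ℝ → Prop) [DecidablePred S] {l : List (X × X × ℝ)}
    (σ : Equiv.Perm X) (h : ∀ g ∈ l, 0 ≤ g.2.2 ∧ g.2.2 ≤ 1) :
    ∀ F : Equiv.Perm X → ℝ, Two F →
      ev l σ F ≤ (l.map fun g => if S g then 1 + g.2.2 else 1).prod * ev (closeG S l) σ F := by
  induction l with
  | nil => intro F _; simp [closeG]
  | cons g l ih =>
    intro F hF
    have hg := h g (by simp)
    have hl : ∀ g ∈ l, 0 ≤ g.2.2 ∧ g.2.2 ≤ 1 := fun g hg => h g (by simp [hg])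
    have ih1 := ih hl F hF
    have ih2 := ih hl _ (hF.sw g.1 g.2.1)
    rw [List.map_cons, List.prod_cons, closeG_cons, ev_cons, ev_cons]
    by_cases hS : S g
    · simp only [hS, if_true, sub_zero, one_mul, zero_mul, add_zero]
      have h3 : ev l σ (sw g.1 g.2.1 F) ≤ 2 * ev l σ F := by
        rw [← ev_smul]
        exact ev_mono σ hl fun π => hF _ _ π
      have h4 := mul_le_mul_of_nonneg_left ih1 (by linarith [hg.1] : 0 ≤ 1 + g.2.2)
      have h5 := mul_le_mul_of_nonneg_left h3 hg.1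
      nlinarith
    · simp only [hS, if_false, one_mul]
      have h1 := mul_le_mul_of_nonneg_left ih1 (by linarith [hg.2] : 0 ≤ 1 - g.2.2)
      have h2 := mul_le_mul_of_nonneg_left ih2 hg.1
      linarith

theorem closeStmt (hR : RingStmt) : CloseStmt := by
  intro X _ _ l σ S _ hl
  exact ⟨close_low S σ hl.one, fun θ hθ => close_up S σ hl.one _ (two_Zp hR hθ)⟩

theorem pat_cons_zero (S : X × X × ℝ → Prop) [DecidablePred S] (g : X × X × ℝ)
    (l : List (X × X × ℝ)) : pat S (g :: l) 0 = (g.1, g.2.1, 1) :: closeG S l := by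
  unfold pat
  rw [closeG_cons]
  by_cases hS : S g <;> simp [hS]

theorem pat_cons_succ (S : X × X × ℝ → Prop) [DecidablePred S] (g : X × X × ℝ)
    (l : List (X × X × ℝ)) (j : ℕ) :
    pat S (g :: l) (j + 1) = (if S g then (g.1, g.2.1, 0) else g) :: pat S l j := by
  unfold pat
  rw [closeG_cons]
  simp

theorem pat_nil (S : X × X × ℝ → Prop) [DecidablePred S] (j : ℕ) :
    pat S ([] : List (X × X × ℝ)) j = [] := by
  simp [pat, closeG]

theorem pat_ok {S : X × X × ℝ → Prop} [DecidablePred S] {l : List (X × X × ℝ)}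
    (h : ∀ g ∈ l, 0 ≤ g.2.2 ∧ g.2.2 ≤ 1) (j : ℕ) : ∀ g ∈ pat S l j, 0 ≤ g.2.2 ∧ g.2.2 ≤ 1 := by
  induction l generalizing j with
  | nil => rw [pat_nil]; simp
  | cons g l ih =>
    have hl : ∀ g ∈ l, 0 ≤ g.2.2 ∧ g.2.2 ≤ 1 := fun g hg => h g (by simp [hg])
    have hg := h g (by simp)
    rcases j with _ | j
    · rw [pat_cons_zero]
      intro g' hg'
      rcases List.mem_cons.1 hg' with rfl | hg'
      · exact ⟨zero_le_one, le_rfl⟩
      · exact closeG_ok hl g' hg'
    · rw [pat_cons_succ]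
      intro g' hg'
      rcases List.mem_cons.1 hg' with rfl | hg'
      · split_ifs
        · exact ⟨le_rfl, zero_le_one⟩
        · exact hg
      · exact ih hl j g' hg'

/-- the sum over the positions of the open gate -/
def osum (S H : X × X × ℝ → Prop) [DecidablePred S] [DecidablePred H] (l : List (X × X × ℝ))
    (σ : Equiv.Perm X) (F : Equiv.Perm X → ℝ) : ℝ :=
  ∑ j ∈ Finset.range l.length, if ∃ g, l[j]? = some g ∧ H g then
    ((l[j]?).map fun g => g.2.2).getD 0 * ev (pat S l j) σ F else 0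

theorem osum_cons_pos {S H : X × X × ℝ → Prop} [DecidablePred S] [DecidablePred H]
    {g : X × X × ℝ} (hS : S g) (l : List (X × X × ℝ)) (σ : Equiv.Perm X)
    (F : Equiv.Perm X → ℝ) :
    osum S H (g :: l) σ F = osum S H l σ F
      + (if H g then g.2.2 * ev (closeG S l) σ (sw g.1 g.2.1 F) else 0) := by
  unfold osum
  rw [List.length_cons, Finset.sum_range_succ']
  congr 1
  · refine Finset.sum_congr rfl fun j _ => ?_
    simp only [List.getElem?_cons_succ, pat_cons_succ, hS, if_true]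
    rw [ev_cons]
    simp
  · simp only [List.getElem?_cons_zero, pat_cons_zero]
    rw [ev_cons]
    simp

theorem osum_cons_neg {S H : X × X × ℝ → Prop} [DecidablePred S] [DecidablePred H]
    {g : X × X × ℝ} (hS : ¬ S g) (hH : ¬ H g) (l : List (X × X × ℝ)) (σ : Equiv.Perm X)
    (F : Equiv.Perm X → ℝ) :
    osum S H (g :: l) σ F = (1 - g.2.2) * osum S H l σ F
      + g.2.2 * osum S H l σ (sw g.1 g.2.1 F) := by
  have h0 : ¬ ∃ g', (g :: l)[0]? = some g' ∧ H g' := by simp [hH]
  unfold osum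
  rw [List.length_cons, Finset.sum_range_succ', Finset.mul_sum, Finset.mul_sum,
    ← Finset.sum_add_distrib, if_neg h0, add_zero]
  refine Finset.sum_congr rfl fun j _ => ?_
  simp only [List.getElem?_cons_succ, pat_cons_succ, hS, if_false]
  rw [ev_cons]
  split_ifs <;> ring

theorem open_low (S H : X × X × ℝ → Prop) [DecidablePred S] [DecidablePred H]
    {l : List (X × X × ℝ)} (σ : Equiv.Perm X) (h : ∀ g ∈ l, 0 ≤ g.2.2 ∧ g.2.2 ≤ 1)
    (hHS : ∀ g, H g → S g) :
    ∀ F : Equiv.Perm X → ℝ, (∀ π, 0 ≤ F π) →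
      (l.map fun g => if S g then 1 - g.2.2 else 1).prod * osum S H l σ F ≤ ev l σ F := by
  induction l with
  | nil =>
    intro F hF
    simp only [osum, List.length_nil, Finset.range_zero, Finset.sum_empty, mul_zero]
    exact ev_nonneg σ (by simp) hF
  | cons g l ih =>
    intro F hF
    have hg := h g (by simp)
    have hl : ∀ g ∈ l, 0 ≤ g.2.2 ∧ g.2.2 ≤ 1 := fun g hg => h g (by simp [hg])
    have ih1 := ih hl F hF
    have hF2 : ∀ π, 0 ≤ sw g.1 g.2.1 F π := fun π => hF _
    have ih2 := ih hl _ hF2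
    have c2 := close_low S σ hl _ hF2
    have p0 := prodm_nonneg (S := S) hl
    rw [List.map_cons, List.prod_cons, ev_cons]
    by_cases hS : S g
    · rw [osum_cons_pos hS, if_pos hS]
      have h1 := mul_le_mul_of_nonneg_left ih1 (by linarith [hg.2] : 0 ≤ 1 - g.2.2)
      have e0 := ev_nonneg σ hl hF2
      have e1 := ev_nonneg σ (closeG_ok (S := S) hl) hF2
      by_cases hH : H g
      · rw [if_pos hH]
        have h2 := mul_le_mul_of_nonneg_left c2 hg.1
        have h3 : (1 - g.2.2) * (l.map fun g => if S g then 1 - g.2.2 else 1).prod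
            * (g.2.2 * ev (closeG S l) σ (sw g.1 g.2.1 F))
            ≤ g.2.2 * ((l.map fun g => if S g then 1 - g.2.2 else 1).prod
              * ev (closeG S l) σ (sw g.1 g.2.1 F)) := by
          have h4 : 0 ≤ g.2.2 * ((l.map fun g => if S g then 1 - g.2.2 else 1).prod
              * ev (closeG S l) σ (sw g.1 g.2.1 F)) := mul_nonneg hg.1 (mul_nonneg p0 e1)
          have h5 : (1 - g.2.2) * (g.2.2 * ((l.map fun g => if S g then 1 - g.2.2 else 1).prod
              * ev (closeG S l) σ (sw g.1 g.2.1 F)))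
              ≤ 1 * (g.2.2 * ((l.map fun g => if S g then 1 - g.2.2 else 1).prod
              * ev (closeG S l) σ (sw g.1 g.2.1 F))) :=
            mul_le_mul_of_nonneg_right (by linarith [hg.1]) h4
          linarith
        linarith
      · rw [if_neg hH, add_zero]
        nlinarith [mul_nonneg hg.1 e0]
    · have hH : ¬ H g := fun h' => hS (hHS g h')
      rw [osum_cons_neg hS hH, if_neg hS, one_mul]
      have h1 := mul_le_mul_of_nonneg_left ih1 (by linarith [hg.2] : 0 ≤ 1 - g.2.2)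
      have h2 := mul_le_mul_of_nonneg_left ih2 hg.1
      linarith

theorem open_up (S : X × X × ℝ → Prop) [DecidablePred S]
    {l : List (X × X × ℝ)} (σ : Equiv.Perm X) (h : ∀ g ∈ l, 0 ≤ g.2.2 ∧ g.2.2 ≤ 1) :
    ∀ (j : ℕ) (F : Equiv.Perm X → ℝ), Two F → (∀ π, 0 ≤ F π) →
      ev (closeG S l) σ F ≤ 2 * ev (pat S l j) σ F := by
  induction l with
  | nil =>
    intro j F _ hF
    rw [pat_nil]
    have := ev_nonneg (l := []) σ (by simp) hF
    simp only [closeG, List.map_nil]
    linarith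
  | cons g l ih =>
    intro j F hF hF0
    have hg := h g (by simp)
    have hl : ∀ g ∈ l, 0 ≤ g.2.2 ∧ g.2.2 ≤ 1 := fun g hg => h g (by simp [hg])
    rcases j with _ | j
    · rw [pat_cons_zero, closeG_cons, ev_cons, ev_cons]
      have h1 : ev (closeG S l) σ F ≤ 2 * ev (closeG S l) σ (sw g.1 g.2.1 F) := by
        rw [← ev_smul]
        refine ev_mono σ (closeG_ok hl) fun π => ?_
        have := hF g.1 g.2.1 (Equiv.swap g.1 g.2.1 * π)
        rwa [← mul_assoc, Equiv.swap_mul_self, one_mul] at this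
      have e1 := ev_nonneg σ (closeG_ok (S := S) hl) (F := sw g.1 g.2.1 F) fun π => hF0 _
      by_cases hS : S g
      · simp only [hS, if_true]
        linarith
      · simp only [hS, if_false]
        nlinarith [mul_le_mul_of_nonneg_left h1 (by linarith [hg.2] : 0 ≤ 1 - g.2.2),
          mul_nonneg hg.1 e1]
    · rw [pat_cons_succ, closeG_cons, ev_cons, ev_cons]
      have ih1 := ih hl j F hF hF0
      have ih2 := ih hl j _ (hF.sw g.1 g.2.1) fun π => hF0 _
      by_cases hS : S g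
      · simp only [hS, if_true]
        linarith
      · simp only [hS, if_false]
        have h1 := mul_le_mul_of_nonneg_left ih1 (by linarith [hg.2] : 0 ≤ 1 - g.2.2)
        have h2 := mul_le_mul_of_nonneg_left ih2 hg.1
        linarith

theorem oneOpenStmt (hR : RingStmt) : OneOpenStmt := by
  intro X _ _ l σ S H _ _ hl hHS
  exact ⟨open_low S H σ hl.one hHS, fun j θ hθ =>
    open_up S σ hl.one j _ (two_Zp hR hθ) fun π => (hR X π θ hθ).1.le⟩

end

end Vale.Agent.P361.LRO.Loc
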