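import Vale.Agent.P361.LRO.Loc.Iface

/-!
P361 LRO, block (4), final form: from `LocSame` and `LocNN` to windows of unit time length.
-/

namespace Vale.Agent.P361.LRO

open Finset

noncomputable section

/-- number of entries of `L` touching `x` -/
def deg {V : Type} [DecidableEq V] (L : List (V × V)) (x : V) : ℕ :=
  (L.filter fun e => e.1 = x ∨ e.2 = x).length

namespace Loc.Final

open Vale.Agent.P361.LRO.Loc

lemma pow_lower {p : ℝ} (h0 : 0 ≤ p) (h1 : p ≤ 1 / 4) (m : ℕ) :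
    Real.exp (-(4 * p * m)) ≤ ((1 - p) / (1 + p)) ^ m := by
  have h2 : Real.exp (-(4 * p)) ≤ (1 - p) / (1 + p) := by
    have h3 : 1 + 4 * p ≤ Real.exp (4 * p) := by
      have := Real.add_one_le_exp (4 * p); linarith
    rw [Real.exp_neg, inv_eq_one_div, div_le_div_iff₀ (Real.exp_pos _) (by linarith)]
    nlinarith
  calc Real.exp (-(4 * p * m)) = Real.exp (-(4 * p)) ^ m := by
        rw [← Real.exp_nat_mul]; ring_nf
    _ ≤ _ := pow_le_pow_left₀ (Real.exp_pos _).le h2 m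

variable {V : Type} [Fintype V] [DecidableEq V]

lemma cc_comm' {X : Type} [Fintype X] [DecidableEq X] (μ : Equiv.Perm X → ℝ) (θ : X → ℝ)
    (u v : X) : cc μ θ u v = cc μ θ v u := by
  unfold cc
  congr 2
  funext π s
  exact mul_comm _ _

lemma countP_le {L : List (V × V)} (hL : ∀ x, deg L x ≤ 6) (x : V) :
    (L.countP fun e => e.1 = x ∨ e.2 = x) ≤ 6 := by
  rw [List.countP_eq_length_filter]
  exact hL x

lemma th_mem {β : ℝ} {N : ℕ} (h1 : 1 ≤ β) (hN : 8 * β ≤ N) {h T : V → ℝ}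
    (hh : ∀ x, 0 ≤ h x ∧ h x ≤ 1) (hT : ∀ x, 0 ≤ T x ∧ T x ≤ 1) (z : Fin (N + 1) × V) :
    0 ≤ th β N h T z ∧ th β N h T z ≤ 1 := by
  have hN0 : (0 : ℝ) < N := by linarith
  unfold th
  split_ifs
  · exact hT _
  · refine ⟨div_nonneg (mul_nonneg (by linarith) (hh _).1) (by linarith), ?_⟩
    rw [div_le_one (by linarith)]
    nlinarith [(hh z.2).2, (hh z.2).1]

lemma th_le {β : ℝ} {N : ℕ} (h1 : 1 ≤ β) (hN : 8 * β ≤ N) {h T : V → ℝ}
    (hh : ∀ x, 0 ≤ h x ∧ h x ≤ 1) {k i : Fin (N + 1)} (hi : k < i) (x : V) :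
    th β N h T (i, x) ≤ β / (2 * N) := by
  have hN0 : (0 : ℝ) < N := by linarith
  unfold th
  have : i ≠ 0 := fun h => absurd hi (by rw [h]; exact Fin.not_lt_zero k)
  rw [if_neg this]
  refine div_le_div_of_nonneg_right ?_ (by linarith)
  nlinarith [(hh x).2]

lemma th_eq {β : ℝ} {N : ℕ} {h T : V → ℝ} {k i : Fin (N + 1)} (hi : k < i) (x : V) :
    th β N h T (i, x) = β * h x / (2 * N) := by
  unfold th
  have : i ≠ 0 := fun h => absurd hi (by rw [h]; exact Fin.not_lt_zero k)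
  rw [if_neg this]

lemma same (hS : ∀ L : List (V × V), LocSame V L 6) (L : List (V × V))
    (hL : ∀ x, deg L x ≤ 6) {β : ℝ} (h1 : 1 ≤ β) {N : ℕ} (hN : 8 * β ≤ N) {h T : V → ℝ}
    (hh : ∀ x, 0 ≤ h x ∧ h x ≤ 1) (hT : ∀ x, 0 ≤ T x ∧ T x ≤ 1)
    (k k' : Fin (N + 1)) (x : V) (hk : k < k') (ht : ((k' : ℝ) - (k : ℝ)) * β / N ≤ 1) :
    Real.exp (-26) / 64 * (th β N h T (k, x) * th β N h T (k', x)) ≤
      cc (phys L β N) (th β N h T) (k, x) (k', x) := by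
  have hN0 : (0 : ℝ) < N := by linarith
  have hβ0 : (0 : ℝ) < β := by linarith
  set p : ℝ := β / (2 * N) with hp
  have hp0 : 0 ≤ p := by positivity
  have hp1 : p ≤ 1 / 16 := by
    rw [hp, div_le_div_iff₀ (by positivity) (by norm_num)]
    linarith
  have hθ := th_mem h1 hN hh hT
  have key := hS L β N hβ0 (by linarith) (countP_le hL) (th β N h T) hθ x k k' p hp0
    (by linarith) hk (fun i hi _ => th_le h1 hN hh hi x)
  rw [cc_comm']
  refine le_trans ?_ key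
  rw [← pow_add]
  have hkk : (k : ℕ) ≤ (k' : ℕ) := le_of_lt hk
  set n : ℕ := (k' : ℕ) - (k : ℕ) with hn
  have hnr : (n : ℝ) = (k' : ℝ) - (k : ℝ) := by rw [hn]; push_cast [hkk]; ring
  have hpn : 2 * p * n ≤ 1 := by
    rw [hnr, hp]
    refine le_trans (le_of_eq ?_) ht
    field_simp
  have hpow := pow_lower hp0 (by linarith) (6 * n + n)
  have hexp : Real.exp (-26) ≤ Real.exp (-(4 * p * ((6 * n + n : ℕ) : ℝ))) := by
    apply Real.exp_le_exp.2
    push_cast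
    nlinarith
  have hab : 0 ≤ th β N h T (k', x) * th β N h T (k, x) := mul_nonneg (hθ _).1 (hθ _).1
  have e0 : Real.exp (-26) / 64 ≤ 1 / 4 * ((1 - p) / (1 + p)) ^ (6 * n + n) := by
    have := Real.exp_pos (-26)
    linarith [hexp.trans hpow]
  calc Real.exp (-26) / 64 * (th β N h T (k, x) * th β N h T (k', x))
      = (th β N h T (k', x) * th β N h T (k, x)) * (Real.exp (-26) / 64) := by ring
    _ ≤ _ := mul_le_mul_of_nonneg_left e0 hab

lemma nn (hS : ∀ L : List (V × V), LocNN V L 6) (L : List (V × V))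
    (hL : ∀ x, deg L x ≤ 6) {β : ℝ} (h1 : 1 ≤ β) {N : ℕ} (hN : 8 * β ≤ N) {h T : V → ℝ}
    (hh : ∀ x, 0 ≤ h x ∧ h x ≤ 1) (hT : ∀ x, 0 ≤ T x ∧ T x ≤ 1)
    (k k' : Fin (N + 1)) (x y : V) (hk : k < k') (ht : ((k' : ℝ) - (k : ℝ)) * β / N ≤ 1)
    (ht' : 1 / 4 ≤ ((k' : ℝ) - (k : ℝ)) * β / N) (hxy : (x, y) ∈ L ∨ (y, x) ∈ L) (hne : x ≠ y) :
    Real.exp (-26) / 64 * (th β N h T (k, x) * th β N h T (k', y)) ≤
      cc (phys L β N) (th β N h T) (k, x) (k', y) := by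
  have hN0 : (0 : ℝ) < N := by linarith
  have hβ0 : (0 : ℝ) < β := by linarith
  set p : ℝ := β / (2 * N) with hp
  have hp0 : 0 ≤ p := by positivity
  have hp1 : p ≤ 1 / 16 := by
    rw [hp, div_le_div_iff₀ (by positivity) (by norm_num)]
    linarith
  have hθ := th_mem h1 hN hh hT
  have key := hS L β N hβ0 (by linarith) (countP_le hL) (th β N h T) hθ y x k k' p hne.symm
    (hxy.symm) hp0 (by linarith) hk (fun i hi _ => ⟨th_le h1 hN hh hi y, th_le h1 hN hh hi x⟩)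
  rw [cc_comm']
  refine le_trans ?_ key
  rw [← pow_add]
  have hkk : (k : ℕ) ≤ (k' : ℕ) := le_of_lt hk
  set n : ℕ := (k' : ℕ) - (k : ℕ) with hn
  have hnr : (n : ℝ) = (k' : ℝ) - (k : ℝ) := by rw [hn]; push_cast [hkk]; ring
  have e2 : 2 * p * n = ((k' : ℝ) - (k : ℝ)) * β / N := by
    rw [hnr, hp]
    field_simp
  have hpn : 2 * p * n ≤ 1 := by rw [e2]; exact ht
  have hpn' : 1 / 4 ≤ 2 * p * n := by rw [e2]; exact ht'
  have hpow := pow_lower hp0 (by linarith) (2 * 6 * n + n)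
  have hexp : Real.exp (-26) ≤ Real.exp (-(4 * p * ((2 * 6 * n + n : ℕ) : ℝ))) := by
    apply Real.exp_le_exp.2
    push_cast
    nlinarith
  have hab : 0 ≤ th β N h T (k', y) * th β N h T (k, x) := mul_nonneg (hθ _).1 (hθ _).1
  have hE := Real.exp_pos (-26)
  have e0 : Real.exp (-26) / 64 ≤
      1 / 8 * (p * (n : ℝ)) * ((1 - p) / (1 + p)) ^ (2 * 6 * n + n) := by
    have h3 : 1 / 64 ≤ 1 / 8 * (p * (n : ℝ)) := by linarith
    calc Real.exp (-26) / 64 = 1 / 64 * Real.exp (-26) := by ring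
      _ ≤ 1 / 8 * (p * (n : ℝ)) * ((1 - p) / (1 + p)) ^ (2 * 6 * n + n) :=
        mul_le_mul h3 (hexp.trans hpow) hE.le (by linarith)
  calc Real.exp (-26) / 64 * (th β N h T (k, x) * th β N h T (k', y))
      = (th β N h T (k', y) * th β N h T (k, x)) * (Real.exp (-26) / 64) := by ring
    _ ≤ _ := mul_le_mul_of_nonneg_left e0 hab

end Loc.Final

theorem loc_of (hS : ∀ (V : Type) [Fintype V] [DecidableEq V] (L : List (V × V)),
      Loc.LocSame V L 6)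
    (hNN : ∀ (V : Type) [Fintype V] [DecidableEq V] (L : List (V × V)), Loc.LocNN V L 6) :
    ∃ c0 : ℝ, 0 < c0 ∧ ∀ {V : Type} [Fintype V] [DecidableEq V] (L : List (V × V)),
    (∀ x, deg L x ≤ 6) → ∀ (β : ℝ), 1 ≤ β → ∀ N : ℕ, 8 * β ≤ N → ∀ h T : V → ℝ,
    (∀ x, 0 ≤ h x ∧ h x ≤ 1) → (∀ x, 0 ≤ T x ∧ T x ≤ 1) →
    (∀ (k k' : Fin (N + 1)) (x : V), 0 < k → k < k' → ((k' : ℝ) - (k : ℝ)) * β / N ≤ 1 →
      c0 * (β * h x / (2 * N)) ^ 2 ≤ cc (phys L β N) (th β N h T) (k, x) (k', x)) ∧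
    (∀ (k k' : Fin (N + 1)) (x y : V), 0 < k → k < k' → 1 / 4 ≤ ((k' : ℝ) - (k : ℝ)) * β / N →
      ((k' : ℝ) - (k : ℝ)) * β / N ≤ 1 → ((x, y) ∈ L ∨ (y, x) ∈ L) → x ≠ y →
      c0 * (β * h x / (2 * N)) * (β * h y / (2 * N)) ≤
        cc (phys L β N) (th β N h T) (k, x) (k', y)) ∧
    (∀ (k : Fin (N + 1)) (x : V), 0 < k → (k : ℝ) * β / N ≤ 1 →
      c0 * T x * (β * h x / (2 * N)) ≤ cc (phys L β N) (th β N h T) (0, x) (k, x)) := by
  refine ⟨Real.exp (-26) / 64, by positivity, ?_⟩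
  intro V _ _ L hL β h1 N hN h T hh hT
  refine ⟨?_, ?_, ?_⟩
  · intro k k' x hk hkk ht
    have := Loc.Final.same (hS V) L hL h1 hN hh hT k k' x hkk ht
    rw [Loc.Final.th_eq hk, Loc.Final.th_eq hkk] at this
    refine le_trans (le_of_eq ?_) this
    ring
  · intro k k' x y hk hkk ht' ht hxy hne
    have := Loc.Final.nn (hNN V) L hL h1 hN hh hT k k' x y hkk ht ht' hxy hne
    rw [Loc.Final.th_eq hk, Loc.Final.th_eq hkk] at this
    refine le_trans (le_of_eq ?_) this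
    ring
  · intro k x hk ht
    have := Loc.Final.same (hS V) L hL h1 hN hh hT 0 k x hk (by
      have e : (((0 : Fin (N + 1)) : ℕ) : ℝ) = 0 := by simp
      rw [e, sub_zero]; exact ht)
    rw [Loc.Final.th_eq hk] at this
    refine le_trans (le_of_eq ?_) this
    simp only [th, if_true]
    ring

end

end Vale.Agent.P361.LRO
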