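import Vale.Agent.P361.LRO.Loc.Law
import Vale.Agent.P361.LRO.Loc.Fourier
import Vale.Agent.P361.LRO.Loc.Ring
import Vale.Agent.P361.LRO.Loc.Arc
import Vale.Agent.P361.LRO.Loc.Main
import Vale.Agent.P361.LRO.Loc.Final

/-!
P361 LRO, block (4), with arbitrary additional gates between the layers `N` and `0`.
`E₁ ++ (gates L N p ++ E₂)`; for spin `S` these gates are the projector onto the symmetric
subspace of the copies.
-/

namespace Vale.Agent.P361.LRO

open Finset

noncomputable section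

/-- All gates of the list live in the layer `N` (between the layers `N` and `0`) and have
probabilities in `[0, 1]`. -/
def OutG {V : Type} (N : ℕ) (E : List ((Fin (N + 1) × V) × (Fin (N + 1) × V) × ℝ)) : Prop :=
  ∀ g ∈ E, (0 ≤ g.2.2 ∧ g.2.2 ≤ 1) ∧ g.1.1 = Fin.last N ∧ g.2.1.1 = Fin.last N

/-- The physical law with additional gates. -/
def physE {V : Type} [Fintype V] [DecidableEq V] {N : ℕ}
    (E₁ E₂ : List ((Fin (N + 1) × V) × (Fin (N + 1) × V) × ℝ)) (L : List (V × V)) (β : ℝ) :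
    Equiv.Perm (Fin (N + 1) × V) → ℝ :=
  law (E₁ ++ (gates L N (β / (2 * N)) ++ E₂)) (base N)

theorem physE_nil {V : Type} [Fintype V] [DecidableEq V] (N : ℕ) (L : List (V × V)) (β : ℝ) :
    physE (N := N) [] [] L β = phys L β N := by
  unfold physE phys
  simp

namespace Loc.Ext

open Vale.Agent.P361.LRO.Loc Vale.Agent.P361.LRO.Loc.Geo

variable {V : Type} [Fintype V] [DecidableEq V]

/-- The window. -/
def win (N : ℕ) (Q : V → Prop) [DecidablePred Q] (lo hi : ℕ) : Finset (Fin (N + 1) × V) :=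
  univ.filter fun z => lo ≤ (z.1 : ℕ) ∧ (z.1 : ℕ) < hi ∧ Q z.2

lemma bad_gates {L : List (V × V)} {N : ℕ} {p : ℝ} (Q : V → Prop) [DecidablePred Q]
    (lo hi : ℕ) {g : (Fin (N + 1) × V) × (Fin (N + 1) × V) × ℝ} (hg : g ∈ gates L N p)
    (h : Bad (win N Q lo hi) g) : tch N Q lo hi g := by
  obtain ⟨k, e, _, rfl⟩ := mem_gates hg
  simp only [Bad, win, Finset.mem_filter, Finset.mem_univ, true_and] at h
  unfold tch
  simp only
  tauto

lemma not_bad {N : ℕ} (Q : V → Prop) [DecidablePred Q] (lo hi : ℕ) (hhi : hi ≤ N)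
    {E : List ((Fin (N + 1) × V) × (Fin (N + 1) × V) × ℝ)} (hE : OutG N E)
    {g : (Fin (N + 1) × V) × (Fin (N + 1) × V) × ℝ} (hg : g ∈ E) :
    ¬ Bad (win N Q lo hi) g := by
  obtain ⟨_, h1, h2⟩ := hE g hg
  simp only [Bad, win, Finset.mem_filter, Finset.mem_univ, true_and, h1, h2, Fin.val_last]
  omega

lemma DD_append {X : Type} [DecidableEq X] (B : Finset X) (l l' : List (X × X × ℝ)) :
    DD B (l ++ l') = DD B l * DD B l' := by
  unfold DD
  rw [List.map_append, List.prod_append]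

lemma DD_out {N : ℕ} (Q : V → Prop) [DecidablePred Q] (lo hi : ℕ) (hhi : hi ≤ N)
    {E : List ((Fin (N + 1) × V) × (Fin (N + 1) × V) × ℝ)} (hE : OutG N E) :
    DD (win N Q lo hi) E = 1 := by
  unfold DD
  apply List.prod_eq_one
  intro r hr
  rw [List.mem_map] at hr
  obtain ⟨g, hg, rfl⟩ := hr
  rw [if_neg (not_bad Q lo hi hhi hE hg)]

lemma DD_gates (L : List (V × V)) (N : ℕ) {p : ℝ} (h0 : 0 ≤ p) (h1 : p ≤ 1) (Q : V → Prop)
    [DecidablePred Q] (lo hi d : ℕ) (hd : (L.countP fun e => Q e.1 ∨ Q e.2) ≤ d) :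
    ((1 - p) / (1 + p)) ^ (d * (hi - lo)) ≤ DD (win N Q lo hi) (gates L N p) := by
  unfold DD
  rw [prod_ite_pow (gates L N p) (Bad (win N Q lo hi)) p gates_p (fun t => (1 - t) / (1 + t))]
  have hpp : 0 ≤ (1 - p) / (1 + p) := div_nonneg (by linarith) (by linarith)
  have hpp1 : (1 - p) / (1 + p) ≤ 1 := by
    rw [div_le_one (by linarith)]; linarith
  refine pow_le_pow_of_le_one hpp hpp1 (le_trans ?_ (countP_gates L N p Q lo hi d hd))
  apply List.countP_mono_left
  intro g hg hb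
  have := bad_gates Q lo hi hg (of_decide_eq_true hb)
  exact decide_eq_true this

lemma pr_ext {L : List (V × V)} {N : ℕ} {p : ℝ} (h0 : 0 ≤ p) (h1 : p ≤ 1)
    {E₁ E₂ : List ((Fin (N + 1) × V) × (Fin (N + 1) × V) × ℝ)} (hE₁ : OutG N E₁)
    (hE₂ : OutG N E₂) : Pr (E₁ ++ (gates L N p ++ E₂)) := by
  intro g hg
  rw [List.mem_append, List.mem_append] at hg
  rcases hg with hg | hg | hg
  · exact (hE₁ g hg).1
  · rw [gates_p g hg]; exact ⟨h0, h1⟩
  · exact (hE₂ g hg).1

lemma agr_step {N : ℕ} (Q : V → Prop) [DecidablePred Q] (lo hi : ℕ) (hhi : hi ≤ N)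
    {π : Equiv.Perm (Fin (N + 1) × V)} (h : Agr (base N) (win N Q lo hi) π)
    (n : ℕ) (hn1 : lo ≤ n) (hn2 : n < hi) (x : V) (hx : Q x) :
    π (fn N (n + 1), x) = (fn N n, x) := by
  have hb := base_apply N n (by omega) x
  have := h (fn N (n + 1), x) (by
    rw [hb]
    simp only [win, Finset.mem_filter, Finset.mem_univ, true_and]
    rw [cast_val (by omega)]
    exact ⟨hn1, hn2, hx⟩)
  rw [this, hb]

lemma dbl_Zp {X : Type} [Fintype X] [DecidableEq X] {θ : X → ℝ} (hθ : ∀ x, 0 ≤ θ x ∧ θ x ≤ 1) :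
    Dbl fun π : Equiv.Perm X => Zp π θ :=
  ⟨fun π => (ringStmt X π θ hθ).1.le, fun a b π => (ringStmt X π θ hθ).2 a b⟩

/-- From a bound on `EL` to a bound on `cc`. -/
lemma cc_ge {X : Type} [Fintype X] [DecidableEq X] {l : List (X × X × ℝ)} (hl : Pr l)
    (σ : Equiv.Perm X) {θ : X → ℝ} (hθ : ∀ x, 0 ≤ θ x ∧ θ x ≤ 1) {u v : X} (huv : u ≠ v)
    {C : ℝ} (h : C * EL σ l (fun π => Zp π θ) ≤ EL σ l fun π => Zf π θ u v) :
    θ u * θ v * C ≤ cc (law l σ) θ u v := by
  rw [Geo.cc_eq fourierStmt l σ θ u v huv]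
  have hpos := ev_pos ringStmt hl σ θ hθ
  rw [mul_div_assoc]
  refine mul_le_mul_of_nonneg_left ?_ (mul_nonneg (hθ u).1 (hθ v).1)
  rw [le_div_iff₀ hpos]
  unfold ev
  rw [sum_law, sum_law]
  exact h

theorem same (L : List (V × V)) (d N : ℕ) (p : ℝ) (h0p : 0 ≤ p) (h1p : p ≤ 1)
    (E₁ E₂ : List ((Fin (N + 1) × V) × (Fin (N + 1) × V) × ℝ)) (hE₁ : OutG N E₁)
    (hE₂ : OutG N E₂) (hdeg : ∀ x : V, (L.countP fun e => e.1 = x ∨ e.2 = x) ≤ d)
    (θ : Fin (N + 1) × V → ℝ) (hθ : ∀ z, 0 ≤ θ z ∧ θ z ≤ 1)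
    (x : V) (k k' : Fin (N + 1)) (τ : ℝ) (h0 : 0 ≤ τ) (h1 : τ < 1) (hkk : k < k')
    (hbd : ∀ i, k < i → i < k' → θ (i, x) ≤ τ) :
    θ (k', x) * θ (k, x) * ((1 / 4) *
        (((1 - p) / (1 + p)) ^ (d * ((k' : ℕ) - k)) * ((1 - τ) / (1 + τ)) ^ ((k' : ℕ) - k))) ≤
      cc (law (E₁ ++ (gates L N p ++ E₂)) (base N)) θ (k', x) (k, x) := by
  set lo : ℕ := (k : ℕ) with hlo
  set hi : ℕ := (k' : ℕ) with hhi
  have hlt : lo < hi := hkk
  have hhiN : hi ≤ N := by have := k'.2; omega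
  have hne : (k', x) ≠ (k, x) := fun h => by
    have := congrArg Prod.fst h
    simp only at this
    exact absurd this (ne_of_gt hkk)
  have hl := pr_ext (L := L) h0p h1p hE₁ hE₂
  have hτ' : 0 ≤ (1 - τ) / (1 + τ) := div_nonneg (by linarith) (by linarith)
  set c : ℝ := (1 / 4) * ((1 - τ) / (1 + τ)) ^ (hi - lo) with hc
  have hc0 : 0 ≤ c := by positivity
  have key := EL_ge_of_agr (base N) (win N (fun y => y = x) lo hi) hl
    (f := fun π => Zf π θ (k', x) (k, x)) (F := fun π => Zp π θ)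
    (fun π => (arcStmt _ π θ hθ _ _ hne).1) (dbl_Zp hθ) hc0 (by
      intro π hπ
      have hstep := agr_step (fun y => y = x) lo hi hhiN hπ
      have := arc_use arcStmt π θ hθ ((ringStmt _ π θ hθ).1).le
        (fun j => (fn N (hi - j), x)) (hi - lo - 1) (hi - lo) (by omega)
        (fun j hj => by
          have hs := hstep (hi - (j + 1)) (by omega) (by omega) x rfl
          have e : hi - (j + 1) + 1 = hi - j := by omega
          rw [e] at hs
          exact hs)
        (fun i hi' j hj' h => by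
          have e1 := congrArg Prod.fst h
          simp only at e1
          have e2 := congrArg Fin.val e1
          rw [cast_val (by omega), cast_val (by omega)] at e2
          omega)
        τ h0 h1
        (fun j hj1 hj2 => by
          refine hbd _ ?_ ?_
          · rw [Fin.lt_def, cast_val (by omega)]; omega
          · rw [Fin.lt_def, cast_val (by omega)]; omega)
      have e0 : (fn N (hi - 0), x) = (k', x) := by
        rw [Nat.sub_zero, hhi, fn_val]
      have e1 : (fn N (hi - (hi - lo - 1 + 1)), x) = (k, x) := by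
        have : hi - (hi - lo - 1 + 1) = lo := by omega
        rw [this, hlo, fn_val]
      rw [e0, e1] at this
      exact this)
  have h3 := cc_ge hl (base N) hθ hne key
  refine le_trans ?_ h3
  refine mul_le_mul_of_nonneg_left ?_ (mul_nonneg (hθ _).1 (hθ _).1)
  rw [DD_append, DD_append, DD_out _ lo hi hhiN hE₁, DD_out _ lo hi hhiN hE₂, one_mul, mul_one]
  have h4 := DD_gates L N h0p h1p (fun y => y = x) lo hi d (hdeg x)
  have h5 := mul_le_mul_of_nonneg_left h4 hc0
  refine le_trans (le_of_eq ?_) h5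
  rw [hc]; ring

/-! ### Neighbours -/

/-- Gates between `x` and `y` in the window. -/
def good (N : ℕ) (x y : V) (lo hi : ℕ) (g : (Fin (N + 1) × V) × (Fin (N + 1) × V) × ℝ) : Prop :=
  g.1.1 = g.2.1.1 ∧ (lo ≤ (g.1.1 : ℕ) ∧ (g.1.1 : ℕ) < hi) ∧
    ((g.1.2 = x ∧ g.2.1.2 = y) ∨ (g.1.2 = y ∧ g.2.1.2 = x))

instance (N : ℕ) (x y : V) (lo hi : ℕ) : DecidablePred (good N x y lo hi) := fun g => by
  unfold good; infer_instance

lemma good_mem {N : ℕ} {x y : V} {lo hi : ℕ} (g : (Fin (N + 1) × V) × (Fin (N + 1) × V) × ℝ)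
    (h : good N x y lo hi g) :
    g.1 ∈ win N (fun z => z = x ∨ z = y) lo hi ∧ g.2.1 ∈ win N (fun z => z = x ∨ z = y) lo hi := by
  obtain ⟨h1, ⟨h2, h3⟩, h4⟩ := h
  simp only [win, Finset.mem_filter, Finset.mem_univ, true_and]
  rw [← h1]
  exact ⟨⟨h2, h3, by tauto⟩, ⟨h2, h3, by tauto⟩⟩

lemma sum_ite_mul {X : Type} (l : List (X × X × ℝ)) (S : X × X × ℝ → Prop) [DecidablePred S]
    (p : ℝ) (hp : ∀ g ∈ l, g.2.2 = p) :
    (l.map fun g => if S g then g.2.2 else 0).sum = p * (l.countP fun g => S g : ℕ) := by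
  induction l with
  | nil => simp
  | cons g l ih =>
    rw [List.map_cons, List.sum_cons, ih (fun g hg => hp g (by simp [hg])), List.countP_cons]
    by_cases h : S g
    · simp only [h, if_true, decide_true]
      rw [hp g (by simp)]
      push_cast
      ring
    · simp [h]

lemma countP_good (L : List (V × V)) (N : ℕ) (p : ℝ) (x y : V)
    (hxy : (x, y) ∈ L ∨ (y, x) ∈ L) (lo hi : ℕ) (hhi : hi ≤ N) :
    hi - lo ≤ ((gates L N p).countP fun g =>
      Bad (win N (fun z => z = x ∨ z = y) lo hi) g ∧ good N x y lo hi g) := by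
  unfold gates
  rw [List.countP_flatMap, ← Fin.sum_univ_def]
  have h1 : ∀ k : Fin N, (if lo ≤ (k : ℕ) ∧ (k : ℕ) < hi then 1 else 0) ≤
      (List.countP (fun g => decide (Bad (win N (fun z => z = x ∨ z = y) lo hi) g ∧
        good N x y lo hi g)) ∘ fun k : Fin N =>
      L.map fun e => (((k.castSucc, e.1), (k.castSucc, e.2), p) :
        (Fin (N + 1) × V) × (Fin (N + 1) × V) × ℝ)) k := by
    intro k
    simp only [Function.comp, List.countP_map]
    split_ifs with hk
    · rw [Nat.one_le_iff_ne_zero, ← Nat.pos_iff_ne_zero, List.countP_pos_iff]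
      rcases hxy with h | h
      · refine ⟨_, h, ?_⟩
        simp [Bad, win, good, hk]
      · refine ⟨_, h, ?_⟩
        simp [Bad, win, good, hk]
    · exact Nat.zero_le _
  refine le_trans ?_ (Finset.sum_le_sum fun k _ => h1 k)
  rw [Fin.sum_univ_eq_sum_range (fun k => if lo ≤ k ∧ k < hi then 1 else 0) N,
    ← Finset.sum_filter, Finset.sum_const, smul_eq_mul, mul_one]
  rw [← Nat.card_Ico]
  refine Finset.card_le_card fun k hk => ?_
  rw [Finset.mem_Ico] at hk
  rw [Finset.mem_filter, Finset.mem_range]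
  exact ⟨by omega, hk⟩

lemma GG_append {X : Type} [DecidableEq X] (B : Finset X) (good : X × X × ℝ → Prop)
    [DecidablePred good] (l l' : List (X × X × ℝ)) :
    GG B good (l ++ l') = GG B good l + GG B good l' := by
  unfold GG
  rw [List.map_append, List.sum_append]

lemma GG_gates (L : List (V × V)) (N : ℕ) {p : ℝ} (h0 : 0 ≤ p) (x y : V)
    (hxy : (x, y) ∈ L ∨ (y, x) ∈ L) (lo hi : ℕ) (hhi : hi ≤ N) :
    p * ((hi - lo : ℕ) : ℝ) ≤
      GG (win N (fun z => z = x ∨ z = y) lo hi) (good N x y lo hi) (gates L N p) := by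
  unfold GG
  rw [sum_ite_mul (gates L N p)
    (fun g => Bad (win N (fun z => z = x ∨ z = y) lo hi) g ∧ good N x y lo hi g) p gates_p]
  refine mul_le_mul_of_nonneg_left ?_ h0
  exact_mod_cast countP_good L N p x y hxy lo hi hhi

lemma arc_nn {N : ℕ} (x y : V) (hxy : x ≠ y) (lo hi : ℕ) (hlt : lo < hi) (hhi : hi ≤ N)
    (θ : Fin (N + 1) × V → ℝ) (hθ : ∀ z, 0 ≤ θ z ∧ θ z ≤ 1) (τ : ℝ) (h0 : 0 ≤ τ) (h1 : τ < 1)
    (hbd : ∀ i : Fin (N + 1), lo < (i : ℕ) → (i : ℕ) < hi → θ (i, x) ≤ τ ∧ θ (i, y) ≤ τ)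
    (π : Equiv.Perm (Fin (N + 1) × V))
    (hπ : Agr (base N) (win N (fun z => z = x ∨ z = y) lo hi) π)
    (n : ℕ) (hn1 : lo ≤ n) (hn2 : n < hi) :
    ((1 / 8) * ((1 - τ) / (1 + τ)) ^ (hi - lo)) * Zp π θ ≤
      Zf (Equiv.swap (fn N n, x) (fn N n, y) * π) θ (fn N hi, x) (fn N lo, y) := by
  set π' : Equiv.Perm (Fin (N + 1) × V) := Equiv.swap (fn N n, x) (fn N n, y) * π with hπ'
  have hstep := agr_step (fun z => z = x ∨ z = y) lo hi hhi hπ
  have hd : Zp π θ ≤ 2 * Zp π' θ := by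
    have := (ringStmt _ π' θ hθ).2 (fn N n, x) (fn N n, y)
    rw [hπ', ← mul_assoc, Equiv.swap_mul_self, one_mul] at this
    exact this
  have hτ' : 0 ≤ (1 - τ) / (1 + τ) := div_nonneg (by linarith) (by linarith)
  have := arc_use arcStmt π' θ hθ ((ringStmt _ π' θ hθ).1).le
    (fun j => (fn N (hi - j), if n < hi - j then x else y)) (hi - lo - 1) (hi - lo) (by omega)
    (fun j hj => by
      have e : hi - (j + 1) + 1 = hi - j := by omega
      have hs := hstep (hi - (j + 1)) (by omega) (by omega) (if n < hi - j then x else y)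
        (by split_ifs <;> simp)
      rw [e] at hs
      show π' (fn N (hi - j), if n < hi - j then x else y) =
        (fn N (hi - (j + 1)), if n < hi - (j + 1) then x else y)
      rw [hπ', Equiv.Perm.mul_apply, hs]
      by_cases hjn : hi - (j + 1) = n
      · have c1 : n < hi - j := by omega
        have c2 : ¬ n < hi - (j + 1) := by omega
        rw [if_pos c1, if_neg c2, hjn, Equiv.swap_apply_left]
      · have hfn : fn N (hi - (j + 1)) ≠ fn N n := fun h => by
          have := congrArg Fin.val h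
          rw [cast_val (by omega), cast_val (by omega)] at this
          exact hjn this
        rw [Equiv.swap_apply_of_ne_of_ne (fun h => hfn (congrArg Prod.fst h))
          (fun h => hfn (congrArg Prod.fst h))]
        by_cases c1 : n < hi - j
        · have c2 : n < hi - (j + 1) := by omega
          rw [if_pos c1, if_pos c2]
        · have c2 : ¬ n < hi - (j + 1) := by omega
          rw [if_neg c1, if_neg c2])
    (fun i hi' j hj' h => by
      have e1 := congrArg Prod.fst h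
      simp only at e1
      have e2 := congrArg Fin.val e1
      rw [cast_val (by omega), cast_val (by omega)] at e2
      omega)
    τ h0 h1
    (fun j hj1 hj2 => by
      have := hbd (fn N (hi - j)) (by rw [cast_val (by omega)]; omega)
        (by rw [cast_val (by omega)]; omega)
      show θ (fn N (hi - j), if n < hi - j then x else y) ≤ τ
      split_ifs
      · exact this.1
      · exact this.2)
  have e0 : ((fn N (hi - 0), if n < hi - 0 then x else y) : Fin (N + 1) × V) = (fn N hi, x) := by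
    rw [Nat.sub_zero, if_pos hn2]
  have e1 : ((fn N (hi - (hi - lo - 1 + 1)), if n < hi - (hi - lo - 1 + 1) then x else y) :
      Fin (N + 1) × V) = (fn N lo, y) := by
    have : hi - (hi - lo - 1 + 1) = lo := by omega
    rw [this, if_neg (by omega)]
  rw [e0, e1] at this
  have hM0 : 0 ≤ ((1 - τ) / (1 + τ)) ^ (hi - lo) := pow_nonneg hτ' _
  calc ((1 / 8) * ((1 - τ) / (1 + τ)) ^ (hi - lo)) * Zp π θ
      ≤ ((1 / 8) * ((1 - τ) / (1 + τ)) ^ (hi - lo)) * (2 * Zp π' θ) :=
        mul_le_mul_of_nonneg_left hd (by positivity)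
    _ = ((1 / 4) * ((1 - τ) / (1 + τ)) ^ (hi - lo)) * Zp π' θ := by ring
    _ ≤ _ := this

theorem nn (L : List (V × V)) (d N : ℕ) (p : ℝ) (h0p : 0 ≤ p) (h1p : p ≤ 1)
    (E₁ E₂ : List ((Fin (N + 1) × V) × (Fin (N + 1) × V) × ℝ)) (hE₁ : OutG N E₁)
    (hE₂ : OutG N E₂) (hdeg : ∀ x : V, (L.countP fun e => e.1 = x ∨ e.2 = x) ≤ d)
    (θ : Fin (N + 1) × V → ℝ) (hθ : ∀ z, 0 ≤ θ z ∧ θ z ≤ 1)
    (x y : V) (k k' : Fin (N + 1)) (τ : ℝ) (hxy : x ≠ y) (hL : (x, y) ∈ L ∨ (y, x) ∈ L)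
    (h0 : 0 ≤ τ) (h1 : τ < 1) (hkk : k < k')
    (hbd : ∀ i, k < i → i < k' → θ (i, x) ≤ τ ∧ θ (i, y) ≤ τ) :
    θ (k', x) * θ (k, y) * ((1 / 8) * (p * ((k' : ℕ) - k : ℕ)) *
        (((1 - p) / (1 + p)) ^ (2 * d * ((k' : ℕ) - k)) * ((1 - τ) / (1 + τ)) ^ ((k' : ℕ) - k))) ≤
      cc (law (E₁ ++ (gates L N p ++ E₂)) (base N)) θ (k', x) (k, y) := by
  set lo : ℕ := (k : ℕ) with hlo
  set hi : ℕ := (k' : ℕ) with hhi
  have hlt : lo < hi := hkk
  have hhiN : hi ≤ N := by have := k'.2; omega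
  have hne : (k', x) ≠ (k, y) := fun h => hxy (congrArg Prod.snd h)
  have hl := pr_ext (L := L) h0p h1p hE₁ hE₂
  have hτ' : 0 ≤ (1 - τ) / (1 + τ) := div_nonneg (by linarith) (by linarith)
  set c : ℝ := (1 / 8) * ((1 - τ) / (1 + τ)) ^ (hi - lo) with hc
  have hc0 : 0 ≤ c := by positivity
  have ek' : fn N hi = k' := by rw [hhi, fn_val]
  have ek : fn N lo = k := by rw [hlo, fn_val]
  have key := EL_ge_of_swap (base N) (win N (fun z => z = x ∨ z = y) lo hi) (good N x y lo hi)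
    good_mem hl
    (f := fun π => Zf π θ (k', x) (k, y)) (F := fun π => Zp π θ)
    (fun π => (arcStmt _ π θ hθ _ _ hne).1) (dbl_Zp hθ) hc0 (by
      intro g _ hg π hπ
      obtain ⟨hg1, ⟨hg2, hg3⟩, hg4⟩ := hg
      have := arc_nn x y hxy lo hi hlt hhiN θ hθ τ h0 h1
        (fun i hi1 hi2 => hbd i hi1 hi2) π hπ (g.1.1 : ℕ) hg2 hg3
      rw [ek', ek, fn_val] at this
      refine le_trans this (le_of_eq ?_)
      congr 2
      rcases hg4 with ⟨ha, hb⟩ | ⟨ha, hb⟩
      · congr 1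
        · exact Prod.ext rfl ha.symm
        · exact Prod.ext hg1 hb.symm
      · rw [Equiv.swap_comm]
        congr 1
        · exact Prod.ext rfl ha.symm
        · exact Prod.ext hg1 hb.symm)
  have h3 := cc_ge hl (base N) hθ hne key
  refine le_trans ?_ h3
  refine mul_le_mul_of_nonneg_left ?_ (mul_nonneg (hθ _).1 (hθ _).1)
  rw [DD_append, DD_append, DD_out _ lo hi hhiN hE₁, DD_out _ lo hi hhiN hE₂, one_mul, mul_one,
    GG_append, GG_append]
  have hcount : (L.countP fun e => (e.1 = x ∨ e.1 = y) ∨ (e.2 = x ∨ e.2 = y)) ≤ 2 * d := by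
    have e1 : (L.countP fun e => (e.1 = x ∨ e.1 = y) ∨ (e.2 = x ∨ e.2 = y)) ≤
        (L.countP fun e => e.1 = x ∨ e.2 = x) + (L.countP fun e => e.1 = y ∨ e.2 = y) := by
      induction L with
      | nil => simp
      | cons e l ih =>
        clear * - e l
        induction (e :: l) with
        | nil => simp
        | cons e l ih =>
          simp only [List.countP_cons]
          by_cases h1 : e.1 = x <;> by_cases h2 : e.1 = y <;> by_cases h3 : e.2 = x <;>
            by_cases h4 : e.2 = y <;> simp_all <;> omega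
    have e2 := hdeg x
    have e3 := hdeg y
    omega
  have h4 := DD_gates L N h0p h1p (fun z => z = x ∨ z = y) lo hi (2 * d) hcount
  have h5 := GG_gates L N h0p x y hL lo hi hhiN
  have h6 : 0 ≤ GG (win N (fun z => z = x ∨ z = y) lo hi) (good N x y lo hi) E₁ :=
    GG_nonneg _ _ fun g hg => (hE₁ g hg).1
  have h7 : 0 ≤ GG (win N (fun z => z = x ∨ z = y) lo hi) (good N x y lo hi) E₂ :=
    GG_nonneg _ _ fun g hg => (hE₂ g hg).1
  have hpp : 0 ≤ (1 - p) / (1 + p) := div_nonneg (by linarith) (by linarith)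
  have h8 : p * ((hi - lo : ℕ) : ℝ) * ((1 - p) / (1 + p)) ^ (2 * d * (hi - lo)) ≤
      (GG (win N (fun z => z = x ∨ z = y) lo hi) (good N x y lo hi) E₁ +
        (GG (win N (fun z => z = x ∨ z = y) lo hi) (good N x y lo hi) (gates L N p) +
        GG (win N (fun z => z = x ∨ z = y) lo hi) (good N x y lo hi) E₂)) *
        DD (win N (fun z => z = x ∨ z = y) lo hi) (gates L N p) :=
    mul_le_mul (by linarith) h4 (pow_nonneg hpp _) (by
      have : 0 ≤ p * ((hi - lo : ℕ) : ℝ) := by positivity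
      linarith)
  have h9 := mul_le_mul_of_nonneg_left h8 hc0
  calc _ = c * (p * ((hi - lo : ℕ) : ℝ) * ((1 - p) / (1 + p)) ^ (2 * d * (hi - lo))) := by
        rw [hc]; ring
    _ ≤ _ := h9
    _ = _ := by ring

end Loc.Ext

end

end Vale.Agent.P361.LRO
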