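import Vale.Agent.P361.LRO.Loc.Iface

/-!
P361 LRO, block (4): strand geometry of the physical circuit.
-/

namespace Vale.Agent.P361.LRO.Loc.Geo

open Finset Vale.Agent.P361.LRO

noncomputable section

variable {X : Type} [Fintype X] [DecidableEq X]

lemma law_cons (g : X × X × ℝ) (l : List (X × X × ℝ)) (σ π : Equiv.Perm X) :
    law (g :: l) σ π = (1 - g.2.2) * law l σ π + g.2.2 * law l σ (Equiv.swap g.1 g.2.1 * π) := by
  rw [law]

lemma law_nonneg {l : List (X × X × ℝ)} (hl : ∀ g ∈ l, 0 ≤ g.2.2 ∧ g.2.2 ≤ 1)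
    (σ π : Equiv.Perm X) : 0 ≤ law l σ π := by
  induction l generalizing π with
  | nil =>
    rw [law]
    by_cases h : π = σ
    · subst h; simp
    · simp [h]
  | cons g l ih =>
    rw [law_cons]
    have hg := hl g (by simp)
    have ih' := fun π => ih (fun g hg => hl g (by simp [hg])) π
    have h1 : 0 ≤ 1 - g.2.2 := by linarith [hg.2]
    exact add_nonneg (mul_nonneg h1 (ih' _)) (mul_nonneg hg.1 (ih' _))

/-- If all permutations of the support of `law l₂ σ` map `z` to `w`, and no gate of `l₁` touches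
`w`, then the same holds for `l₁ ++ l₂`. -/
lemma supp_fix (l₁ l₂ : List (X × X × ℝ)) (σ π : Equiv.Perm X) (z w : X)
    (h2 : ∀ π₂, law l₂ σ π₂ ≠ 0 → π₂ z = w)
    (h1 : ∀ g ∈ l₁, g.2.2 ≠ 0 → w ≠ g.1 ∧ w ≠ g.2.1)
    (h : law (l₁ ++ l₂) σ π ≠ 0) : π z = w := by
  induction l₁ generalizing π with
  | nil => exact h2 π (by simpa using h)
  | cons g l ih =>
    rw [List.cons_append, law_cons] at h
    have ih' := fun π => ih π (fun g hg => h1 g (by simp [hg]))
    by_cases ha : law (l ++ l₂) σ π = 0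
    · rw [ha, mul_zero, zero_add] at h
      have hp : g.2.2 ≠ 0 := left_ne_zero_of_mul h
      have hb : law (l ++ l₂) σ (Equiv.swap g.1 g.2.1 * π) ≠ 0 := right_ne_zero_of_mul h
      have := ih' _ hb
      obtain ⟨e1, e2⟩ := h1 g (by simp) hp
      rw [Equiv.Perm.mul_apply] at this
      have h3 : π z = Equiv.swap g.1 g.2.1 w := by
        rw [← this, Equiv.swap_apply_self]
      rw [h3, Equiv.swap_apply_of_ne_of_ne e1 e2]
    · exact ih' _ ha

lemma supp_base (σ π : Equiv.Perm X) (h : law ([] : List (X × X × ℝ)) σ π ≠ 0) : π = σ := by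
  rw [law] at h
  by_contra hne
  exact h (by simp [hne])

/-- No gate touches `w = σ z`. -/
lemma supp_straight (l : List (X × X × ℝ)) (σ π : Equiv.Perm X) (z w : X) (hz : σ z = w)
    (h1 : ∀ g ∈ l, g.2.2 ≠ 0 → w ≠ g.1 ∧ w ≠ g.2.1) (h : law l σ π ≠ 0) : π z = w := by
  refine supp_fix l [] σ π z w (fun π₂ h2 => ?_) h1 (by simpa using h)
  rw [supp_base σ π₂ h2, hz]

/-- One open gate. -/
lemma supp_hop (l₁ l₂ : List (X × X × ℝ)) (a b : X) (σ π : Equiv.Perm X) (z w w' : X)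
    (hz : σ z = w) (hw : Equiv.swap a b w = w')
    (h1 : ∀ g ∈ l₁, g.2.2 ≠ 0 → w' ≠ g.1 ∧ w' ≠ g.2.1)
    (h2 : ∀ g ∈ l₂, g.2.2 ≠ 0 → w ≠ g.1 ∧ w ≠ g.2.1)
    (h : law (l₁ ++ (a, b, 1) :: l₂) σ π ≠ 0) : π z = w' := by
  refine supp_fix l₁ ((a, b, 1) :: l₂) σ π z w' (fun π₂ hp => ?_) h1 h
  rw [law_cons] at hp
  simp only [sub_self, zero_mul, one_mul, zero_add] at hp
  have := supp_straight l₂ σ _ z w hz h2 hp
  rw [Equiv.Perm.mul_apply] at this
  rw [← hw, ← this, Equiv.swap_apply_self]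

lemma ZZ_eq (hF : FourierStmt) (l : List (X × X × ℝ)) (σ : Equiv.Perm X) (θ : X → ℝ) :
    ZZ (law l σ) θ = ev l σ fun π => Zp π θ := by
  unfold ZZ ev
  refine Finset.sum_congr rfl fun π _ => ?_
  rw [← Finset.mul_sum, (hF X π θ).1]

lemma cc_eq (hF : FourierStmt) (l : List (X × X × ℝ)) (σ : Equiv.Perm X) (θ : X → ℝ)
    (u v : X) (huv : u ≠ v) :
    cc (law l σ) θ u v = θ u * θ v * (ev l σ fun π => Zf π θ u v) /
      (ev l σ fun π => Zp π θ) := by
  unfold cc EE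
  rw [ZZ_eq hF, ← neg_div]
  congr 1
  unfold ev
  rw [Finset.mul_sum, ← Finset.sum_neg_distrib]
  refine Finset.sum_congr rfl fun π _ => ?_
  have := (hF X π θ).2.1 u v huv
  have h2 : ∑ s, law l σ π * wt θ π s * (jj π s u * jj π s v) =
      law l σ π * ∑ s, wt θ π s * (jj π s u * jj π s v) := by
    rw [Finset.mul_sum]
    exact Finset.sum_congr rfl fun s _ => by ring
  rw [h2]
  calc -(law l σ π * ∑ s, wt θ π s * (jj π s u * jj π s v))
      = law l σ π * -(∑ s, wt θ π s * (jj π s u * jj π s v)) := by ring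
    _ = _ := by rw [this]; ring

/-- Comparison of `ev` on the support. -/
lemma ev_mono_supp {l : List (X × X × ℝ)} (hl : ∀ g ∈ l, 0 ≤ g.2.2 ∧ g.2.2 ≤ 1)
    (σ : Equiv.Perm X) (F G : Equiv.Perm X → ℝ) (h : ∀ π, law l σ π ≠ 0 → F π ≤ G π) :
    ev l σ F ≤ ev l σ G := by
  unfold ev
  refine Finset.sum_le_sum fun π _ => ?_
  by_cases hp : law l σ π = 0
  · simp [hp]
  · exact mul_le_mul_of_nonneg_left (h π hp) (law_nonneg hl σ π)

lemma ev_smul (l : List (X × X × ℝ)) (σ : Equiv.Perm X) (c : ℝ) (F : Equiv.Perm X → ℝ) :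
    (ev l σ fun π => c * F π) = c * ev l σ F := by
  unfold ev
  rw [Finset.mul_sum]
  exact Finset.sum_congr rfl fun π _ => by ring

lemma ev_pos (hR : RingStmt) {l : List (X × X × ℝ)} (hl : ∀ g ∈ l, 0 ≤ g.2.2 ∧ g.2.2 ≤ 1)
    (σ : Equiv.Perm X) (θ : X → ℝ) (hθ : ∀ x, 0 ≤ θ x ∧ θ x ≤ 1) :
    0 < ev l σ fun π => Zp π θ := by
  have hpos : ∀ π, 0 < Zp π θ := fun π => (hR X π θ hθ).1
  -- some permutation has positive weight
  have hsum : ∀ (l : List (X × X × ℝ)), ∑ π, law l σ π = 1 := by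
    intro l
    induction l with
    | nil => simp [law]
    | cons g l ih =>
      simp only [law]
      rw [Finset.sum_add_distrib, ← Finset.mul_sum, ← Finset.mul_sum, ih]
      have : ∑ π, law l σ (Equiv.swap g.1 g.2.1 * π) = ∑ π, law l σ π :=
        Fintype.sum_equiv (Equiv.mulLeft (Equiv.swap g.1 g.2.1)) _ _ (fun π => rfl)
      rw [this, ih]; ring
  have h1 := hsum l
  obtain ⟨π, hπ⟩ : ∃ π, 0 < law l σ π := by
    by_contra hcon
    push Not at hcon
    have : ∑ π, law l σ π ≤ 0 := Finset.sum_nonpos fun π _ => hcon π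
    linarith
  unfold ev
  refine Finset.sum_pos' (fun π _ => mul_nonneg (law_nonneg hl σ π) (hpos π).le)
    ⟨π, Finset.mem_univ _, mul_pos hπ (hpos π)⟩

end

end Vale.Agent.P361.LRO.Loc.Geo
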