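import Vale.Agent.P361.LRO.Defs

/-!
P361 LRO, block (4) LOC: interfaces.  Everything on helper118's `LRO/Defs.lean`.

For a permutation `π` of the nodes:
* `Zp π θ = ∑_{t, t ∘ π = t} ∏ (1 + θ_x t_x)` (spins constant on the cycles);
* `Zf π θ u v`: the spin is flipped exactly at `u` and `v`, the factors of `u, v` are dropped.
-/

namespace Vale.Agent.P361.LRO.Loc

open Finset Vale.Agent.P361.LRO

noncomputable section

variable {X : Type} [Fintype X] [DecidableEq X]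

/-- Sign of a spin. -/
def sg (a : Fin 2) : ℝ := if a = 0 then 1 else -1

/-- Dual partition function of a permutation. -/
def Zp (π : Equiv.Perm X) (θ : X → ℝ) : ℝ :=
  ∑ t : X → Fin 2, if (∀ x, t (π x) = t x) then ∏ x, (1 + θ x * sg (t x)) else 0

/-- The same with flips exactly at the nodes `u, v`, whose factors are dropped. -/
def Zf (π : Equiv.Perm X) (θ : X → ℝ) (u v : X) : ℝ :=
  ∑ t : X → Fin 2, if (∀ x, (t (π x) = t x ↔ (x ≠ u ∧ x ≠ v))) then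
    ∏ x, (if x = u ∨ x = v then 1 else 1 + θ x * sg (t x)) else 0

/-- Expectation of a function of the permutation (linear in the gate list). -/
def ev (l : List (X × X × ℝ)) (σ : Equiv.Perm X) (F : Equiv.Perm X → ℝ) : ℝ :=
  ∑ π, law l σ π * F π

/-- All gates of the list are honest. -/
def OKg (l : List (X × X × ℝ)) : Prop := ∀ g ∈ l, 0 ≤ g.2.2 ∧ g.2.2 ≤ 1 / 2

/-- A (helper1): Fourier transform on the cycles. -/
def FourierStmt : Prop :=
  ∀ (X : Type) [Fintype X] [DecidableEq X] (π : Equiv.Perm X) (θ : X → ℝ),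
    (∑ s, wt θ π s = Zp π θ) ∧
    (∀ u v, u ≠ v → -(∑ s, wt θ π s * (jj π s u * jj π s v)) = θ u * θ v * Zf π θ u v) ∧
    (∀ u, ∑ s, (if s u = s (π u) then 0 else wt θ π s) =
      θ u * ∑ t : X → Fin 2, if (∀ x, t (π x) = t x) then
        ∏ x, (if x = u then sg (t x) else 1 + θ x * sg (t x)) else 0)

/-- B (helper759): Griffiths on the cycles; one more transposition changes `Zp` by at most `2`. -/
def RingStmt : Prop :=
  ∀ (X : Type) [Fintype X] [DecidableEq X] (π : Equiv.Perm X) (θ : X → ℝ),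
    (∀ x, 0 ≤ θ x ∧ θ x ≤ 1) →
    0 < Zp π θ ∧ ∀ a b, Zp (Equiv.swap a b * π) θ ≤ 2 * Zp π θ

/-- D (helper759): the arc bound.  `w` lists the nodes strictly between `u` and `v`. -/
def ArcStmt : Prop :=
  ∀ (X : Type) [Fintype X] [DecidableEq X] (π : Equiv.Perm X) (θ : X → ℝ),
    (∀ x, 0 ≤ θ x ∧ θ x ≤ 1) → ∀ (u v : X), u ≠ v →
    0 ≤ Zf π θ u v ∧
    ∀ (m : ℕ), (π ^ (m + 1)) u = v → (∀ i, 1 ≤ i → i ≤ m → (π ^ i) u ≠ u ∧ (π ^ i) u ≠ v) →
      (∀ i, i ≤ m + 1 → ∀ j, j ≤ m + 1 → (π ^ i) u = (π ^ j) u → i = j) →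
      (∏ i ∈ Finset.range m, (1 - θ ((π ^ (i + 1)) u)) / (1 + θ ((π ^ (i + 1)) u))) /
        ((1 + θ u) * (1 + θ v)) * Zp π θ ≤ Zf π θ u v

/-- Replace the probability of the gates for which `S` holds by `0`. -/
def closeG (S : X × X × ℝ → Prop) [DecidablePred S] (l : List (X × X × ℝ)) :
    List (X × X × ℝ) :=
  l.map fun g => if S g then (g.1, g.2.1, 0) else g

/-- C (helper428): closing gates.  `G ≥ 0` any function; for `Zp` the reverse bound. -/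
def CloseStmt : Prop :=
  ∀ (X : Type) [Fintype X] [DecidableEq X] (l : List (X × X × ℝ)) (σ : Equiv.Perm X)
    (S : X × X × ℝ → Prop) [DecidablePred S], OKg l →
    (∀ F : Equiv.Perm X → ℝ, (∀ π, 0 ≤ F π) →
      (l.map fun g => if S g then 1 - g.2.2 else 1).prod * ev (closeG S l) σ F ≤ ev l σ F) ∧
    (∀ θ : X → ℝ, (∀ x, 0 ≤ θ x ∧ θ x ≤ 1) →
      ev l σ (fun π => Zp π θ) ≤
        (l.map fun g => if S g then 1 + g.2.2 else 1).prod *
          ev (closeG S l) σ fun π => Zp π θ)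

/-- Gates with `S` closed, except that the `j`-th gate is open (probability `1`). -/
def pat (S : X × X × ℝ → Prop) [DecidablePred S] (l : List (X × X × ℝ)) (j : ℕ) :
    List (X × X × ℝ) :=
  (closeG S l).modify j fun g => (g.1, g.2.1, 1)

/-- C' (helper428): exactly one open gate (with `H`, where `H` implies `S`). -/
def OneOpenStmt : Prop :=
  ∀ (X : Type) [Fintype X] [DecidableEq X] (l : List (X × X × ℝ)) (σ : Equiv.Perm X)
    (S H : X × X × ℝ → Prop) [DecidablePred S] [DecidablePred H], OKg l →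
    (∀ g, H g → S g) →
    (∀ F : Equiv.Perm X → ℝ, (∀ π, 0 ≤ F π) →
      (l.map fun g => if S g then 1 - g.2.2 else 1).prod *
        (∑ j ∈ Finset.range l.length, if ∃ g, l[j]? = some g ∧ H g then
          ((l[j]?).map fun g => g.2.2).getD 0 * ev (pat S l j) σ F else 0) ≤ ev l σ F) ∧
    (∀ j, ∀ θ : X → ℝ, (∀ x, 0 ≤ θ x ∧ θ x ≤ 1) →
      ev (closeG S l) σ (fun π => Zp π θ) ≤ 2 * ev (pat S l j) σ fun π => Zp π θ)

/-- Final form for the physical circuit: same site. `k < k'` layers. -/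
def LocSame (V : Type) [Fintype V] [DecidableEq V] (L : List (V × V)) (d : ℕ) : Prop :=
  ∀ (β : ℝ) (N : ℕ), 0 < β → β ≤ N → (∀ x : V, (L.countP fun e => e.1 = x ∨ e.2 = x) ≤ d) →
    ∀ θ : Fin (N + 1) × V → ℝ, (∀ z, 0 ≤ θ z ∧ θ z ≤ 1) →
    ∀ (x : V) (k k' : Fin (N + 1)) (τ : ℝ), 0 ≤ τ → τ < 1 → k < k' →
      (∀ i, k < i → i < k' → θ (i, x) ≤ τ) →
      θ (k', x) * θ (k, x) * ((1 / 4) *
        (((1 - β / (2 * N)) / (1 + β / (2 * N))) ^ (d * ((k' : ℕ) - k)) *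
          ((1 - τ) / (1 + τ)) ^ ((k' : ℕ) - k))) ≤
        cc (phys L β N) θ (k', x) (k, x)

/-- Final form: neighbours `x ≠ y`, `(x, y) ∈ L`. -/
def LocNN (V : Type) [Fintype V] [DecidableEq V] (L : List (V × V)) (d : ℕ) : Prop :=
  ∀ (β : ℝ) (N : ℕ), 0 < β → β ≤ N → (∀ x : V, (L.countP fun e => e.1 = x ∨ e.2 = x) ≤ d) →
    ∀ θ : Fin (N + 1) × V → ℝ, (∀ z, 0 ≤ θ z ∧ θ z ≤ 1) →
    ∀ (x y : V) (k k' : Fin (N + 1)) (τ : ℝ), x ≠ y → ((x, y) ∈ L ∨ (y, x) ∈ L) →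
      0 ≤ τ → τ < 1 → k < k' →
      (∀ i, k < i → i < k' → θ (i, x) ≤ τ ∧ θ (i, y) ≤ τ) →
      θ (k', x) * θ (k, y) * ((1 / 8) * (β / (2 * N) * ((k' : ℕ) - k : ℕ)) *
        (((1 - β / (2 * N)) / (1 + β / (2 * N))) ^ (2 * d * ((k' : ℕ) - k)) *
          ((1 - τ) / (1 + τ)) ^ ((k' : ℕ) - k))) ≤
        cc (phys L β N) θ (k', x) (k, y)

/-- Positivity of the conductances and the network form of `K`. -/
def NetStmt : Prop :=
  ∀ (X : Type) [Fintype X] [DecidableEq X] (μ : Equiv.Perm X → ℝ), IsLaw μ →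
    ∀ θ : X → ℝ, (∀ x, 0 ≤ θ x ∧ θ x ≤ 1) →
    0 < ZZ μ θ ∧ (∀ u v, u ≠ v → 0 ≤ cc μ θ u v) ∧ (∀ u v, cc μ θ u v = cc μ θ v u) ∧
    (∀ u, ∑ v ∈ univ.erase u, cc μ θ u v = vv μ θ u) ∧
    (∀ a : X → ℝ, KK μ θ a = (1 / 2) * ∑ u, ∑ v ∈ univ.erase u, cc μ θ u v * (a u - a v) ^ 2) ∧
    (∀ u, vv μ θ u ≤ θ u)

end

end Vale.Agent.P361.LRO.Loc
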