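import Vale.Agent.P361.LRO.Defs

/-!
P361 / LRO / block LOC (note 9886 (4), short route of helper668).

Ising chains on the cycles of a fixed permutation `π` of the set `X` of nodes.
-/

namespace Vale.Agent.P361.LRO.LocI

open Finset

noncomputable section

/-- `±1` value of a spin. -/
def sg (b : Fin 2) : ℝ := if b = 0 then 1 else -1

lemma fin2 (b : Fin 2) : b = 0 ∨ b = 1 := by fin_cases b <;> simp

lemma sg_sq (b : Fin 2) : sg b * sg b = 1 := by rcases fin2 b with h | h <;> simp [sg, h]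

lemma sg_not (b : Fin 2) : sg (1 - b) = -sg b := by rcases fin2 b with h | h <;> simp [sg, h]

lemma sg_cast (b : Fin 2) : ((b : ℕ) : ℝ) = (1 - sg b) / 2 := by
  rcases fin2 b with h | h <;> simp [sg, h]

set_option linter.unusedSectionVars false

variable {X : Type} [Fintype X] [DecidableEq X]

/-- weight of node `i`. -/
def fac (τ : X → X) (θ : X → ℝ) (s : X → Fin 2) (i : X) : ℝ := if s i = s (τ i) then 1 else θ i

lemma fac_eq (τ : X → X) (θ : X → ℝ) (s : X → Fin 2) (i : X) :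
    fac τ θ s i = (1 + θ i) / 2 + (1 - θ i) / 2 * (sg (s i) * sg (s (τ i))) := by
  unfold fac
  rcases fin2 (s i) with h1 | h1 <;> rcases fin2 (s (τ i)) with h2 | h2 <;>
    simp [sg, h1, h2] <;> ring

lemma fac_nonneg {τ : X → X} {θ : X → ℝ} (h0 : ∀ i, 0 ≤ θ i) (s : X → Fin 2) (i : X) :
    0 ≤ fac τ θ s i := by
  unfold fac; split_ifs
  · exact zero_le_one
  · exact h0 i

lemma fac_le_one {τ : X → X} {θ : X → ℝ} (h1 : ∀ i, θ i ≤ 1) (s : X → Fin 2) (i : X) :
    fac τ θ s i ≤ 1 := by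
  unfold fac; split_ifs
  · exact le_rfl
  · exact h1 i

/-- weight of a set of nodes. -/
def wtA (τ : X → X) (θ : X → ℝ) (A : Finset X) (s : X → Fin 2) : ℝ := ∏ i ∈ A, fac τ θ s i

lemma wtA_univ (π : Equiv.Perm X) (θ : X → ℝ) (s : X → Fin 2) :
    wtA π θ univ s = wt θ π s := rfl

lemma wtA_nonneg {τ : X → X} {θ : X → ℝ} (h0 : ∀ i, 0 ≤ θ i) (A : Finset X) (s : X → Fin 2) :
    0 ≤ wtA τ θ A s := Finset.prod_nonneg fun i _ => fac_nonneg h0 s i

lemma prod_sg_single (s : X → Fin 2) (c : X) :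
    (∏ i, sg (s i) ^ ((Pi.single c 1 : X → ℕ) i)) = sg (s c) := by
  rw [Finset.prod_eq_single c]
  · simp
  · intro b _ hb
    simp [Pi.single_eq_of_ne hb]
  · simp

/-- Griffiths I. -/
theorem griffiths {τ : X → X} {θ : X → ℝ} (h0 : ∀ i, 0 ≤ θ i) (h1 : ∀ i, θ i ≤ 1)
    (A : Finset X) : ∀ e : X → ℕ,
      0 ≤ ∑ s : X → Fin 2, (∏ i, sg (s i) ^ e i) * wtA τ θ A s := by
  classical
  induction A using Finset.induction_on with
  | empty =>
    intro e
    simp only [wtA, Finset.prod_empty, mul_one]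
    have h := (Finset.prod_univ_sum (fun _ : X => (Finset.univ : Finset (Fin 2)))
      (fun i b => sg b ^ e i)).symm
    rw [Fintype.piFinset_univ] at h
    rw [h]
    refine Finset.prod_nonneg fun i _ => ?_
    simp only [Fin.sum_univ_two, sg, if_true]
    rcases Nat.even_or_odd (e i) with h | h
    · simp [h.neg_one_pow]
    · simp [h.neg_one_pow]
  | insert a A ha ih =>
    intro e
    have key : ∀ s : X → Fin 2, (∏ i, sg (s i) ^ e i) * wtA τ θ (insert a A) s
        = (1 + θ a) / 2 * ((∏ i, sg (s i) ^ e i) * wtA τ θ A s)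
          + (1 - θ a) / 2 *
            ((∏ i, sg (s i) ^ ((e + Pi.single a 1 + Pi.single (τ a) 1 : X → ℕ) i)) *
              wtA τ θ A s) := by
      intro s
      have h2 : (∏ i, sg (s i) ^ ((e + Pi.single a 1 + Pi.single (τ a) 1 : X → ℕ) i))
          = (∏ i, sg (s i) ^ e i) * sg (s a) * sg (s (τ a)) := by
        rw [← prod_sg_single s a, ← prod_sg_single s (τ a), ← Finset.prod_mul_distrib,
          ← Finset.prod_mul_distrib]
        refine Finset.prod_congr rfl fun i _ => ?_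
        simp only [Pi.add_apply, pow_add]
      rw [h2]
      unfold wtA
      rw [Finset.prod_insert ha, fac_eq]
      ring
    rw [Finset.sum_congr rfl fun s _ => key s, Finset.sum_add_distrib, ← Finset.mul_sum,
      ← Finset.mul_sum]
    have ha0 := h0 a
    have ha1 := h1 a
    exact add_nonneg (mul_nonneg (by linarith) (ih _)) (mul_nonneg (by linarith) (ih _))

/-- Griffiths I for a pair. -/
theorem griffiths_pair {τ : X → X} {θ : X → ℝ} (h0 : ∀ i, 0 ≤ θ i) (h1 : ∀ i, θ i ≤ 1)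
    (A : Finset X) (a b : X) :
    0 ≤ ∑ s : X → Fin 2, sg (s a) * sg (s b) * wtA τ θ A s := by
  classical
  have h := griffiths (τ := τ) h0 h1 A (Pi.single a 1 + Pi.single b 1 : X → ℕ)
  refine h.trans_eq (Finset.sum_congr rfl fun s _ => ?_)
  congr 1
  rw [← prod_sg_single s a, ← prod_sg_single s b, ← Finset.prod_mul_distrib]
  refine Finset.prod_congr rfl fun i _ => ?_
  simp only [Pi.add_apply, pow_add]

/-- Total weight of the configurations with `s a = s b` is at least half. -/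
theorem half_le_eq {τ : X → X} {θ : X → ℝ} (h0 : ∀ i, 0 ≤ θ i) (h1 : ∀ i, θ i ≤ 1)
    (A : Finset X) (a b : X) :
    ∑ s : X → Fin 2, (if s a = s b then 0 else wtA τ θ A s)
      ≤ ∑ s : X → Fin 2, (if s a = s b then wtA τ θ A s else 0) := by
  have h := griffiths_pair (τ := τ) h0 h1 A a b
  rw [← sub_nonneg, ← Finset.sum_sub_distrib]
  refine h.trans_eq (Finset.sum_congr rfl fun s _ => ?_)
  rcases fin2 (s a) with h1 | h1 <;> rcases fin2 (s b) with h2 | h2 <;> simp [sg, h1, h2]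

/-- `P(node l is broken) ≤ θ l`. -/
theorem broken_le {τ : X → X} {θ : X → ℝ} (h0 : ∀ i, 0 ≤ θ i) (h1 : ∀ i, θ i ≤ 1)
    (A : Finset X) {l : X} (hl : l ∈ A) :
    ∑ s : X → Fin 2, (if s l = s (τ l) then 0 else wtA τ θ A s)
      ≤ θ l * ∑ s : X → Fin 2, wtA τ θ A s := by
  classical
  have hA : ∀ s, wtA τ θ A s = fac τ θ s l * wtA τ θ (A.erase l) s := by
    intro s; unfold wtA; rw [Finset.mul_prod_erase A _ hl]
  have h := half_le_eq (τ := τ) h0 h1 (A.erase l) l (τ l)
  have h2 : ∑ s : X → Fin 2, (if s l = s (τ l) then 0 else wtA τ θ A s)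
      = θ l * ∑ s : X → Fin 2, (if s l = s (τ l) then 0 else wtA τ θ (A.erase l) s) := by
    rw [Finset.mul_sum]
    refine Finset.sum_congr rfl fun s _ => ?_
    rw [hA s]
    unfold fac
    split_ifs <;> simp
  rw [h2]
  refine mul_le_mul_of_nonneg_left (h.trans ?_) (h0 l)
  refine Finset.sum_le_sum fun s _ => ?_
  rw [hA s]
  unfold fac
  split_ifs
  · simp
  · exact mul_nonneg (h0 l) (wtA_nonneg h0 _ _)

/-- The forward path from `τ i` until the first hit of `{i, k}`. -/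
def Fwd (τ : X → X) (i k : X) (l : X) : Prop :=
  ∃ a : ℕ, l = τ^[a] (τ i) ∧ ∀ b < a, τ^[b] (τ i) ≠ i ∧ τ^[b] (τ i) ≠ k

lemma fwd_start (τ : X → X) (i k : X) : Fwd τ i k (τ i) := ⟨0, rfl, by simp⟩

lemma fwd_step {τ : X → X} {i k l : X} (h : Fwd τ i k l) (hi : l ≠ i) (hk : l ≠ k) :
    Fwd τ i k (τ l) := by
  obtain ⟨a, rfl, ha⟩ := h
  refine ⟨a + 1, by rw [Function.iterate_succ_apply'], fun b hb => ?_⟩
  rcases Nat.lt_succ_iff_lt_or_eq.mp hb with h | h
  · exact ha b h
  · subst h; exact ⟨hi, hk⟩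

lemma fwd_back {τ : X → X} (hτ : Function.Injective τ) {i k l : X} (h : Fwd τ i k (τ l))
    (hi : l ≠ i) : Fwd τ i k l := by
  obtain ⟨a, h1, ha⟩ := h
  cases a with
  | zero => exact absurd (hτ h1) hi
  | succ a =>
    rw [Function.iterate_succ_apply'] at h1
    exact ⟨a, hτ h1, fun b hb => ha b (by omega)⟩

lemma not_fwd {τ : X → X} (hτ : Function.Injective τ) {i k : X} (hik : i ≠ k) :
    ¬ Fwd τ i k (τ k) := by
  rintro ⟨a, h1, ha⟩
  cases a with
  | zero => exact hik (hτ h1).symm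
  | succ a =>
    rw [Function.iterate_succ_apply'] at h1
    exact (ha a (by omega)).2 (hτ h1).symm

lemma fwd_xor {τ : X → X} (hτ : Function.Injective τ) {i k : X} (hik : i ≠ k) :
    (Fwd τ i k i ∧ ¬ Fwd τ i k k) ∨ (¬ Fwd τ i k i ∧ Fwd τ i k k) := by
  classical
  have hnot : ¬ (Fwd τ i k i ∧ Fwd τ i k k) := by
    rintro ⟨⟨a, h1, ha⟩, ⟨b, h2, hb⟩⟩
    rcases lt_trichotomy a b with h | h | h
    · exact (hb a h).1 h1.symm
    · subst h; exact hik (h1.trans h2.symm)
    · exact (ha b h).2 h2.symm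
  have hex : ∃ a : ℕ, τ^[a] (τ i) = i ∨ τ^[a] (τ i) = k := by
    obtain ⟨n, hn, hni⟩ := (Function.mem_periodicPts.mp
      (Function.Injective.mem_periodicPts hτ i))
    refine ⟨n - 1, Or.inl ?_⟩
    rw [← Function.iterate_succ_apply, show (n - 1).succ = n by omega]
    exact hni
  have hmin := Nat.find_spec hex
  have hlt := fun b (hb : b < Nat.find hex) => Nat.find_min hex hb
  push Not at hlt
  rcases hmin with h | h
  · left
    have : Fwd τ i k i := ⟨_, h.symm, fun b hb => hlt b hb⟩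
    exact ⟨this, fun h' => hnot ⟨this, h'⟩⟩
  · right
    have : Fwd τ i k k := ⟨_, h.symm, fun b hb => hlt b hb⟩
    exact ⟨fun h' => hnot ⟨h', this⟩, this⟩

/-- Flip symmetry: the pair sum vanishes if exactly one of `a, b` is in the forward path. -/
lemma flip_zero {τ : X → X} (hτ : Function.Injective τ) (θ : X → ℝ) {i k : X}
    (a b : X) (hab : (Fwd τ i k a ∧ ¬ Fwd τ i k b) ∨ (¬ Fwd τ i k a ∧ Fwd τ i k b))
    (A : Finset X) (hA : ∀ l ∈ A, l ≠ i ∧ l ≠ k) :
    ∑ s : X → Fin 2, sg (s a) * sg (s b) * wtA τ θ A s = 0 := by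
  classical
  let F : (X → Fin 2) → (X → Fin 2) := fun s l => if Fwd τ i k l then 1 - s l else s l
  have hF : Function.Involutive F := by
    intro s; funext l; simp only [F]; split_ifs <;> simp
  have hsum : ∑ s : X → Fin 2, sg (s a) * sg (s b) * wtA τ θ A s
      = ∑ s : X → Fin 2, sg (F s a) * sg (F s b) * wtA τ θ A (F s) :=
    (Equiv.sum_comp (hF.toPerm F) fun s => sg (s a) * sg (s b) * wtA τ θ A s).symm
  have hw : ∀ s, wtA τ θ A (F s) = wtA τ θ A s := by
    intro s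
    unfold wtA
    refine Finset.prod_congr rfl fun l hl => ?_
    obtain ⟨hi, hk⟩ := hA l hl
    have hiff : Fwd τ i k l ↔ Fwd τ i k (τ l) :=
      ⟨fun h => fwd_step h hi hk, fun h => fwd_back hτ h hi⟩
    have e1 : F s l = F s (τ l) ↔ s l = s (τ l) := by
      simp only [F]
      by_cases h : Fwd τ i k l
      · rw [if_pos h, if_pos (hiff.mp h)]
        rcases fin2 (s l) with h1 | h1 <;> rcases fin2 (s (τ l)) with h2 | h2 <;>
          simp [h1, h2]
      · rw [if_neg h, if_neg (fun h' => h (hiff.mpr h'))]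
    unfold fac
    simp only [e1]
  have hs : ∀ s, sg (F s a) * sg (F s b) = -(sg (s a) * sg (s b)) := by
    intro s
    simp only [F]
    rcases hab with ⟨h1, h2⟩ | ⟨h1, h2⟩
    · rw [if_pos h1, if_neg h2, sg_not]; ring
    · rw [if_neg h1, if_pos h2, sg_not]; ring
  have h2 : ∑ s : X → Fin 2, sg (F s a) * sg (F s b) * wtA τ θ A (F s)
      = - ∑ s : X → Fin 2, sg (s a) * sg (s b) * wtA τ θ A s := by
    rw [← Finset.sum_neg_distrib]
    refine Finset.sum_congr rfl fun s _ => ?_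
    rw [hs s, hw s]
    ring
  linarith

/-- The factor of node `i` together with its charge. -/
lemma fac_mul_jj (π : Equiv.Perm X) (θ : X → ℝ) (s : X → Fin 2) (i : X) :
    fac π θ s i * jj π s i = θ i * ((sg (s (π i)) - sg (s i)) / 2) := by
  unfold fac jj
  rw [sg_cast, sg_cast]
  split_ifs with h
  · rw [h]; ring
  · ring

/-- The exact formula for the charge correlation at fixed permutation. -/
theorem corr_eq (π : Equiv.Perm X) (θ : X → ℝ) {i k : X} (hik : i ≠ k) :
    - ∑ s : X → Fin 2, wt θ π s * (jj π s i * jj π s k)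
      = θ i * θ k / 4 *
        (∑ s : X → Fin 2, sg (s (π i)) * sg (s k) * wtA π θ ((univ.erase i).erase k) s
          + ∑ s : X → Fin 2, sg (s i) * sg (s (π k)) * wtA π θ ((univ.erase i).erase k) s) := by
  classical
  have hA : ∀ l ∈ ((univ : Finset X).erase i).erase k, l ≠ i ∧ l ≠ k := by
    intro l hl
    simp only [Finset.mem_erase, Finset.mem_univ, and_true] at hl
    exact ⟨hl.2, hl.1⟩
  have hz1 : ∑ s : X → Fin 2, sg (s (π i)) * sg (s (π k)) *
      wtA π θ ((univ.erase i).erase k) s = 0 :=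
    flip_zero (τ := π) π.injective θ (i := i) (k := k) (π i) (π k)
      (Or.inl ⟨fwd_start _ _ _, not_fwd π.injective hik⟩) _ hA
  have hz2 : ∑ s : X → Fin 2, sg (s i) * sg (s k) *
      wtA π θ ((univ.erase i).erase k) s = 0 :=
    flip_zero (τ := π) π.injective θ (i := i) (k := k) i k (fwd_xor π.injective hik) _ hA
  have hk : k ∈ (univ : Finset X).erase i := by simp [hik.symm]
  have hw : ∀ s, wt θ π s * (jj π s i * jj π s k)
      = -(θ i * θ k / 4) * (sg (s (π i)) * sg (s k) * wtA π θ ((univ.erase i).erase k) s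
        + sg (s i) * sg (s (π k)) * wtA π θ ((univ.erase i).erase k) s
        - sg (s (π i)) * sg (s (π k)) * wtA π θ ((univ.erase i).erase k) s
        - sg (s i) * sg (s k) * wtA π θ ((univ.erase i).erase k) s) := by
    intro s
    have e : wt θ π s = fac π θ s i * (fac π θ s k * wtA π θ ((univ.erase i).erase k) s) := by
      rw [← wtA_univ]
      unfold wtA
      rw [Finset.mul_prod_erase _ _ hk, Finset.mul_prod_erase _ _ (Finset.mem_univ i)]
    rw [e]
    have e1 := fac_mul_jj π θ s i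
    have e2 := fac_mul_jj π θ s k
    calc _ = (fac π θ s i * jj π s i) * (fac π θ s k * jj π s k) *
          wtA π θ ((univ.erase i).erase k) s := by ring
      _ = _ := by rw [e1, e2]; ring
  rw [Finset.sum_congr rfl fun s _ => hw s, ← Finset.mul_sum, Finset.sum_sub_distrib,
    Finset.sum_sub_distrib, Finset.sum_add_distrib, hz1, hz2]
  ring

/-- Negative correlation at fixed permutation. -/
theorem corr_nonneg (π : Equiv.Perm X) {θ : X → ℝ} (h0 : ∀ i, 0 ≤ θ i) (h1 : ∀ i, θ i ≤ 1)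
    {i k : X} (hik : i ≠ k) :
    0 ≤ - ∑ s : X → Fin 2, wt θ π s * (jj π s i * jj π s k) := by
  rw [corr_eq π θ hik]
  have h2 := h0 i
  have h3 := h0 k
  exact mul_nonneg (by positivity)
    (add_nonneg (griffiths_pair h0 h1 _ _ _) (griffiths_pair h0 h1 _ _ _))

/-- total weight at fixed permutation. -/
def ZP (θ : X → ℝ) (π : Equiv.Perm X) : ℝ := ∑ s : X → Fin 2, wt θ π s

/-- attenuation of one node. -/
def rr (θ : X → ℝ) (x : X) : ℝ := (1 - θ x) / (1 + θ x)

lemma rr_nonneg {θ : X → ℝ} (h0 : ∀ i, 0 ≤ θ i) (h1 : ∀ i, θ i ≤ 1) (x : X) : 0 ≤ rr θ x :=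
  div_nonneg (by linarith [h1 x]) (by linarith [h0 x])

/-- Transport of a spin through one node. -/
theorem step_ge {τ : X → X} {θ : X → ℝ} (h0 : ∀ i, 0 ≤ θ i) (h1 : ∀ i, θ i ≤ 1)
    (A : Finset X) {l : X} (hl : l ∈ A) (a : X) :
    rr θ l * ∑ s : X → Fin 2, sg (s a) * sg (s l) * wtA τ θ A s
      ≤ ∑ s : X → Fin 2, sg (s a) * sg (s (τ l)) * wtA τ θ A s := by
  have hA : ∀ s, wtA τ θ A s = fac τ θ s l * wtA τ θ (A.erase l) s := by
    intro s; unfold wtA; rw [Finset.mul_prod_erase A _ hl]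
  set P := ∑ s : X → Fin 2, sg (s a) * sg (s (τ l)) * wtA τ θ (A.erase l) s with hP
  set Q := ∑ s : X → Fin 2, sg (s a) * sg (s l) * wtA τ θ (A.erase l) s with hQ
  have hP0 : 0 ≤ P := griffiths_pair h0 h1 _ _ _
  have hQ0 : 0 ≤ Q := griffiths_pair h0 h1 _ _ _
  have e1 : ∑ s : X → Fin 2, sg (s a) * sg (s l) * wtA τ θ A s
      = (1 + θ l) / 2 * Q + (1 - θ l) / 2 * P := by
    rw [hP, hQ, Finset.mul_sum, Finset.mul_sum, ← Finset.sum_add_distrib]
    refine Finset.sum_congr rfl fun s _ => ?_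
    rw [hA s, fac_eq]
    have := sg_sq (s l)
    linear_combination (sg (s a) * sg (s (τ l)) * wtA τ θ (A.erase l) s * (1 - θ l) / 2) * this
  have e2 : ∑ s : X → Fin 2, sg (s a) * sg (s (τ l)) * wtA τ θ A s
      = (1 + θ l) / 2 * P + (1 - θ l) / 2 * Q := by
    rw [hP, hQ, Finset.mul_sum, Finset.mul_sum, ← Finset.sum_add_distrib]
    refine Finset.sum_congr rfl fun s _ => ?_
    rw [hA s, fac_eq]
    have := sg_sq (s (τ l))
    linear_combination (sg (s a) * sg (s l) * wtA τ θ (A.erase l) s * (1 - θ l) / 2) * this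
  rw [e1, e2]
  have ht0 := h0 l
  have ht1 := h1 l
  have hr : rr θ l * (1 + θ l) = 1 - θ l := by
    unfold rr; field_simp
  have hr0 := rr_nonneg h0 h1 l
  have hr1 : rr θ l ≤ 1 := by
    unfold rr
    rw [div_le_one (by linarith)]; linarith
  have h5 : rr θ l * ((1 - θ l) / 2 * P) ≤ (1 + θ l) / 2 * P := by
    have : rr θ l * (1 - θ l) ≤ 1 + θ l := by nlinarith
    nlinarith
  have h6 : rr θ l * ((1 + θ l) / 2 * Q) = (1 - θ l) / 2 * Q := by
    rw [← hr]; ring
  linarith [mul_add (rr θ l) ((1 + θ l) / 2 * Q) ((1 - θ l) / 2 * P)]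

/-- The path bound: if `k = π^m (π i)`, the charge correlation is at least
`θ_i θ_k / 4 * ∏ (1 - θ) / (1 + θ)` (nodes strictly between) times the total weight. -/
theorem corr_ge (π : Equiv.Perm X) {θ : X → ℝ} (h0 : ∀ i, 0 ≤ θ i) (h1 : ∀ i, θ i ≤ 1)
    {i k : X} (m : ℕ) (hk : (π : X → X)^[m] (π i) = k)
    (hne : ∀ b < m, (π : X → X)^[b] (π i) ≠ i ∧ (π : X → X)^[b] (π i) ≠ k) (hik : i ≠ k) :
    θ i * θ k / 4 * ((∏ b ∈ range m, rr θ ((π : X → X)^[b] (π i))) * ZP θ π)
      ≤ - ∑ s : X → Fin 2, wt θ π s * (jj π s i * jj π s k) := by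
  classical
  rw [corr_eq π θ hik]
  set A := ((univ : Finset X).erase i).erase k with hA
  have h2 := h0 i
  have h3 := h0 k
  refine mul_le_mul_of_nonneg_left ?_ (by positivity)
  have hg := griffiths_pair (τ := π) h0 h1 A i (π k)
  refine le_trans ?_ (le_add_of_nonneg_right hg)
  have hind : ∀ n, n ≤ m → (∏ b ∈ range n, rr θ ((π : X → X)^[b] (π i))) *
      ∑ s : X → Fin 2, wtA π θ A s ≤
      ∑ s : X → Fin 2, sg (s (π i)) * sg (s ((π : X → X)^[n] (π i))) * wtA π θ A s := by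
    intro n
    induction n with
    | zero => intro _; simp [sg_sq]
    | succ n ih =>
      intro hn
      have ih := ih (by omega)
      have hmem : (π : X → X)^[n] (π i) ∈ A := by
        have := hne n (by omega)
        simp [hA, this.1, this.2]
      have h := step_ge (τ := π) h0 h1 A hmem (π i)
      rw [Finset.prod_range_succ, Function.iterate_succ_apply']
      refine le_trans ?_ h
      have h6 := mul_le_mul_of_nonneg_left ih (rr_nonneg h0 h1 ((π : X → X)^[n] (π i)))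
      refine le_trans (le_of_eq ?_) h6
      ring
  have h4 := hind m le_rfl
  rw [hk] at h4
  refine le_trans ?_ h4
  have hZ : ZP θ π ≤ ∑ s : X → Fin 2, wtA π θ A s := by
    unfold ZP
    refine Finset.sum_le_sum fun s _ => ?_
    rw [← wtA_univ]
    unfold wtA
    have hsub : A ⊆ univ := Finset.subset_univ _
    rw [← Finset.prod_sdiff hsub]
    have : ∏ i ∈ univ \ A, fac π θ s i ≤ 1 :=
      Finset.prod_le_one (fun i _ => fac_nonneg h0 s i) fun i _ => fac_le_one h1 s i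
    have h5 : 0 ≤ ∏ i ∈ A, fac π θ s i := Finset.prod_nonneg fun i _ => fac_nonneg h0 s i
    nlinarith
  exact mul_le_mul_of_nonneg_left hZ (Finset.prod_nonneg fun b _ => rr_nonneg h0 h1 _)

lemma wt_swap {θ : X → ℝ} (π : Equiv.Perm X) {x y : X} {s : X → Fin 2} (h : s x = s y) :
    wt θ (Equiv.swap x y * π) s = wt θ π s := by
  unfold wt
  refine Finset.prod_congr rfl fun i _ => ?_
  have : s ((Equiv.swap x y * π) i) = s (π i) := by
    rw [Equiv.Perm.mul_apply]
    by_cases h1 : π i = x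
    · rw [h1, Equiv.swap_apply_left, h]
    · by_cases h2 : π i = y
      · rw [h2, Equiv.swap_apply_right, h]
      · rw [Equiv.swap_apply_of_ne_of_ne h1 h2]
  rw [this]

/-- Opening one more swap changes the total weight at most by a factor `2`. -/
theorem ZP_swap_le {θ : X → ℝ} (h0 : ∀ i, 0 ≤ θ i) (h1 : ∀ i, θ i ≤ 1) (π : Equiv.Perm X)
    (x y : X) : ZP θ (Equiv.swap x y * π) ≤ 2 * ZP θ π := by
  classical
  have h := half_le_eq (τ := (Equiv.swap x y * π : Equiv.Perm X)) h0 h1 univ x y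
  have h2 : ZP θ (Equiv.swap x y * π)
      = ∑ s : X → Fin 2, (if s x = s y then 0 else wt θ (Equiv.swap x y * π) s)
        + ∑ s : X → Fin 2, (if s x = s y then wt θ (Equiv.swap x y * π) s else 0) := by
    unfold ZP
    rw [← Finset.sum_add_distrib]
    refine Finset.sum_congr rfl fun s _ => ?_
    split_ifs <;> simp
  have h3 : ∑ s : X → Fin 2, (if s x = s y then wt θ (Equiv.swap x y * π) s else 0)
      ≤ ZP θ π := by
    unfold ZP
    refine Finset.sum_le_sum fun s _ => ?_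
    split_ifs with h
    · rw [wt_swap π h]
    · rw [← wtA_univ]; exact wtA_nonneg h0 _ _
  simp only [wtA_univ] at h
  linarith

theorem le_ZP_swap {θ : X → ℝ} (h0 : ∀ i, 0 ≤ θ i) (h1 : ∀ i, θ i ≤ 1) (π : Equiv.Perm X)
    (x y : X) : ZP θ π ≤ 2 * ZP θ (Equiv.swap x y * π) := by
  have h := ZP_swap_le h0 h1 (Equiv.swap x y * π) x y
  rwa [← mul_assoc, Equiv.swap_mul_self, one_mul] at h

lemma ZP_nonneg {θ : X → ℝ} (h0 : ∀ i, 0 ≤ θ i) (π : Equiv.Perm X) : 0 ≤ ZP θ π :=
  Finset.sum_nonneg fun s _ => by rw [← wtA_univ]; exact wtA_nonneg h0 _ _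

lemma ZP_pos {θ : X → ℝ} (h0 : ∀ i, 0 ≤ θ i) (π : Equiv.Perm X) : 0 < ZP θ π := by
  unfold ZP
  refine lt_of_lt_of_le ?_ (Finset.single_le_sum
    (fun s _ => by rw [← wtA_univ]; exact wtA_nonneg h0 _ _)
    (Finset.mem_univ (fun _ : X => (0 : Fin 2))))
  simp [wt]

/-- correlation of the charges at fixed permutation (unnormalised). -/
def CP (θ : X → ℝ) (i k : X) (π : Equiv.Perm X) : ℝ :=
  - ∑ s : X → Fin 2, wt θ π s * (jj π s i * jj π s k)

lemma CP_nonneg {θ : X → ℝ} (h0 : ∀ i, 0 ≤ θ i) (h1 : ∀ i, θ i ≤ 1) {i k : X} (hik : i ≠ k)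
    (π : Equiv.Perm X) : 0 ≤ CP θ i k π := corr_nonneg π h0 h1 hik

/-- `c_ik = (∑ μ π C_π) / (∑ μ π Z_π)`. -/
lemma cc_eq (μ : Equiv.Perm X → ℝ) (θ : X → ℝ) (i k : X) :
    cc μ θ i k = (∑ π, μ π * CP θ i k π) / ∑ π, μ π * ZP θ π := by
  unfold cc EE ZZ CP ZP
  rw [← neg_div]
  congr 1
  · rw [← Finset.sum_neg_distrib]
    refine Finset.sum_congr rfl fun π _ => ?_
    rw [mul_neg, Finset.mul_sum]
    congr 1
    refine Finset.sum_congr rfl fun s _ => by ring
  · refine Finset.sum_congr rfl fun π _ => ?_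
    rw [Finset.mul_sum]

/-- The path bound. -/
theorem CP_ge (π : Equiv.Perm X) {θ : X → ℝ} (h0 : ∀ i, 0 ≤ θ i) (h1 : ∀ i, θ i ≤ 1)
    {i k : X} (m : ℕ) (hk : (π : X → X)^[m] (π i) = k)
    (hne : ∀ b < m, (π : X → X)^[b] (π i) ≠ i ∧ (π : X → X)^[b] (π i) ≠ k) (hik : i ≠ k) :
    θ i * θ k / 4 * ((∏ b ∈ range m, rr θ ((π : X → X)^[b] (π i))) * ZP θ π) ≤ CP θ i k π :=
  corr_ge π h0 h1 m hk hne hik

end

end Vale.Agent.P361.LRO.LocI
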