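import Vale.Agent.P361.LRO.Loc.Path
import Vale.Agent.P361.LRO.Loc.Law
import Vale.Agent.P361.LRO.Loc.Iface

/-!
P361 / LRO / LOC: the pointwise lower bounds of the conductances of the physical circuit
(`LocSame`, `LocNN` of helper163's interface).
-/

namespace Vale.Agent.P361.LRO.LocI

open Finset Vale.Agent.P361.LRO Vale.Agent.P361.LRO.Loc

noncomputable section

set_option linter.unusedSectionVars false

section general

variable {X : Type} [Fintype X] [DecidableEq X]

lemma EL_pos (σ : Equiv.Perm X) {l : List (X × X × ℝ)} (hl : Pr l) {f : Equiv.Perm X → ℝ}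
    (h : ∀ π, 0 < f π) : 0 < EL σ l f := by
  induction l generalizing f with
  | nil => exact h σ
  | cons g l ih =>
    have hp := hl.head
    simp only [EL]
    have h1 := ih hl.tail h
    have h2 := ih hl.tail (f := fun π => f (Equiv.swap g.1 g.2.1 * π)) fun π => h _
    rcases lt_or_eq_of_le hp.1 with h3 | h3
    · have h4 : 0 ≤ (1 - g.2.2) * EL σ l f := mul_nonneg (by linarith [hp.2]) h1.le
      have h5 : 0 < g.2.2 * EL σ l (fun π => f (Equiv.swap g.1 g.2.1 * π)) := mul_pos h3 h2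
      linarith
    · rw [← h3]
      simpa using h1

lemma dbl_ZP {θ : X → ℝ} (h0 : ∀ i, 0 ≤ θ i) (h1 : ∀ i, θ i ≤ 1) : Dbl (ZP θ) :=
  ⟨ZP_nonneg h0, fun a b π => ZP_swap_le h0 h1 π a b⟩

lemma cc_ge_of {l : List (X × X × ℝ)} {σ : Equiv.Perm X} (hl : Pr l) {θ : X → ℝ}
    (h0 : ∀ i, 0 ≤ θ i) {u v : X} {c : ℝ}
    (h : c * EL σ l (ZP θ) ≤ EL σ l (CP θ u v)) : c ≤ cc (law l σ) θ u v := by
  rw [cc_eq, sum_law, sum_law, le_div_iff₀ (EL_pos σ hl (ZP_pos h0))]
  exact h

lemma DD_eq_pow (B : Finset X) {l : List (X × X × ℝ)} {p : ℝ} (hl : ∀ g ∈ l, g.2.2 = p) :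
    DD B l = ((1 - p) / (1 + p)) ^ (l.countP fun g => decide (Bad B g)) := by
  induction l with
  | nil => simp [DD]
  | cons g l ih =>
    have ih := ih fun g' hg' => hl g' (by simp [hg'])
    rw [DD_cons, ih, List.countP_cons, hl g (by simp)]
    by_cases hb : Bad B g
    · simp [hb, pow_succ, mul_comm]
    · simp [hb]

end general

section phys

variable {V : Type} [Fintype V] [DecidableEq V]

lemma mem_gates {L : List (V × V)} {N : ℕ} {p : ℝ}
    {g : (Fin (N + 1) × V) × (Fin (N + 1) × V) × ℝ} (hg : g ∈ gates L N p) :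
    g.2.2 = p ∧ g.1.1 = g.2.1.1 := by
  unfold gates at hg
  rw [List.mem_flatMap] at hg
  obtain ⟨k, _, hk⟩ := hg
  rw [List.mem_map] at hk
  obtain ⟨e, _, rfl⟩ := hk
  exact ⟨rfl, rfl⟩

lemma sum_window_le {N k1 k2 d : ℕ} (h : ∀ k : Fin N, ℕ) (hk1 : k1 ≤ N)
    (hh : ∀ k : Fin N, h k ≤ if k2 ≤ (k : ℕ) ∧ (k : ℕ) < k1 then d else 0) :
    ((List.finRange N).map h).sum ≤ d * (k1 - k2) := by
  rw [← Fin.sum_univ_def]
  calc ∑ k : Fin N, h k ≤ ∑ k : Fin N, (if k2 ≤ (k : ℕ) ∧ (k : ℕ) < k1 then d else 0) :=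
        Finset.sum_le_sum fun k _ => hh k
    _ = ∑ k ∈ range N, (if k2 ≤ k ∧ k < k1 then d else 0) :=
        Fin.sum_univ_eq_sum_range (fun k => if k2 ≤ k ∧ k < k1 then d else 0) N
    _ = d * ((range N).filter fun k => k2 ≤ k ∧ k < k1).card := by
        rw [← Finset.sum_filter, Finset.sum_const, smul_eq_mul, mul_comm]
    _ ≤ d * (Finset.Ico k2 k1).card := by
        refine Nat.mul_le_mul_left _ (Finset.card_le_card fun k hk => ?_)
        rw [Finset.mem_filter] at hk
        exact Finset.mem_Ico.mpr hk.2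
    _ = d * (k1 - k2) := by rw [Nat.card_Ico]

/-- The window over one site. -/
def win (N k1 k2 : ℕ) (x : V) : Finset (Fin (N + 1) × V) :=
  univ.filter fun z => z.2 = x ∧ k2 ≤ (z.1 : ℕ) ∧ (z.1 : ℕ) < k1

lemma countP_win {L : List (V × V)} {N : ℕ} (p : ℝ) {d k1 k2 : ℕ} (hk1 : k1 ≤ N) (x : V)
    (hd : (L.countP fun e => e.1 = x ∨ e.2 = x) ≤ d) :
    ((gates L N p).countP fun g => decide (Bad (win N k1 k2 x) g)) ≤ d * (k1 - k2) := by
  unfold gates
  rw [List.countP_flatMap]
  refine sum_window_le _ hk1 fun k => ?_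
  simp only [Function.comp, List.countP_map]
  split_ifs with hc
  · refine le_trans ?_ hd
    refine List.countP_mono_left fun e _ he => ?_
    simp only [Function.comp, Bad, win, Finset.mem_filter, Finset.mem_univ, true_and,
      decide_eq_true_eq] at he ⊢
    tauto
  · rw [Nat.le_zero, List.countP_eq_zero]
    intro e _
    simp only [Function.comp, Bad, win, Finset.mem_filter, Finset.mem_univ, true_and,
      decide_eq_true_eq, Fin.val_castSucc]
    tauto

/-- **LocSame** of the interface. -/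
theorem locSame (L : List (V × V)) (d : ℕ) : LocSame V L d := by
  intro β N hβ hβN hd θ hθ x k k' τ hτ0 hτ1 hkk' hτ
  have h0 : ∀ i, 0 ≤ θ i := fun i => (hθ i).1
  have h1 : ∀ i, θ i ≤ 1 := fun i => (hθ i).2
  have hN : (0 : ℝ) < N := lt_of_lt_of_le hβ hβN
  set p := β / (2 * N) with hp
  have hp0 : 0 ≤ p := by rw [hp]; positivity
  have hp1 : p ≤ 1 / 2 := by
    rw [hp, div_le_iff₀ (by positivity)]; linarith
  have hPr : Pr (gates L N p) := fun g hg => by
    rw [(mem_gates hg).1]; exact ⟨hp0, by linarith⟩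
  have hkN : (k' : ℕ) ≤ N := Nat.lt_succ_iff.mp k'.isLt
  have hlt : (k : ℕ) < (k' : ℕ) := hkk'
  set q := (1 - p) / (1 + p) with hq
  have hq0 : 0 ≤ q := div_nonneg (by linarith) (by linarith)
  have hq1 : q ≤ 1 := by rw [hq, div_le_one (by linarith)]; linarith
  set r := (1 - τ) / (1 + τ) with hr
  have hr0 : 0 ≤ r := div_nonneg (by linarith) (by linarith)
  unfold phys
  refine cc_ge_of hPr h0 ?_
  set B := win N (k' : ℕ) (k : ℕ) x with hB
  have hb := EL_ge_of_agr (base N) B hPr (f := CP θ (k', x) (k, x)) (F := ZP θ)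
    (c := θ (k', x) * θ (k, x) / 4 * r ^ ((k' : ℕ) - k))
    (CP_nonneg h0 h1 (by
      intro h
      have := congrArg (fun z => ((z : Fin (N + 1) × V).1 : ℕ)) h
      simp only at this; omega))
    (dbl_ZP h0 h1) (by
      have := h0 (k', x); have := h0 (k, x); positivity) ?_
  · refine le_trans ?_ hb
    refine mul_le_mul_of_nonneg_right ?_ (EL_nonneg _ hPr (ZP_nonneg h0))
    rw [DD_eq_pow B (p := p) fun g hg => (mem_gates hg).1]
    have h3 := h0 (k', x)
    have h4 := h0 (k, x)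
    have h5 : q ^ (d * ((k' : ℕ) - k)) ≤
        q ^ ((gates L N p).countP fun g => decide (Bad B g)) :=
      pow_le_pow_of_le_one hq0 hq1 (countP_win p hkN x (hd x))
    calc θ (k', x) * θ (k, x) * (1 / 4 * (q ^ (d * ((k' : ℕ) - k)) * r ^ ((k' : ℕ) - k)))
        = θ (k', x) * θ (k, x) / 4 * r ^ ((k' : ℕ) - k) * q ^ (d * ((k' : ℕ) - k)) := by ring
      _ ≤ _ := mul_le_mul_of_nonneg_left h5 (by positivity)
  · intro π hπ
    have := CP_time π h0 h1 x hlt hkN (fun j hj1 hj2 => ?_) (t := τ) (fun j hj1 hj2 => ?_) hτ0 hτ1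
    · rw [nd_val, nd_val] at this
      rw [mul_assoc]
      exact this
    · have hj : j < N := by omega
      have e := hπ (nd N (j + 1) x)
      rw [base_nd hj] at e
      apply e
      rw [hB, win, Finset.mem_filter]
      refine ⟨Finset.mem_univ _, rfl, ?_, ?_⟩ <;>
      · simp only [nd, Fin.val_ofNat]
        rw [Nat.mod_eq_of_lt (by omega)]
        omega
    · have hj : j < N + 1 := by omega
      have := hτ ⟨j, hj⟩ (by exact hj1) (by exact hj2)
      rwa [← nd_val] at this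

lemma countP_or_le {α : Type*} (l : List α) (P Q : α → Bool) :
    (l.countP fun a => P a || Q a) ≤ l.countP P + l.countP Q := by
  induction l with
  | nil => simp
  | cons a l ih =>
    simp only [List.countP_cons]
    cases P a <;> cases Q a <;> simp <;> omega

/-- The window over two sites. -/
def win2 (N k1 k2 : ℕ) (x y : V) : Finset (Fin (N + 1) × V) :=
  univ.filter fun z => (z.2 = x ∨ z.2 = y) ∧ k2 ≤ (z.1 : ℕ) ∧ (z.1 : ℕ) < k1

lemma countP_win2 {L : List (V × V)} {N : ℕ} (p : ℝ) {d k1 k2 : ℕ} (hk1 : k1 ≤ N) (x y : V)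
    (hx : (L.countP fun e => e.1 = x ∨ e.2 = x) ≤ d)
    (hy : (L.countP fun e => e.1 = y ∨ e.2 = y) ≤ d) :
    ((gates L N p).countP fun g => decide (Bad (win2 N k1 k2 x y) g)) ≤ 2 * d * (k1 - k2) := by
  unfold gates
  rw [List.countP_flatMap]
  refine sum_window_le _ hk1 fun k => ?_
  simp only [Function.comp, List.countP_map]
  split_ifs with hc
  · have h1 := countP_or_le L (fun e => decide (e.1 = x ∨ e.2 = x))
      (fun e => decide (e.1 = y ∨ e.2 = y))
    refine le_trans ?_ (h1.trans (by omega))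
    refine List.countP_mono_left fun e _ he => ?_
    simp only [Function.comp, Bad, win2, Finset.mem_filter, Finset.mem_univ, true_and,
      decide_eq_true_eq, Bool.or_eq_true] at he ⊢
    tauto
  · rw [Nat.le_zero, List.countP_eq_zero]
    intro e _
    simp only [Function.comp, Bad, win2, Finset.mem_filter, Finset.mem_univ, true_and,
      decide_eq_true_eq, Fin.val_castSucc]
    tauto

/-- The rungs of the window. -/
def rung (N k1 k2 : ℕ) (x y : V) (g : (Fin (N + 1) × V) × (Fin (N + 1) × V) × ℝ) : Prop :=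
  ((g.1.2 = x ∧ g.2.1.2 = y) ∨ (g.1.2 = y ∧ g.2.1.2 = x)) ∧ g.1.1 = g.2.1.1 ∧
    k2 ≤ (g.1.1 : ℕ) ∧ (g.1.1 : ℕ) < k1

instance (N k1 k2 : ℕ) (x y : V) : DecidablePred (rung N k1 k2 x y) := fun g => by
  unfold rung; infer_instance

lemma rung_mem {N k1 k2 : ℕ} {x y : V} {g : (Fin (N + 1) × V) × (Fin (N + 1) × V) × ℝ}
    (h : rung N k1 k2 x y g) : g.1 ∈ win2 N k1 k2 x y ∧ g.2.1 ∈ win2 N k1 k2 x y := by
  obtain ⟨h1, h2, h3, h4⟩ := h
  simp only [win2, Finset.mem_filter, Finset.mem_univ, true_and]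
  rw [← h2]
  tauto

lemma sum_flatMap {α γ : Type*} (l : List α) (F : α → List γ) (f : γ → ℝ) :
    ((l.flatMap F).map f).sum = (l.map fun k => ((F k).map f).sum).sum := by
  induction l with
  | nil => simp
  | cons a l ih => simp [ih]

lemma GG_ge {L : List (V × V)} {N : ℕ} {p : ℝ} (hp : 0 ≤ p) {k1 k2 : ℕ} (hk1 : k1 ≤ N)
    {x y : V} (hxy : (x, y) ∈ L ∨ (y, x) ∈ L) :
    p * ((k1 - k2 : ℕ) : ℝ) ≤ GG (win2 N k1 k2 x y) (rung N k1 k2 x y) (gates L N p) := by
  unfold GG gates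
  rw [sum_flatMap, ← Fin.sum_univ_def]
  have h1 : ∀ k : Fin N, (if k2 ≤ (k : ℕ) ∧ (k : ℕ) < k1 then p else 0) ≤
      ((L.map fun e => ((k.castSucc, e.1), (k.castSucc, e.2), p)).map
        fun g : (Fin (N + 1) × V) × (Fin (N + 1) × V) × ℝ =>
          if Bad (win2 N k1 k2 x y) g ∧ rung N k1 k2 x y g then g.2.2 else 0).sum := by
    intro k
    rw [List.map_map]
    have hnn : ∀ z ∈ L.map ((fun g : (Fin (N + 1) × V) × (Fin (N + 1) × V) × ℝ =>
          if Bad (win2 N k1 k2 x y) g ∧ rung N k1 k2 x y g then g.2.2 else 0) ∘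
          fun e => ((k.castSucc, e.1), (k.castSucc, e.2), p)), (0 : ℝ) ≤ z := by
      intro z hz
      rw [List.mem_map] at hz
      obtain ⟨e, _, rfl⟩ := hz
      simp only [Function.comp]
      split_ifs
      · exact hp
      · exact le_rfl
    split_ifs with hc
    · have key : ∀ e : V × V, e ∈ L → ((e.1 = x ∧ e.2 = y) ∨ (e.1 = y ∧ e.2 = x)) →
          p ∈ L.map ((fun g : (Fin (N + 1) × V) × (Fin (N + 1) × V) × ℝ =>
          if Bad (win2 N k1 k2 x y) g ∧ rung N k1 k2 x y g then g.2.2 else 0) ∘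
          fun e => ((k.castSucc, e.1), (k.castSucc, e.2), p)) := by
        intro e he h
        rw [List.mem_map]
        refine ⟨e, he, ?_⟩
        have hr : rung N k1 k2 x y ((k.castSucc, e.1), (k.castSucc, e.2), p) :=
          ⟨h, rfl, by simpa using hc.1, by simpa using hc.2⟩
        have hb : Bad (win2 N k1 k2 x y) ((k.castSucc, e.1), (k.castSucc, e.2), p) :=
          Or.inl (rung_mem hr).1
        simp only [Function.comp, hr, hb, and_self, if_true]
      rcases hxy with h | h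
      · exact List.single_le_sum hnn _ (key _ h (Or.inl ⟨rfl, rfl⟩))
      · exact List.single_le_sum hnn _ (key _ h (Or.inr ⟨rfl, rfl⟩))
    · exact List.sum_nonneg hnn
  refine le_trans ?_ (Finset.sum_le_sum fun k _ => h1 k)
  rw [Fin.sum_univ_eq_sum_range (fun k => if k2 ≤ k ∧ k < k1 then p else 0) N,
    ← Finset.sum_filter, Finset.sum_const, nsmul_eq_mul, mul_comm]
  refine mul_le_mul_of_nonneg_right ?_ hp
  have : (Finset.Ico k2 k1).card ≤ ((range N).filter fun k => k2 ≤ k ∧ k < k1).card := by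
    refine Finset.card_le_card fun k hk => ?_
    rw [Finset.mem_Ico] at hk
    rw [Finset.mem_filter, Finset.mem_range]
    exact ⟨by omega, hk⟩
  rw [Nat.card_Ico] at this
  exact_mod_cast this

/-- **LocNN** of the interface. -/
theorem locNN (L : List (V × V)) (d : ℕ) : LocNN V L d := by
  intro β N hβ hβN hd θ hθ x y k k' τ hxy hL hτ0 hτ1 hkk' hτ
  have h0 : ∀ i, 0 ≤ θ i := fun i => (hθ i).1
  have h1 : ∀ i, θ i ≤ 1 := fun i => (hθ i).2
  have hN : (0 : ℝ) < N := lt_of_lt_of_le hβ hβN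
  set p := β / (2 * N) with hp
  have hp0 : 0 ≤ p := by rw [hp]; positivity
  have hp1 : p ≤ 1 / 2 := by
    rw [hp, div_le_iff₀ (by positivity)]; linarith
  have hPr : Pr (gates L N p) := fun g hg => by
    rw [(mem_gates hg).1]; exact ⟨hp0, by linarith⟩
  have hkN : (k' : ℕ) ≤ N := Nat.lt_succ_iff.mp k'.isLt
  have hlt : (k : ℕ) < (k' : ℕ) := hkk'
  set q := (1 - p) / (1 + p) with hq
  have hq0 : 0 ≤ q := div_nonneg (by linarith) (by linarith)
  have hq1 : q ≤ 1 := by rw [hq, div_le_one (by linarith)]; linarith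
  set r := (1 - τ) / (1 + τ) with hr
  have hr0 : 0 ≤ r := div_nonneg (by linarith) (by linarith)
  unfold phys
  refine cc_ge_of hPr h0 ?_
  set B := win2 N (k' : ℕ) (k : ℕ) x y with hB
  have h3 := h0 (k', x)
  have h4 := h0 (k, y)
  have hb := EL_ge_of_swap (base N) B (rung N (k' : ℕ) (k : ℕ) x y)
    (fun g hg => rung_mem hg) hPr (f := CP θ (k', x) (k, y)) (F := ZP θ)
    (CP_nonneg h0 h1 (by
      intro h
      have := congrArg (fun z => ((z : Fin (N + 1) × V).1 : ℕ)) h
      simp only at this; omega))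
    (dbl_ZP h0 h1) (c := θ (k', x) * θ (k, y) / 8 * r ^ ((k' : ℕ) - k)) (by positivity) ?_
  · refine le_trans ?_ hb
    refine mul_le_mul_of_nonneg_right ?_ (EL_nonneg _ hPr (ZP_nonneg h0))
    rw [DD_eq_pow B (p := p) fun g hg => (mem_gates hg).1]
    have h5 : q ^ (2 * d * ((k' : ℕ) - k)) ≤
        q ^ ((gates L N p).countP fun g => decide (Bad B g)) :=
      pow_le_pow_of_le_one hq0 hq1 (countP_win2 p hkN x y (hd x) (hd y))
    have h6 := GG_ge (N := N) hp0 hkN (k2 := (k : ℕ)) hL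
    calc θ (k', x) * θ (k, y) * (1 / 8 * (p * (((k' : ℕ) - k : ℕ) : ℝ)) *
          (q ^ (2 * d * ((k' : ℕ) - k)) * r ^ ((k' : ℕ) - k)))
        = θ (k', x) * θ (k, y) / 8 * r ^ ((k' : ℕ) - k) * (p * (((k' : ℕ) - k : ℕ) : ℝ)) *
            q ^ (2 * d * ((k' : ℕ) - k)) := by ring
      _ ≤ θ (k', x) * θ (k, y) / 8 * r ^ ((k' : ℕ) - k) * GG B (rung N (k' : ℕ) (k : ℕ) x y)
            (gates L N p) * q ^ (2 * d * ((k' : ℕ) - k)) :=
          mul_le_mul_of_nonneg_right (mul_le_mul_of_nonneg_left h6 (by positivity))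
            (pow_nonneg hq0 _)
      _ ≤ _ := mul_le_mul_of_nonneg_left h5
          (mul_nonneg (by positivity) (GG_nonneg _ _ hPr))
  · intro g hg hgood π hπ
    obtain ⟨hg1, hg2, hg3, hg4⟩ := hgood
    have hag : ∀ z : V, (z = x ∨ z = y) → ∀ j, (k : ℕ) ≤ j → j < (k' : ℕ) →
        π (nd N (j + 1) z) = nd N j z := by
      intro z hz j hj1 hj2
      have hj : j < N := by omega
      have e := hπ (nd N (j + 1) z)
      rw [base_nd hj] at e
      apply e
      rw [hB, win2, Finset.mem_filter]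
      refine ⟨Finset.mem_univ _, hz, ?_, ?_⟩ <;>
      · simp only [nd, Fin.val_ofNat]
        rw [Nat.mod_eq_of_lt (by omega)]
        omega
    have := CP_rung π h0 h1 hxy hlt hkN (hag x (Or.inl rfl)) (hag y (Or.inr rfl))
      (t := τ) (fun j hj1 hj2 => ?_) hτ0 hτ1 (r := (g.1.1 : ℕ)) hg3 hg4
    · rw [nd_val, nd_val, nd_val, nd_val] at this
      have hsw : Equiv.swap g.1 g.2.1 = Equiv.swap (g.1.1, x) (g.1.1, y) := by
        rcases hg1 with ⟨e1, e2⟩ | ⟨e1, e2⟩
        · have a1 : g.1 = (g.1.1, x) := Prod.ext rfl e1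
          have a2 : g.2.1 = (g.1.1, y) := Prod.ext hg2.symm e2
          rw [a2]; conv_lhs => rw [a1]
        · have a1 : g.1 = (g.1.1, y) := Prod.ext rfl e1
          have a2 : g.2.1 = (g.1.1, x) := Prod.ext hg2.symm e2
          rw [a2]; conv_lhs => rw [a1]
          rw [Equiv.swap_comm]
      rw [hsw, mul_assoc]
      exact this
    · have hj : j < N + 1 := by omega
      have := hτ ⟨j, hj⟩ (by exact hj1) (by exact hj2)
      rwa [← nd_val, ← nd_val] at this

end phys

end

end Vale.Agent.P361.LRO.LocI
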