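import Vale.Agent.P361.LRO.Loc.Ising

/-!
P361 / LRO / LOC: paths of the worldline permutation in the physical circuit.
-/

namespace Vale.Agent.P361.LRO.LocI

open Finset

noncomputable section

set_option linter.unusedSectionVars false

section general

variable {X : Type} [Fintype X] [DecidableEq X]

/-- Path bound along an explicit path `γ 0 = i, γ 1, …, γ (m+1) = k`. -/
theorem CP_ge_path (π : Equiv.Perm X) {θ : X → ℝ} (h0 : ∀ i, 0 ≤ θ i) (h1 : ∀ i, θ i ≤ 1)
    (γ : ℕ → X) (m : ℕ) (hγ : ∀ j, j ≤ m → π (γ j) = γ (j + 1))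
    (hne : ∀ j, 1 ≤ j → j ≤ m → γ j ≠ γ 0 ∧ γ j ≠ γ (m + 1)) (hik : γ 0 ≠ γ (m + 1)) :
    θ (γ 0) * θ (γ (m + 1)) / 4 * ((∏ j ∈ range m, rr θ (γ (j + 1))) * ZP θ π)
      ≤ CP θ (γ 0) (γ (m + 1)) π := by
  have hit : ∀ b, b ≤ m → (π : X → X)^[b] (π (γ 0)) = γ (b + 1) := by
    intro b
    induction b with
    | zero => intro _; exact hγ 0 (Nat.zero_le _)
    | succ b ih =>
      intro hb
      rw [Function.iterate_succ_apply', ih (by omega), hγ (b + 1) hb]
  have h := CP_ge π h0 h1 m (hit m le_rfl) ?_ hik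
  · refine le_trans (le_of_eq ?_) h
    congr 2
    refine Finset.prod_congr rfl fun b hb => ?_
    rw [hit b (Finset.mem_range.mp hb).le]
  · intro b hb
    rw [hit b hb.le]
    exact hne (b + 1) (by omega) (by omega)

lemma rr_ge {θ : X → ℝ} (h0 : ∀ i, 0 ≤ θ i) {x : X} {t : ℝ} (ht : θ x ≤ t) :
    (1 - t) / (1 + t) ≤ rr θ x := by
  unfold rr
  have := h0 x
  rw [div_le_div_iff₀ (by linarith) (by linarith)]
  nlinarith

end general

section phys

variable {V : Type} [Fintype V] [DecidableEq V]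

/-- The node in layer `k` above `x`. -/
def nd (N k : ℕ) (x : V) : Fin (N + 1) × V := (Fin.ofNat (N + 1) k, x)

lemma nd_inj {N k l : ℕ} {x y : V} (hk : k ≤ N) (hl : l ≤ N) (h : nd N k x = nd N l y) :
    k = l ∧ x = y := by
  unfold nd at h
  have h1 := congrArg (fun z => (z.1 : Fin (N + 1)).val) h
  simp only [Fin.val_ofNat] at h1
  rw [Nat.mod_eq_of_lt (by omega), Nat.mod_eq_of_lt (by omega)] at h1
  exact ⟨h1, congrArg Prod.snd h⟩

lemma nd_zero (N : ℕ) (x : V) : nd N 0 x = (0, x) := by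
  unfold nd; rfl

lemma nd_val (N : ℕ) (k : Fin (N + 1)) (x : V) : nd N k x = (k, x) := by
  unfold nd
  congr 1
  apply Fin.ext
  simp [Fin.val_ofNat, Nat.mod_eq_of_lt k.isLt]

lemma nd_castSucc (N : ℕ) (k : Fin N) (x : V) : nd N k x = (k.castSucc, x) := by
  rw [← nd_val N k.castSucc x]; rfl

lemma base_nd {N k : ℕ} (hk : k < N) (x : V) : base N (nd N (k + 1) x) = nd N k x := by
  unfold base nd
  simp only [Equiv.prodCongr_apply, Prod.map_apply, Equiv.subRight_apply, Equiv.refl_apply]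
  congr 1
  apply Fin.ext
  rw [Fin.sub_def]
  simp only [Fin.val_ofNat]
  have h1 : ((1 : Fin (N + 1)) : ℕ) = 1 := by
    rw [Fin.val_one']
    exact Nat.mod_eq_of_lt (by omega)
  rw [h1, Nat.mod_eq_of_lt (show k + 1 < N + 1 by omega),
    Nat.mod_eq_of_lt (show k < N + 1 by omega),
    show N + 1 - 1 + (k + 1) = k + (N + 1) by omega, Nat.add_mod_right,
    Nat.mod_eq_of_lt (show k < N + 1 by omega)]

/-- time-time path. -/
theorem CP_time {N : ℕ} (π : Equiv.Perm (Fin (N + 1) × V)) {θ : Fin (N + 1) × V → ℝ}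
    (h0 : ∀ i, 0 ≤ θ i) (h1 : ∀ i, θ i ≤ 1) (x : V) {k1 k2 : ℕ} (h21 : k2 < k1) (hk1 : k1 ≤ N)
    (hπ : ∀ k, k2 ≤ k → k < k1 → π (nd N (k + 1) x) = nd N k x)
    {t : ℝ} (ht : ∀ k, k2 < k → k < k1 → θ (nd N k x) ≤ t) (ht0 : 0 ≤ t) (ht1 : t < 1) :
    θ (nd N k1 x) * θ (nd N k2 x) / 4 * (((1 - t) / (1 + t)) ^ (k1 - k2) * ZP θ π)
      ≤ CP θ (nd N k1 x) (nd N k2 x) π := by
  obtain ⟨m, hm⟩ : ∃ m, k1 = k2 + m + 1 := ⟨k1 - k2 - 1, by omega⟩
  have hq0 : 0 ≤ (1 - t) / (1 + t) := div_nonneg (by linarith) (by linarith)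
  have hq1 : (1 - t) / (1 + t) ≤ 1 := by rw [div_le_one (by linarith)]; linarith
  have h := CP_ge_path π h0 h1 (fun j => nd N (k1 - j) x) m ?_ ?_ ?_
  · simp only [Nat.sub_zero] at h
    rw [show k1 - (m + 1) = k2 by omega] at h
    refine le_trans ?_ h
    have h3 := h0 (nd N k1 x)
    have h4 := h0 (nd N k2 x)
    refine mul_le_mul_of_nonneg_left (mul_le_mul_of_nonneg_right ?_ (ZP_nonneg h0 π))
      (by positivity)
    calc ((1 - t) / (1 + t)) ^ (k1 - k2) ≤ ((1 - t) / (1 + t)) ^ m :=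
          pow_le_pow_of_le_one hq0 hq1 (by omega)
      _ = ∏ j ∈ range m, (1 - t) / (1 + t) := by rw [Finset.prod_const, Finset.card_range]
      _ ≤ _ := Finset.prod_le_prod (fun _ _ => hq0) fun j hj => by
          have := Finset.mem_range.mp hj
          exact rr_ge h0 (ht _ (by omega) (by omega))
  · intro j hj
    have := hπ (k1 - (j + 1)) (by omega) (by omega)
    rwa [show k1 - (j + 1) + 1 = k1 - j by omega] at this
  · intro j hj1 hj2
    refine ⟨fun h => ?_, fun h => ?_⟩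
    · have := (nd_inj (by omega) (by omega) h).1; omega
    · have := (nd_inj (by omega) (by omega) h).1; omega
  · intro h
    have := (nd_inj (by omega) (by omega) h).1; omega

/-- space path: one rung `x - y` in the layer `k`. -/
theorem CP_rung {N : ℕ} (π : Equiv.Perm (Fin (N + 1) × V)) {θ : Fin (N + 1) × V → ℝ}
    (h0 : ∀ i, 0 ≤ θ i) (h1 : ∀ i, θ i ≤ 1) {x y : V} (hxy : x ≠ y) {k1 k2 : ℕ}
    (h21 : k2 < k1) (hk1 : k1 ≤ N)
    (hπx : ∀ k, k2 ≤ k → k < k1 → π (nd N (k + 1) x) = nd N k x)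
    (hπy : ∀ k, k2 ≤ k → k < k1 → π (nd N (k + 1) y) = nd N k y)
    {t : ℝ} (ht : ∀ k, k2 < k → k < k1 → θ (nd N k x) ≤ t ∧ θ (nd N k y) ≤ t) (ht0 : 0 ≤ t)
    (ht1 : t < 1) {r : ℕ} (hr2 : k2 ≤ r) (hr1 : r < k1) :
    θ (nd N k1 x) * θ (nd N k2 y) / 8 * (((1 - t) / (1 + t)) ^ (k1 - k2) * ZP θ π) ≤
      CP θ (nd N k1 x) (nd N k2 y) (Equiv.swap (nd N r x) (nd N r y) * π) := by
  obtain ⟨m, hm⟩ : ∃ m, k1 = k2 + m + 1 := ⟨k1 - k2 - 1, by omega⟩
  set σ := Equiv.swap (nd N r x) (nd N r y) * π with hσ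
  have hne : ∀ {k : ℕ} {v w : V}, k ≤ N → k ≠ r → nd N k v ≠ nd N r w := by
    intro k v w hk hkr h
    exact hkr (nd_inj hk (by omega) h).1
  have hq0 : 0 ≤ (1 - t) / (1 + t) := div_nonneg (by linarith) (by linarith)
  have hq1 : (1 - t) / (1 + t) ≤ 1 := by rw [div_le_one (by linarith)]; linarith
  have h := CP_ge_path σ h0 h1 (fun j => if r < k1 - j then nd N (k1 - j) x
    else nd N (k1 - j) y) m ?_ ?_ ?_
  · simp only [Nat.sub_zero] at h
    rw [if_pos hr1, show k1 - (m + 1) = k2 by omega, if_neg (by omega)] at h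
    refine le_trans ?_ h
    have h2 := le_ZP_swap h0 h1 π (nd N r x) (nd N r y)
    rw [← hσ] at h2
    have h3 := h0 (nd N k1 x)
    have h4 := h0 (nd N k2 y)
    have h5 : 0 ≤ θ (nd N k1 x) * θ (nd N k2 y) := mul_nonneg h3 h4
    have h6 : ((1 - t) / (1 + t)) ^ (k1 - k2) ≤ ∏ j ∈ range m,
        rr θ (if r < k1 - (j + 1) then nd N (k1 - (j + 1)) x else nd N (k1 - (j + 1)) y) := by
      calc ((1 - t) / (1 + t)) ^ (k1 - k2) ≤ ((1 - t) / (1 + t)) ^ m :=
            pow_le_pow_of_le_one hq0 hq1 (by omega)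
        _ = ∏ j ∈ range m, (1 - t) / (1 + t) := by rw [Finset.prod_const, Finset.card_range]
        _ ≤ _ := Finset.prod_le_prod (fun _ _ => hq0) fun j hj => by
            have := Finset.mem_range.mp hj
            split_ifs
            · exact rr_ge h0 (ht _ (by omega) (by omega)).1
            · exact rr_ge h0 (ht _ (by omega) (by omega)).2
    have h7 : 0 ≤ ((1 - t) / (1 + t)) ^ (k1 - k2) := pow_nonneg hq0 _
    calc θ (nd N k1 x) * θ (nd N k2 y) / 8 * (((1 - t) / (1 + t)) ^ (k1 - k2) * ZP θ π)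
        ≤ θ (nd N k1 x) * θ (nd N k2 y) / 8 * (((1 - t) / (1 + t)) ^ (k1 - k2) *
            (2 * ZP θ σ)) :=
          mul_le_mul_of_nonneg_left (mul_le_mul_of_nonneg_left h2 h7) (by positivity)
      _ = θ (nd N k1 x) * θ (nd N k2 y) / 4 * (((1 - t) / (1 + t)) ^ (k1 - k2) * ZP θ σ) := by
          ring
      _ ≤ _ := mul_le_mul_of_nonneg_left (mul_le_mul_of_nonneg_right h6 (ZP_nonneg h0 σ))
          (by positivity)
  · intro j hj
    by_cases hc : r < k1 - j
    · simp only [hc, if_true]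
      have e := hπx (k1 - (j + 1)) (by omega) (by omega)
      rw [show k1 - (j + 1) + 1 = k1 - j by omega] at e
      rw [hσ, Equiv.Perm.mul_apply, e]
      by_cases hc2 : r < k1 - (j + 1)
      · rw [if_pos hc2, Equiv.swap_apply_of_ne_of_ne]
        · exact hne (by omega) (by omega)
        · exact hne (by omega) (by omega)
      · rw [if_neg hc2]
        have : k1 - (j + 1) = r := by omega
        rw [this, Equiv.swap_apply_left]
    · have hc2 : ¬ r < k1 - (j + 1) := by omega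
      simp only [hc, hc2, if_false]
      have e := hπy (k1 - (j + 1)) (by omega) (by omega)
      rw [show k1 - (j + 1) + 1 = k1 - j by omega] at e
      rw [hσ, Equiv.Perm.mul_apply, e, Equiv.swap_apply_of_ne_of_ne]
      · exact hne (by omega) (by omega)
      · exact hne (by omega) (by omega)
  · intro j hj1 hj2
    constructor
    · intro h
      split_ifs at h with h1 h2 h2
      all_goals first
        | (have := (nd_inj (by omega) (by omega) h).1; omega)
    · intro h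
      split_ifs at h with h1 h2 h2
      all_goals first
        | (have := (nd_inj (by omega) (by omega) h).1; omega)
  · intro h
    split_ifs at h with h1 h2 h2
    all_goals first
      | (have := (nd_inj (by omega) (by omega) h).1; omega)

end phys

end

end Vale.Agent.P361.LRO.LocI
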